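import Vale.Agent.P352X.CG.Alg

/-!
# P352X, block CG: rows ADJ and QK
-/

set_option linter.all false

open scoped ComplexConjugate

namespace Vale.Agent.P352X.CA.G

open Vale.Agent.P352 Vale.Agent.P352.GF
open Complex (I)

variable {W H : Type*} [AddCommGroup W] [Module ℂ W] [NormedAddCommGroup H]
  [InnerProductSpace ℂ H] {A : Dat W H}

namespace ADJ

theorem dl (y y' z : W) : A.ii (y + y') z = A.ii y z + A.ii y' z := by
  simp only [Dat.ii, map_add, inner_add_left]

theorem sl (y y' z : W) : A.ii (y - y') z = A.ii y z - A.ii y' z := by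
  simp only [Dat.ii, map_sub, inner_sub_left]

theorem ml (c : ℂ) (y z : W) : A.ii (c • y) z = conj c * A.ii y z := by
  simp only [Dat.ii, map_smul, inner_smul_left]

theorem ar (y z z' : W) : A.ii y (z + z') = A.ii y z + A.ii y z' := by
  simp only [Dat.ii, map_add, inner_add_right]

theorem sr (y z z' : W) : A.ii y (z - z') = A.ii y z - A.ii y z' := by
  simp only [Dat.ii, map_sub, inner_sub_right]

theorem mr (c : ℂ) (y z : W) : A.ii y (c • z) = c * A.ii y z := by
  simp only [Dat.ii, map_smul, inner_smul_right]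

theorem nr (y z : W) : A.ii y (-z) = -A.ii y z := by
  simp only [Dat.ii, map_neg, inner_neg_right]

theorem zr (y : W) : A.ii y 0 = 0 := by simp only [Dat.ii, map_zero, inner_zero_right]

theorem zl (y : W) : A.ii 0 y = 0 := by simp only [Dat.ii, map_zero, inner_zero_left]

theorem pos (h : A.Ax) (y : W) (e : A.ii y y = 0) : y = 0 :=
  h.inj ((inner_self_eq_zero.1 e).trans (map_zero _).symm)

theorem P0 (h : A.Ax) (y : W) : A.P 0 y = 0 := by simpa using h.Plin 0 0 1 y

theorem M0 (h : A.Ax) (y : W) : A.M 0 y = 0 := by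
  simpa using h.Mlin 0 0 1 y (fun _ _ => by simp) fun _ _ => by simp

theorem P2 (h : A.Ax) (r s : ℝ) (a b : V) (y : W) :
    A.P (r • a + s • b) y = (r : ℂ) • A.P a y + (s : ℂ) • A.P b y := by
  have := h.Plin 0 a r y
  rw [zero_add, P0 h, zero_add] at this
  rw [h.Plin, this]

theorem wd_o (b : V) : wd e0 b o = (2 * b o) • e0 + (-2 : ℝ) • b := by
  funext n
  simp [wd, eta, e0, bas]
  ring

theorem th_eq (b : V) : th b = (2 * b o) • e0 + (-1 : ℝ) • b := by
  simp [th, sub_eq_add_neg]

theorem aS (h : A.Ax) (y z : W) :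
    A.ii (A.S y) z = -A.ii y (A.S z) + 2 * I * A.ii y (A.P e0 z) := by
  have a := h.hS y z
  simp only [LinearMap.sub_apply, LinearMap.smul_apply, sl, sr, ml, mr, Complex.conj_I] at a
  linear_combination a - I * h.hP e0 y z

theorem aM (h : A.Ax) {w : Ix → V} (hw : As w) (y z : W) :
    A.ii (A.M w y) z = -A.ii y (A.M w z) + 2 * I * A.ii y (A.P (w o) z) := by
  have a := h.hM w hw y z
  simp only [LinearMap.sub_apply, LinearMap.smul_apply, sl, sr, ml, mr, Complex.conj_I] at a
  linear_combination a - I * h.hP (w o) y z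

theorem aK (h : A.Ax) (b : V) (y z : W) : A.ii (A.K b y) z = A.ii y (-A.K b z -
    (4 * I * b o) • A.S z - (2 * I) • A.M (wd e0 b) z - (4 : ℂ) • A.P (th b) z) := by
  have a := h.hK b y z
  have p := h.hP (th b) y z
  have m := aM h (h.mat.aswd e0 b) y z
  have e : A.ii y (A.P (th b) z) = 2 * b o * A.ii y (A.P e0 z) - A.ii y (A.P b z) := by
    rw [th_eq, P2 h, ar, mr, mr]
    push_cast
    ring
  rw [wd_o, P2 h, ar, mr, mr] at m
  simp only [LinearMap.add_apply, LinearMap.smul_apply, dl, ar, ml, mr, map_mul, Complex.conj_I,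
    Complex.conj_ofReal, map_ofNat, aS h] at a
  simp only [sr, nr, mr]
  push_cast at m
  linear_combination a - p + I * m + 4 * e + (8 * b o * A.ii y (A.P e0 z)
    - 4 * A.ii y (A.P b z)) * Complex.I_mul_I

end ADJ

open ADJ

theorem adj_row (A : Dat W H) (h : A.Ax) : A.ADJ := by
  refine ⟨aK h, fun y z hy hz => ?_, pos h⟩
  have a := aK h e0 y z
  have e1 : wd e0 e0 = 0 := by
    funext m n
    simp [wd]
  have e2 : e0 o = 1 := by simp [e0, bas]
  have e3 : th e0 = e0 := by rw [th, e2, mul_one, two_smul, add_sub_cancel_right]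
  simp only [hy e0, hz e0, e1, e2, e3, M0 h, zl, sr, nr, mr, zr, Complex.ofReal_one] at a
  linear_combination aS h y z + I / 2 * a - 2 * A.ii y (A.S z) * Complex.I_mul_I

theorem qk_row (A : Dat W H) (h : A.Ax) (m : A.MUL) (k : A.KIL) (l : A.LOR) (q : A.QA) : A.QK := by
  intro d b
  have hw := h.mat.aswd e0 b
  let G := A.K b + (2 * I * b o) • A.S + I • A.M (wd e0 b) + A.P (th b)
  let c : W → W := fun y => A.S (A.K b y) - A.K b (A.S y) + A.K b y
  let qG : ℂ → W → W := fun d y => G (A.S y - d • y) + c y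
  have e : ∀ d, ∀ y ∈ A.Wd d, qG d y = (A.S (A.K b y) - (d - 1) • A.K b y) + (2 * I * b o) •
      (A.S (A.S y) - d • A.S y) + I • (A.S (A.M (wd e0 b) y) - d • A.M (wd e0 b) y) +
      (A.S (A.P (th b) y) - (d + 1) • A.P (th b) y) := fun d y hy => by
    simp only [qG, G, c, LinearMap.add_apply, LinearMap.smul_apply, map_sub, map_smul, h.SP,
      l.SM d _ hw y hy]
    module
  have a1 : ∀ d d', ∀ y ∈ A.Wd d, ∀ z ∈ A.Wd d',
      A.ii (qG d y) z + A.ii (G y) (A.S z - d' • z) = 0 := fun d d' y hy z hz => by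
    rw [e d y hy]
    simp only [G, LinearMap.add_apply, LinearMap.smul_apply, dl, ml]
    linear_combination q _ _ _ (m.WK d b y hy) z hz + conj (2 * I * b o) * q _ _ _ (m.WS d y hy) z hz
      + conj I * q _ _ _ (l.WM d _ hw y hy) z hz + q _ _ _ (m.WP d (th b) y hy) z hz
  have a2 : ∀ d d', ∀ y ∈ A.Wd d, ∀ z ∈ A.Wd d',
      A.ii (A.S y - d • y) (G z) + A.ii y (qG d' z) = 0 := fun d d' y hy z hz => by
    rw [e d' z hz]
    simp only [G, LinearMap.add_apply, LinearMap.smul_apply, ar, mr]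
    linear_combination q _ _ y hy _ (m.WK d' b z hz) + 2 * I * b o * q _ _ y hy _ (m.WS d' z hz)
      + I * q _ _ y hy _ (l.WM d' _ hw z hz) + q _ _ y hy _ (m.WP d' (th b) z hz)
  have a : ∀ d d', ∀ y ∈ A.Wd d, ∀ z ∈ A.Wd d', A.ii (c y) z + A.ii y (c z) = 0 :=
    fun d d' y hy z hz => by
      have b1 := a1 d d' y hy z hz
      have b2 := a2 d d' y hy z hz
      simp only [qG, dl, ar] at b1 b2
      linear_combination b1 + b2 - h.hK b y (A.S z - d' • z) - h.hK b (A.S y - d • y) z
  have mem : ∀ d, ∀ y ∈ A.Wd d, c y ∈ A.Wd (d - 1) := fun d y hy =>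
    add_mem (sub_mem (m.WS _ _ (m.WK d b y hy)) (m.WK d b _ (m.WS d y hy))) (m.WK d b y hy)
  have key : ∀ (n : ℕ) (d : ℂ), d.re < n → ∀ y ∈ A.Wd d, c y = 0 := fun n => by
    induction n with
    | zero =>
      intro d hd y hy
      rw [k.neg d (by simpa using hd), Submodule.mem_bot] at hy
      simp [c, hy]
    | succ n ih =>
      intro d hd y hy
      have := a _ _ y hy _ (mem d y hy)
      rw [ih (d - 1) (by push_cast at hd; simp; linarith) _ (mem d y hy), zr, add_zero] at this
      exact pos h _ this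
  intro y hy
  obtain ⟨n, hn⟩ := exists_nat_gt d.re
  exact eq_sub_of_add_eq (sub_eq_zero.1 ((sub_add_eq_add_sub _ _ _).symm.trans (key n d hn y hy)))

end Vale.Agent.P352X.CA.G
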