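import Vale.Agent.P352X.CG.Spec

/-!
# P352X, block CG: row AX1
-/

set_option linter.all false

namespace Vale.Agent.P352X.CA.G

open Vale.Agent.P352 Vale.Agent.P352.GF Vale.Agent.P352.BW Vale.Agent.P352.H246
open Vale.Agent.P352.H496 Vale.Agent.P352.H755
open TPD (pS TT pS_apply)
open UniformSpace (Completion)

noncomputable section

variable {D : Type*} [NormedAddCommGroup D] [InnerProductSpace ℂ D] {c : Cx D}

namespace AX1

lemma cs {f : Sch} (hf : HasCompactSupport f) : CS (ev f) := ⟨⟨f, rfl⟩, hf⟩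

lemma hcs_dS {f : Sch} (hf : HasCompactSupport f) (a : V) : HasCompactSupport (KDa.dS a f) :=
  hf.fderiv_apply ℝ a

/-- covariance of the fields gives covariance of the states -/
lemma cjv (g : PUG) (e : EXT c) {s : ℝ} {L : Ix → V} (hs : 0 < s) (hL : IsLor L) {R Z : Fld D}
    {y z : TT D} (h : c.Cj s L 0 R Z) (hy : c.Vv R y) (hz : c.Vv Z z) :
    y = Ug c.Q s L 0 ∘L z ∘L pS s L := e.extv _ _ fun f hf => by
  have e1 : ev (pS s L f) = fun x => ev f (sim s L 0 x) := funext (pS_apply hs hL f)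
  have h1 : HasCompactSupport (pS s L f) := .intro (g.cpt s L 0 _ hs hL hf) fun x hx =>
    (pS_apply hs hL f x).trans (image_eq_zero_of_notMem_tsupport hx)
  show _ = Ug c.Q s L 0 (z (pS s L f))
  rw [hy f hf, hz _ h1, Ug_apply _ hs hL, ue_coe hs hL, e1, ← h _ _ (cs hf), c.Q.U_vac s L 0 hs hL]

end AX1

open AX1

theorem ax1_row (c : Cx D) (h : L4 c) (x : Ops c) (f0 : Sch) : (x.dat f0).Ax1 := by
  have rep := fun y : x.W => (x.mem y).1 y.2
  have ex : ∀ {u v : x.W}, (∀ f : Sch, HasCompactSupport f → (u : TT D) f = (v : TT D) f) → u = v :=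
    fun k => Subtype.ext (h.ext.extv _ _ k)
  have klin : ∀ a b (r : ℝ) y, x.K (a + r • b) y = x.K a y + (r : ℂ) • x.K b y := fun a b r y => by
    obtain ⟨P, P', g⟩ := rep y
    refine ex fun f hf => ?_
    show _ = (x.K a y : TT D) f + (r : ℂ) • (x.K b y : TT D) f
    rw [(x.hK _ _ _ y g).vv f hf, (x.hK _ _ _ y g).vv f hf, (x.hK _ _ _ y g).vv f hf,
      h.sg.kbb _ _ _ _ _ _ _ g.cf.l (cs hf), Completion.coe_add, Completion.coe_smul]
  have al : ∀ {s L} (y : x.W), 0 < s → IsLor L → ∃ P P' R R', c.Gd P P' y ∧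
      c.Gd R R' (x.al s L y) ∧ c.Cj s L 0 R P := fun {s L} y hs hL => by
    obtain ⟨P, P', g⟩ := rep y
    obtain ⟨R, R', g', j⟩ := h.gd.al s L P P' y hs hL g
    exact ⟨P, P', R, R', g, x.hal s L y hs hL ▸ g', j⟩
  have cv : ∀ {s L R Z} {u v : x.W}, 0 < s → IsLor L → c.Cj s L 0 R Z → c.Vv R u → c.Vv Z v →
      u = x.al s L v := fun hs hL j a b =>
    Subtype.ext ((cjv h.pug h.ext hs hL j a b).trans (x.hal _ _ _ hs hL).symm)
  have df : ∀ a {P P'} {y : x.W}, c.Gd P P' y → c.Gd (Df a P) (Df a P') (x.P a y) :=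
    fun a _ _ y g => x.hP a y ▸ h.gd.df a _ _ _ g
  have pa : ∀ a (y : x.W) f, (x.P a y : TT D) f = (y : TT D) (KDa.dS a f) := fun a y f => by
    rw [x.hP]
    rfl
  refine ⟨fun a b r y => ex fun f _ => ?_, klin, fun w w' r y hw hw' => ?_, fun y => ?_,
    fun s L a y hs hL => ?_, fun s L b y hs hL => ?_, fun s L y hs hL => ?_,
    fun s L w w' y hs hL hw hw' e => ?_, fun a y => ?_, fun a b y => ?_⟩
  · show (x.P _ y : TT D) f = (x.P a y : TT D) f + (r : ℂ) • (x.P b y : TT D) f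
    rw [pa, pa, pa, ← map_smul, ← map_add]
    congr 1
    ext z
    show fderiv ℝ f z (a + r • b) = fderiv ℝ f z a + (r : ℂ) * fderiv ℝ f z b
    rw [map_add, map_smul, Complex.real_smul]
  · obtain ⟨P, P', g⟩ := rep y
    have hw'' : As (w + r • w') := fun m n => by
      simp only [Pi.add_apply, Pi.smul_apply, smul_eq_mul]
      linear_combination hw m n + r * hw' m n
    have e : Xw (w + r • w') = fun n x => Xw w n x + r * Xw w' n x := by
      funext n z
      simp only [Xw, Pi.add_apply, Pi.smul_apply, smul_eq_mul, mul_add, Finset.sum_add_distrib,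
        Finset.mul_sum, mul_left_comm]
    refine ex fun f hf => ?_
    show (x.M _ y : TT D) f = (x.M w y : TT D) f + (r : ℂ) • (x.M w' y : TT D) f
    rw [(x.hM _ _ _ y hw'' g).vv f hf, (x.hM _ _ _ y hw g).vv f hf, (x.hM _ _ _ y hw' g).vv f hf, e,
      h.sg.linX _ _ _ _ _ _ _ (h.pk.kw w hw) (h.pk.kw w' hw') g.cf.l (cs hf), Completion.coe_add,
      Completion.coe_smul]
  · obtain ⟨P, P', g⟩ := rep y
    refine (cv one_pos H496.isLor_one (fun f v _ => ?_) g.vv g.vv).symm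
    simp only [h.ba.U1, H26.sim_one0]
  · obtain ⟨P, P', R, R', g, g', j⟩ := al y hs hL
    exact cv hs hL (h.cov.df s L 0 a R P hs hL j) (df _ g').vv (df _ g).vv
  · obtain ⟨P, P', R, R', g, g', j⟩ := al y hs hL
    have k0 : x.K 0 y = 0 := by simpa using klin 0 0 1 y
    have k1 := klin 0 b s y
    rw [zero_add, k0, zero_add] at k1
    exact (cv hs hL (h.cov.kb s L b R R' P P' hs hL g'.cf.toC0 g.cf.toC0 j) (x.hK _ _ _ _ g').vv
      (x.hK _ _ _ _ g).vv).trans (by rw [k1, map_smul]; rfl)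
  · obtain ⟨P, P', R, R', g, g', j⟩ := al y hs hL
    have := h.cov.sg s L 0 Xd R R' P P' hs hL kil_d g'.cf.l g.cf.l j
    rw [h.pk.xd s L hs hL] at this
    exact cv hs hL this (x.hS _ _ _ g').vv (x.hS _ _ _ g).vv
  · obtain ⟨P, P', R, R', g, g', j⟩ := al y hs hL
    have := h.cov.sg s L 0 (Xw w) R R' P P' hs hL (h.pk.kw w hw) g'.cf.l g.cf.l j
    rw [h.pk.xw s L w w' hs hL e] at this
    exact cv hs hL this (x.hM _ _ _ _ hw g').vv (x.hM _ _ _ _ hw' g).vv
  · obtain ⟨P, P', g⟩ := rep y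
    refine ex fun f hf => ?_
    show (x.S (x.P a y) : TT D) f = (x.P a (x.S y) : TT D) f + (x.P a y : TT D) f
    rw [(x.hS _ _ _ (df a g)).vv f hf, pa, pa, (x.hS _ _ _ g).vv _ (hcs_dS hf a),
      g.vv _ (hcs_dS hf a), h.rel.s a P P' _ _ g.cf.toC0 (cs hf), KDa.ev_dS, Completion.coe_add]
  · obtain ⟨P, P', g⟩ := rep y
    refine ex fun f hf => ?_
    show (x.K b (x.P a y) : TT D) f = (x.P a (x.K b y) : TT D) f -
      ((2 * GF.mdot a b : ℝ) : ℂ) • (x.S y : TT D) f - (x.M (wd a b) y : TT D) f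
    rw [(x.hK b _ _ _ (df a g)).vv f hf, pa, (x.hK b _ _ _ g).vv _ (hcs_dS hf a),
      (x.hS _ _ _ g).vv f hf, (x.hM _ _ _ _ (h.mat.aswd a b) g).vv f hf,
      h.rel.k a b P P' _ _ g.cf.toC0 (cs hf), KDa.ev_dS, Cx.Tb, Completion.coe_sub,
      Completion.coe_add, Completion.coe_smul, sub_sub]

end

end Vale.Agent.P352X.CA.G
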