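import Vale.Agent.P352X.FSS.Defs
import Vale.Agent.P352.H755.ChDefs
import Vale.Agent.P352.H15.NPDefs
import Vale.Agent.P352.H496.ImpDefs
import Vale.Agent.P352.H246.ImpJDefs
import Vale.Agent.P352.H246.SubDefs

open Filter Topology

namespace Vale.Agent.P352X

open P352 GF H246 SubConf H496 H755
open H15 (IsSim)
open UniformSpace (Completion)

noncomputable section

variable {D : Type*} [NormedAddCommGroup D] [InnerProductSpace ℂ D]

/-- A field, as a family of operators from `D` to the Hilbert space. -/
def hil (A : Fld D) : Fn → D → Completion D := fun f v => (A f v : D)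

/-- **Spins.** A finite dimensional representation `ρ`, up to sign, of the Lorentz group (tensors
and spinors), with the spin matrices `S`. -/
structure Rp where
  n : ℕ
  ρ : (Ix → V) → Matrix (Fin n) (Fin n) ℂ
  S : Ix → Ix → Matrix (Fin n) (Fin n) ℂ
  id : ρ one = 1
  mul : ∀ L L', IsLor L → IsLor L' → ρ (fun m => sim 1 L 0 (L' m)) = ρ L' * ρ L ∨
    ρ (fun m => sim 1 L 0 (L' m)) = -(ρ L' * ρ L)
  der : ∀ (L : ℝ → Ix → V) (w : Ix → V) a b, L 0 = one → (∀ e, IsLor (L e)) →
    (∀ m n, HasDerivAt (fun e => L e m n) (w m n) 0) →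
    HasDerivAt (fun e => ρ (L e) a b) (∑ m, ∑ n, w m n * S m n a b) 0

/-- Fermi fields: odd under the grading `G`. -/
def Fer (Q : Theory D) (G : D → D) (A : Fld D) : Prop :=
  Q.fld A ∧ ∀ f v, IsTest f → A f (G v) = -G (A f v)

/-- **Theories with fermions.** `G` is the grading `(-1)^F`. Every field is the sum of a Bose and
a Fermi field, Fermi fields anticommute at space-like separation, and the similitudes are
represented up to `G` (exactly, if one factor has no Lorentz part). -/
structure Gr (Q : Theory D) (G : D → D) : Prop where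
  inv : ∀ v, G (G v) = v
  herm : ∀ v w, inner ℂ (G v) w = inner ℂ v (G w)
  bose : ∀ B f v, Q.bose B → IsTest f → B f (G v) = G (B f v)
  split : ∀ B, Q.fld B → ∃ C C', Q.bose C ∧ Fer Q G C' ∧ ∀ f v, IsTest f → B f v = C f v + C' f v
  anti : ∀ B C f g v, Fer Q G B → Fer Q G C → IsTest f → IsTest g → Sep f g →
    B f (C g v) = -C g (B f v)
  GU : ∀ s L a v, 0 < s → IsLor L → Q.U s L a (G v) = G (Q.U s L a v)
  mul : ∀ s L a s' L' a', 0 < s → 0 < s' → IsLor L → IsLor L' →
    (∀ v, Q.U s L a (Q.U s' L' a' v) =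
      Q.U (s * s') (fun m => sim 1 L 0 (L' m)) (sim s L a a') v) ∨
    L ≠ one ∧ L' ≠ one ∧ ∀ v, Q.U s L a (Q.U s' L' a' v) =
      G (Q.U (s * s') (fun m => sim 1 L 0 (L' m)) (sim s L a a') v)

/-- A multiplet of fields with spin `k`. -/
def IsMl (Q : Theory D) (k : Rp) (Φ : Fin k.n → Fld D) : Prop :=
  ∀ a L f v, IsLor L → IsTest f → Φ a f (Q.U 1 L 0 v) =
    ∑ b, k.ρ L b a • Q.U 1 L 0 (Φ b (fun x => f (sim 1 L 0 x)) v)

/-- The divergence of a vector field. -/
def dvg (X : Ix → V → ℝ) : Fn := fun x => ∑ n, pd n (fun y => (X n y : ℂ)) x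

/-- The charge of the current `X^n t_{mn}` acts on the components `P a` (with formal adjoints
`P' a`) as the infinitesimal conformal transformation `X` acts on a primary field of spin `k` and
dimension `Δ`: the commutator of the charge with `P` is
`i (-X^n ∂_n P - Δ / 4 (∂·X) P + (∂_m X^n - δ_m^n ∂·X / 4) S_mn P)`. -/
def ActS (t : Ix → Ix → Fld D) (X : Ix → V → ℝ) (k : Rp) (Δ : ℝ)
    (P P' : Fin k.n → Fn → D → Completion D) : Prop :=
  ∀ a f (w v : D) F, In Set.univ f → IsCutoff F → Tendsto (fun R =>
    inner ℂ (chg (fun m n => hil (t m n)) X (F R) w) (P a f v) -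
      inner ℂ (P' a (bar f) w) (chg (fun m n => hil (t m n)) X (F R) v)) atTop
    (𝓝 (Complex.I * inner ℂ (w : Completion D) (∑ n, P a (pd n fun x => X n x * f x) v -
      ((Δ / 4 : ℝ) : ℂ) • P a (fun x => dvg X x * f x) v + ∑ b, ∑ m, ∑ n, k.S m n b a •
        P b (fun x => (pd m (fun y => (X n y : ℂ)) x - one m n * dvg X x / 4) * f x) v)))

/-- **Conformal primaries** of spin `k` and dimension `d`: local Bose (`e = false`) or Fermi fields
(`e = true`: the twisted field `P G` is local relative to all fields) on which all conformal charges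
of `t` act as on a primary field of dimension `Re d`. -/
structure PrimS (Q : Theory D) (G : D → D) (t : Ix → Ix → Fld D) (e : Bool) (k : Rp) (d : ℂ)
    (P P' : Fin k.n → Fn → D → Completion D) : Prop where
  loc : ∀ a, ∃ R, IsLoc Q (fun f v => P a f (if e then G v else v)) R
  adj : ∀ a f (v w : D), IsTest f →
    inner ℂ (P a f v) (w : Completion D) = inner ℂ (v : Completion D) (P' a (bar f) w)
  cov : ∀ a (s : ℝ) L f (v z : D), 0 < s → IsLor L → IsTest f →
    inner ℂ (Q.U s L 0 z : Completion D) (P a f (Q.U s L 0 v)) = ∑ b,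
      (s : ℂ) ^ (4 - d) * k.ρ L b a *
        inner ℂ (z : Completion D) (P b (fun x => f (sim s L 0 x)) v)
  act : ∀ X, IsKil X → ActS t X k d.re P P'

/-- The field `A` is a finite linear combination of derivatives of conformal primaries. -/
def DescS (Q : Theory D) (G : D → D) (t : Ix → Ix → Fld D) (e : Bool) (A : Fld D) : Prop :=
  ∃ (n : ℕ) (k : Fin n → Rp) (d c : Fin n → ℂ) (α : Fin n → List Ix) (a : ∀ i, Fin (k i).n)
    (P P' : ∀ i, Fin (k i).n → Fn → D → Completion D),
    (∀ i, PrimS Q G t e (k i) (d i) (P i) (P' i)) ∧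
    ∀ f v, IsTest f → hil A f v = ∑ i, c i • P i (a i) ((α i).foldr pd f) v

/-- **Conformal field theories with fermions.** The vacuum is invariant under the conformal charges
of `t`. On every multiplet of Bose fields or of Fermi fields with a spin and a scaling dimension `d`
the charges of `t` generate the similitudes, with the dimension `Re d`, and its components are finite
linear combinations of derivatives of conformal primaries. -/
structure CFS (Q : Theory D) (G : D → D) (t : Ix → Ix → Fld D) : Prop where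
  ward : ∀ X Y Y' F, IsKil X → Al Q Set.univ Y Y' → IsCutoff F → Tendsto (fun R =>
    inner ℂ (chg (fun m n => hil (t m n)) X (F R) Q.vac) ((Y Q.vac : D) : Completion D) -
      inner ℂ ((Y' Q.vac : D) : Completion D) (chg (fun m n => hil (t m n)) X (F R) Q.vac))
    atTop (𝓝 0)
  mp : ∀ (e : Bool) k d (Φ Φ' : Fin k.n → Fld D), IsMl Q k Φ → (∀ a, Dim Q d (Φ a) ∧
    (if e then Fer Q G (Φ a) else Q.bose (Φ a)) ∧ IsAdj (Φ a) (Φ' a)) →
    (∀ r X, IsSim r X → ActS t (fun n x => X x n) k d.re (fun a => hil (Φ a)) fun a => hil (Φ' a)) ∧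
      ∀ a, DescS Q G t e (Φ a)

/-- **Conformal invariance.** `J` is a virial current for `T`, and `t = T + (∂J - η ∂·J) / 3` is a
traceless improvement of `T` whose charges act by the infinitesimal conformal transformations. If
all fields are finite sums of fields with scaling dimensions, then all multiplets of Bose or Fermi
fields with a spin consist of descendants of conformal primaries. -/
structure CInv (Q : Theory D) (G : D → D) (T : Ix → Ix → Fld D) (J : Ix → Fld D) : Prop where
  vir : IsVirial Q T J
  impr : IsImpr Q T (improveJ T J)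
  act : ConfAct Q (improveJ T J)
  cfs : CFS Q G (improveJ T J)
  desc : FSS Q → ∀ (e : Bool) k (Φ : Fin k.n → Fld D) a, IsMl Q k Φ →
    (∀ a, if e then Fer Q G (Φ a) else Q.bose (Φ a)) → DescS Q G (improveJ T J) e (Φ a)

variable {D' : Type*} [NormedAddCommGroup D'] [InnerProductSpace ℂ D']

/-- The field `A'` extends the field `A` along the isometry `i`. -/
def Xt (i : D →ₗᵢ[ℂ] D') (A : Fld D) (A' : Fld D') : Prop :=
  ∀ f v, IsTest f → i (A f v) = A' f (i v)

/-- **Sectors.** The theory `Q` is a sector of the scale covariant theory `Q'` (which may contain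
spinor fields): the vacuum and the similitudes of `Q` are restrictions of those of `Q'`, and the Bose
fields of `Q`, with their adjoints, are restrictions of Bose fields of `Q'`. -/
structure Sect (Q : Theory D) (Q' : Theory D') (i : D →ₗᵢ[ℂ] D') : Prop where
  vac : i Q.vac = Q'.vac
  U : ∀ s L a v, 0 < s → IsLor L → i (Q.U s L a v) = Q'.U s L a (i v)
  cov : ∀ s L a, 0 < s → IsLor L → Cov Q' s L a
  bose : ∀ A B, Q.bose A → IsAdj A B →
    ∃ A' B', Q'.bose A' ∧ IsAdj A' B' ∧ Xt i A A' ∧ Xt i B B'

end

end Vale.Agent.P352X
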