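import Vale.Agent.P352X.CA.Alg
import Vale.Agent.P352X.CG.Pub

/-!
# P352X, block CG, layer A: the conformal algebra for arbitrary spin (fork of block CA)
-/

set_option linter.all false

open Filter Topology
open scoped ComplexConjugate

namespace Vale.Agent.P352X

open Vale.Agent.P352.GF

variable {D : Type*} [NormedAddCommGroup D] [InnerProductSpace ℂ D]

/-- A multiplet of fields with spin `k` and scaling dimension `d`. -/
def IsMp (Q : Theory D) (k : Rp) (d : ℂ) (Φ : Fin k.n → Fld D) : Prop :=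
  ∀ a (s : ℝ) L f v, 0 < s → IsLor L → IsTest f → Φ a f (Q.U s L 0 v) =
    ∑ b, ((s : ℂ) ^ (4 - d) * k.ρ L b a) • Q.U s L 0 (Φ b (fun x => f (sim s L 0 x)) v)

end Vale.Agent.P352X

namespace Vale.Agent.P352X.CA.G

open Vale.Agent.P352 Vale.Agent.P352.GF Vale.Agent.P352.H246
open TPD (Lsc Lg)
open Complex (I)

noncomputable section

/-- the differential of a representation -/
def sg (k : Rp) (w : Ix → V) : Matrix (Fin k.n) (Fin k.n) ℂ :=
  fun a b => ∑ m, ∑ n, w m n * k.S m n a b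

/-- the first and second parts of an index -/
def i1 {n : ℕ} (j : Fin (4 * n)) : Ix := (finProdFinEquiv.symm j).1
def i2 {n : ℕ} (j : Fin (4 * n)) : Fin n := (finProdFinEquiv.symm j).2
def ic {n : ℕ} (m : Ix) (a : Fin n) : Fin (4 * n) := finProdFinEquiv (m, a)

theorem i1_ic {n : ℕ} (m : Ix) (a : Fin n) : i1 (ic m a) = m := by simp [i1, ic]
theorem i2_ic {n : ℕ} (m : Ix) (a : Fin n) : i2 (ic m a) = a := by simp [i2, ic]
theorem sum_ic {M : Type*} [AddCommMonoid M] {n : ℕ} (F : Fin (4 * n) → M) :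
    ∑ j, F j = ∑ m, ∑ a, F (ic m a) := by
  rw [← Fintype.sum_prod_type', ← (finProdFinEquiv (m := 4) (n := n)).sum_comp]
  rfl
theorem ic_eq {n : ℕ} (i j : Fin (4 * n)) : i = j ↔ i1 i = i1 j ∧ i2 i = i2 j := by
  rw [← finProdFinEquiv.symm.apply_eq_iff_eq, Prod.ext_iff]
  rfl

/-- the tensor product with the vector representation -/
def up (k : Rp) : Rp where
  n := 4 * k.n
  ρ L := Matrix.of fun i j => L (i1 i) (i1 j) * k.ρ L (i2 i) (i2 j)
  S m n := Matrix.of fun i j => (if m = i1 i ∧ n = i1 j ∧ i2 i = i2 j then 1 else 0) +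
    (if i1 i = i1 j then k.S m n (i2 i) (i2 j) else 0)
  id := by
    ext i j
    simp only [k.id, Matrix.one_apply, ic_eq, Matrix.of_apply]
    by_cases h1 : i1 i = i1 j <;> by_cases h2 : i2 i = i2 j <;> simp [GF.one, bas, h1, h2, eq_comm]
  mul L L' h h' := by
    have e : ∀ (z : ℂ), k.ρ (fun m => sim 1 L 0 (L' m)) = z • (k.ρ L' * k.ρ L) →
        (Matrix.of fun i j : Fin (4 * k.n) => (sim 1 L 0 (L' (i1 i)) (i1 j) : ℂ) *
          k.ρ (fun m => sim 1 L 0 (L' m)) (i2 i) (i2 j)) = z • (Matrix.of (fun i j =>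
            (L' (i1 i) (i1 j) : ℂ) * k.ρ L' (i2 i) (i2 j)) * Matrix.of fun i j =>
              (L (i1 i) (i1 j) : ℂ) * k.ρ L (i2 i) (i2 j)) := fun z hz => by
      ext i j
      simp only [hz, Matrix.smul_apply, Matrix.mul_apply, Matrix.of_apply, sum_ic, i1_ic, i2_ic,
        sim, Pi.zero_apply, zero_add, one_mul, smul_eq_mul, Complex.ofReal_sum, Complex.ofReal_mul,
        Finset.sum_mul, Finset.mul_sum]
      rw [Finset.sum_comm]
      exact Finset.sum_congr rfl fun m _ => Finset.sum_congr rfl fun a _ => by ring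
    rcases k.mul L L' h h' with h1 | h1
    · exact .inl ((e 1 (by rw [one_smul, h1])).trans (one_smul _ _))
    · exact .inr ((e (-1) (by rw [neg_one_smul, h1])).trans (neg_one_smul _ _))
  der L w i j h0 hL hd := by
    refine ((hd (i1 i) (i1 j)).ofReal_comp.fun_mul (k.der L w (i2 i) (i2 j) h0 hL hd)).congr_deriv ?_
    rw [h0, k.id, Matrix.one_apply]
    simp only [mul_add, Finset.sum_add_distrib, ite_and, mul_ite, mul_one, mul_zero,
      Finset.sum_ite_eq', Finset.mem_univ, if_true, GF.one, bas, Matrix.of_apply]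
    congr 1
    · simp
    · by_cases h1 : i1 i = i1 j
      · simp [h1]
      · simp [h1, Ne.symm h1]

section ten

variable {W : Type*} [AddCommGroup W] [Module ℂ W] (k : Rp)

/-- the representation -/
def tl (L : Ix → V) (y : Fin k.n → W) (μ : Fin k.n) : W := ∑ ν, k.ρ L ν μ • y ν

/-- its derivative -/
def gw (w : Ix → V) (y : Fin k.n → W) (μ : Fin k.n) : W := ∑ ν, sg k w ν μ • y ν

/-- a new contravariant index -/
def cons (R : V → W →ₗ[ℂ] W) (y : Fin k.n → W) (ν : Fin (up k).n) : W :=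
  (eta (i1 ν) : ℂ) • R (bas (i1 ν) 1) (y (i2 ν))

end ten

/-- row REP: properties of the representations -/
structure REP : Prop where
  inv : ∀ (k : Rp) L, IsLor L → ∃ z : ℂ, k.ρ L * (z • k.ρ (linv L)) = 1
  int : ∀ (k : Rp) L w w', IsLor L → As w → As w' → mm L w = mm w' L →
    k.ρ L * sg k w = sg k w' * k.ρ L
  bd : ∀ k : Rp, ∃ (C : ℝ) (N : ℕ), 0 ≤ C ∧ ∀ s a b, 0 < s → s ≤ 1 →
    ‖k.ρ (Lsc 1 s) a b‖ ≤ C / Real.sqrt s ^ N

/-! ## the abstract structure -/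

/-- the data: `P`, `K`, `S`, `M` are the actions of the conformal charges at the origin, `al` is the
action of the similitudes, and `ip` is the state at the point `i e0` -/
structure Dat (W H : Type*) [AddCommGroup W] [Module ℂ W] [NormedAddCommGroup H]
    [InnerProductSpace ℂ H] where
  ip : W →ₗ[ℂ] H
  al : ℝ → (Ix → V) → W →ₗ[ℂ] W
  P : V → W →ₗ[ℂ] W
  K : V → W →ₗ[ℂ] W
  S : W →ₗ[ℂ] W
  M : (Ix → V) → W →ₗ[ℂ] W

variable {W H : Type*} [AddCommGroup W] [Module ℂ W] [NormedAddCommGroup H]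
  [InnerProductSpace ℂ H]

namespace Dat

variable (A : Dat W H)

/-- the scalar product -/
def ii (y z : W) : ℂ := inner ℂ (A.ip y) (A.ip z)

/-- anti-hermitian operators -/
def AH (G : W →ₗ[ℂ] W) : Prop := ∀ y z, A.ii (G y) z + A.ii y (G z) = 0

/-- multiplets of rank `k` and dimension `d` -/
def Mu (k : Rp) (d : ℂ) (y : Fin k.n → W) : Prop := ∀ (s : ℝ) L μ, 0 < s → IsLor L →
  y μ = (s : ℂ) ^ (4 - d) • tl k L (fun ν => A.al s L (y ν)) μ

/-- the elements of dimension `d` -/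
def Wd (d : ℂ) : Submodule ℂ W := Submodule.span ℂ {z | ∃ k y μ, A.Mu k d y ∧ z = y μ}

/-- the derivatives of dimension `d` -/
def Ds (d : ℂ) : Submodule ℂ W := Submodule.span ℂ {z | ∃ a, ∃ y ∈ A.Wd (d - 1), z = A.P a y}

/-- primaries -/
def Pm (p : W) : Prop := ∀ b, A.K b p = 0

/-- iterated derivatives -/
def pw (α : List Ix) (z : W) : W := α.foldl (fun z m => A.P (bas m 1) z) z

/-- linearity, covariance, commutators with the derivatives -/
structure Ax1 : Prop where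
  Plin : ∀ a b (r : ℝ) y, A.P (a + r • b) y = A.P a y + (r : ℂ) • A.P b y
  Klin : ∀ a b (r : ℝ) y, A.K (a + r • b) y = A.K a y + (r : ℂ) • A.K b y
  Mlin : ∀ w w' (r : ℝ) y, As w → As w' → A.M (w + r • w') y = A.M w y + (r : ℂ) • A.M w' y
  one : ∀ y, A.al 1 GF.one y = y
  alP : ∀ s L a y, 0 < s → IsLor L → A.P (sim s L 0 a) (A.al s L y) = A.al s L (A.P a y)
  alK : ∀ s L b y, 0 < s → IsLor L →
    A.K (sim 1 L 0 b) (A.al s L y) = (s : ℂ) • A.al s L (A.K b y)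
  alS : ∀ s L y, 0 < s → IsLor L → A.S (A.al s L y) = A.al s L (A.S y)
  alM : ∀ s L w w' y, 0 < s → IsLor L → As w → As w' → mm L w = mm w' L →
    A.M w (A.al s L y) = A.al s L (A.M w' y)
  SP : ∀ a y, A.S (A.P a y) = A.P a (A.S y) + A.P a y
  KP : ∀ a b y, A.K b (A.P a y) =
    A.P a (A.K b y) - ((2 * mdot a b : ℝ) : ℂ) • A.S y - A.M (wd a b) y

/-- the charges are symmetric operators -/
structure Ax2 : Prop where
  hP : ∀ a, A.AH (A.P a)
  hS : A.AH (A.S - I • A.P e0)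
  hM : ∀ w, As w → A.AH (A.M w - I • A.P (w o))
  hK : ∀ b, A.AH (A.K b + (2 * I * b o) • A.S + I • A.M (wd e0 b) + A.P (th b))

/-- the generators of the similitudes -/
def Der : Prop := ∀ (s : ℝ → ℝ) (L : ℝ → Ix → V) (r : ℝ) w y z, s 0 = 1 → L 0 = GF.one →
  (∀ e, 0 < s e ∧ IsLor (L e)) → As w → HasDerivAt s r 0 →
  (∀ m n, HasDerivAt (fun e => L e m n) (w m n) 0) →
  HasDerivAt (fun e => A.ii (A.al (s e) (L e) y) (A.al (s e) (L e) z))
    (A.ii (I • A.P (r • e0 + w o) y - (4 * r : ℂ) • y) z +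
      A.ii y (I • A.P (r • e0 + w o) z - (4 * r : ℂ) • z)) 0

/-- the spectrum condition -/
def Bd : Prop := ∀ y, ∃ C : ℝ, ∀ r s, 0 < r → r ≤ 1 → 0 < s → s ≤ 1 →
  ‖A.ip (A.al (Real.sqrt (r * s)) (Lsc r s) y)‖ ≤ C / (r * s) ^ 2

/-- all axioms -/
structure Ax : Prop extends A.Ax1, A.Ax2 where
  inj : Function.Injective A.ip
  der : A.Der
  bd : A.Bd
  rep : REP
  mat : MAT

/-- row MUL: operations on multiplets -/
structure MUL : Prop where
  add : ∀ k d y z (c : ℂ), A.Mu k d y → A.Mu k d z → A.Mu k d fun μ => y μ + c • z μ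
  S : ∀ k d y, A.Mu k d y → A.Mu k d fun μ => A.S (y μ)
  P : ∀ k d y, A.Mu k d y → A.Mu (up k) (d + 1) (cons k A.P y)
  K : ∀ k d y, A.Mu k d y → A.Mu (up k) (d - 1) (cons k A.K y)
  inv : ∀ k d y (s : ℝ) L, A.Mu k d y → 0 < s → IsLor L → ∃ z : ℂ, ∀ μ,
    A.al s L (y μ) = z • tl k (linv L) y μ
  Pe : ∀ a y, A.P a y = ∑ m, (a m : ℂ) • A.P (bas m 1) y
  Ke : ∀ b y, A.K b y = ∑ m, (b m : ℂ) • A.K (bas m 1) y
  WP : ∀ d a, ∀ y ∈ A.Wd d, A.P a y ∈ A.Wd (d + 1)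
  WK : ∀ d b, ∀ y ∈ A.Wd d, A.K b y ∈ A.Wd (d - 1)
  WS : ∀ d, ∀ y ∈ A.Wd d, A.S y ∈ A.Wd d
  Wa : ∀ d s L, 0 < s → IsLor L → ∀ y ∈ A.Wd d, A.al s L y ∈ A.Wd d
  Da : ∀ d s L, 0 < s → IsLor L → ∀ y ∈ A.Ds d, A.al s L y ∈ A.Ds d
  Pa : ∀ s L p, 0 < s → IsLor L → A.Pm p → A.Pm (A.al s L p)
  DW : ∀ d, A.Ds d ≤ A.Wd d

/-- row KIL: lower bounds for the weights -/
structure KIL : Prop where
  neg : ∀ d : ℂ, d.re < 0 → A.Wd d = ⊥
  tw : ∀ k : Rp, ∃ N : ℕ, ∀ (y : Fin k.n → W) (d : ℂ) (n : ℕ), d.re + N < n →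
    (∀ (s : ℝ) μ, 0 < s → s ≤ 1 →
    y μ = ((Real.sqrt s : ℂ) ^ (4 - d) * (Real.sqrt s : ℂ) ^ n) •
      tl k (Lsc 1 s) (fun ν => A.al (Real.sqrt (1 * s)) (Lsc 1 s) (y ν)) μ) → y = 0

/-- families that are covariant under the null rotations -/
def Gc (k : Rp) (y : Fin k.n → W) : Prop := ∀ (e : ℝ) μ,
  y μ = tl k (Lg (e • e2 0)) (fun ν => A.al 1 (Lg (e • e2 0)) (y ν)) μ

/-- row LO1: the difference of the charge and the generator of the null rotations -/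
def LO1 : Prop := ∀ (k k' : Rp) (y : Fin k.n → W) (z : Fin k'.n → W) μ ν, A.Gc k y → A.Gc k' z →
  A.ii (A.M w0 (y μ) + gw k w0 y μ) (z ν) + A.ii (y μ) (A.M w0 (z ν) + gw k' w0 z ν) = 0

/-- row LO2: the null rotations -/
def LO2 : Prop := ∀ k d y μ, A.Mu k d y → A.M w0 (y μ) = -gw k w0 y μ

/-- row LOR: the Lorentz charges act geometrically -/
structure LOR : Prop where
  geo : ∀ k d y w μ, A.Mu k d y → As w → A.M w (y μ) = -gw k w y μ
  WM : ∀ d w, As w → ∀ y ∈ A.Wd d, A.M w y ∈ A.Wd d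
  SM : ∀ d w, As w → ∀ y ∈ A.Wd d, A.S (A.M w y) = A.M w (A.S y)

/-- row QA: the difference of the dilation charge and the generator of the dilations -/
def QA : Prop := ∀ d d', ∀ y ∈ A.Wd d, ∀ z ∈ A.Wd d',
  A.ii (A.S y - d • y) z + A.ii y (A.S z - d' • z) = 0

/-- row ADJ: adjoints -/
structure ADJ : Prop where
  K : ∀ b y z, A.ii (A.K b y) z = A.ii y (-A.K b z - (4 * I * b o) • A.S z -
    (2 * I) • A.M (wd e0 b) z - (4 : ℂ) • A.P (th b) z)
  S : ∀ y z, A.Pm y → A.Pm z → A.ii (A.S y) z = A.ii y (A.S z)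
  pos : ∀ y, A.ii y y = 0 → y = 0

/-- row QK: the commutator of the dilation charge and the special conformal charges -/
def QK : Prop := ∀ d b, ∀ y ∈ A.Wd d, A.S (A.K b y) = A.K b (A.S y) - A.K b y

/-- row DIL: the dilation charge -/
def DIL : Prop := ∀ d : ℂ, ∀ y ∈ A.Wd d, A.S y = (d.re : ℂ) • y

/-- row TOW: finite dimensional towers -/
def TOW : Prop := ∀ d : ℂ, ∀ y ∈ A.Wd d, ∃ (N : ℕ → Submodule ℂ W) (n : ℕ), y ∈ N 0 ∧
  (∀ j, n ≤ j → N j = ⊥) ∧ ∀ j, FiniteDimensional ℂ (N j) ∧ N j ≤ A.Wd (d - j) ∧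
    (∀ b, ∀ z ∈ N j, A.K b z ∈ N (j + 1)) ∧ (∀ a, ∀ z ∈ N (j + 1), A.P a z ∈ N j) ∧
    ∀ w, As w → ∀ z ∈ N j, A.M w z ∈ N j

/-- row PRI: primary parts -/
def PRI : Prop := ∀ d, ∀ y ∈ A.Wd d, ∃ p ∈ A.Wd d, A.Pm p ∧ y - p ∈ A.Ds d

/-- row UNI: primaries are not derivatives -/
def UNI : Prop := ∀ d, ∀ p ∈ A.Ds d, A.Pm p → p = 0

/-- row DSC: descendants -/
def DSC : Prop := ∀ d, ∀ y ∈ A.Wd d, y ∈ Submodule.span ℂ
  {z | ∃ k e p ν α, A.Mu k e p ∧ (∀ μ, A.Pm (p μ)) ∧ z = A.pw α (p ν)}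

/-- the result of layer A -/
structure OUT : Prop where
  lor : A.LOR
  dil : A.DIL
  dsc : A.DSC

/-- the rows of layer A -/
structure Rows : Prop where
  mul : A.Ax → A.MUL
  kil : A.Ax → A.KIL
  lo1 : A.Ax → A.LO1
  lo2 : A.Ax → A.KIL → A.LO1 → A.LO2
  lor : A.Ax → A.MUL → A.LO2 → A.LOR
  qa : A.Ax → A.QA
  adj : A.Ax → A.ADJ
  qk : A.Ax → A.MUL → A.KIL → A.LOR → A.QA → A.QK
  dil : A.Ax → A.MUL → A.KIL → A.QA → A.ADJ → A.QK → A.DIL
  tow : A.Ax → A.MUL → A.KIL → A.LOR → A.DIL → A.TOW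
  pri : A.Ax → A.ADJ → A.DIL → A.TOW → A.PRI
  uni : A.Ax → A.MUL → A.KIL → A.LOR → A.ADJ → A.DIL → A.PRI → A.UNI
  dsc : A.Ax → A.MUL → A.KIL → A.PRI → A.UNI → A.DSC

theorem out (r : A.Rows) (h : A.Ax) : A.OUT :=
  have m := r.mul h
  have k := r.kil h
  have l := r.lor h m (r.lo2 h k (r.lo1 h))
  have q := r.qa h
  have a := r.adj h
  have d := r.dil h m k q a (r.qk h m k l q)
  have p := r.pri h a d (r.tow h m k l d)
  ⟨l, d, r.dsc h m k p (r.uni h m k l a d p)⟩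

end Dat

end

end Vale.Agent.P352X.CA.G
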