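import Vale.Agent.P352X.CG.Spec
import Vale.Agent.P352X.EB.DY

/-!
# P352X, block CG, row CLJ: the charges preserve temperedness
-/

set_option linter.all false

open MeasureTheory Filter Topology
open scoped SchwartzMap ComplexConjugate ContDiff

namespace Vale.Agent.P352X.CA.G

open Vale.Agent.P352 Vale.Agent.P352.GF Vale.Agent.P352.BW Vale.Agent.P352.H246
open Vale.Agent.P352.H496 Vale.Agent.P352.H755
open Vale.Agent.P352.SubConf (IsAdj IsKil)
open EB (snw)
open Complex (I)

noncomputable section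

namespace Clj

variable {D : Type*} [NormedAddCommGroup D] [InnerProductSpace ℂ D] {c : Cx D}
  {X : Ix → V → ℝ} {P P' : Fld D}

theorem sn0 (m : ℕ) (f : Sch) : 0 ≤ sn m f := apply_nonneg _ _

theorem snm {m m' : ℕ} (h : m ≤ m') (f : Sch) : sn m f ≤ sn m' f := by
  rw [Api4.sn_eq, Api4.sn_eq]
  exact ST.sn_mono h f

theorem snw_cons (m : ℕ) (p : I2 × Sch) (u : List (I2 × Sch)) :
    snw m (p :: u) = sn m p.2 * snw m u := by simp [snw]

theorem snw_snoc (m : ℕ) (p : I2 × Sch) (u : List (I2 × Sch)) :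
    snw m (u ++ [p]) = snw m u * sn m p.2 := by simp [snw]

theorem snw0 (m : ℕ) (u : List (I2 × Sch)) : 0 ≤ snw m u := by
  induction u with
  | nil => simp [snw]
  | cons p u ih => rw [snw_cons]; exact mul_nonneg (sn0 _ _) ih

theorem snwm {m m' : ℕ} (h : m ≤ m') (u : List (I2 × Sch)) : snw m u ≤ snw m' u := by
  induction u with
  | nil => simp [snw]
  | cons p u ih =>
    rw [snw_cons, snw_cons]
    exact mul_le_mul (snm h _) ih (snw0 _ _) (sn0 _ _)

theorem lin_of {Y Y' : D → D} (h : H496.Adj Y Y') : IsLinearMap ℂ Y := ⟨h.add, h.smul⟩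

theorem apl (u : List (I2 × Sch)) : IsLinearMap ℂ (c.ap u) := by
  induction u with
  | nil => exact ⟨fun _ _ => rfl, fun _ _ => rfl⟩
  | cons p u ih =>
    have a := lin_of fun v w => c.hT.herm p.1.1 p.1.2 (ev p.2) v w ⟨_, rfl⟩
    exact ⟨fun v w => (congrArg _ (ih.map_add v w)).trans (a.map_add _ _),
      fun z v => (congrArg _ (ih.map_smul z v)).trans (a.map_smul _ _)⟩

theorem ap_snoc (u : List (I2 × Sch)) (p : I2 × Sch) (v : D) :
    c.ap (u ++ [p]) v = c.ap u (c.t p.1.1 p.1.2 (ev p.2) v) := by simp [Cx.ap]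

theorem ev_jb (h : c.JB P) (ls rs : List I2) (v : D) : ∀ᶠ p : ℕ × ℝ in atTop,
    ∀ (u u' : List (I2 × Sch)) (f : Sch), u.map Prod.fst = ls → u'.map Prod.fst = rs →
    HasCompactSupport f →
      ‖c.ap u (P (ev f) (c.ap u' v))‖ ≤ p.2 * snw p.1 u * sn p.1 f * snw p.1 u' := by
  obtain ⟨m, C, C0, h⟩ := h ls rs v
  filter_upwards [eventually_ge_atTop (m, C)] with p hp u u' f hu hu' hf
  refine (h u u' f hu hu' hf).trans ?_
  have := C0.trans hp.2
  have := snw0 p.1 u
  have := sn0 p.1 f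
  exact mul_le_mul (mul_le_mul (mul_le_mul hp.2 (snwm hp.1 u) (snw0 _ _) ‹_›) (snm hp.1 f) (sn0 _ _)
    (by positivity)) (snwm hp.1 u') (snw0 _ _) (by positivity)

theorem tg (hX : IsKil X) (n : Ix) :
    Function.HasTemperateGrowth fun x => ((eta n * X n x : ℝ) : ℂ) := by
  obtain ⟨a, b, r, w, -, h⟩ := hX
  refine Complex.ofRealCLM.hasTemperateGrowth.comp (f := fun x => eta n * X n x) ?_
  rw [show X n = _ from funext (h n)]
  have co : ∀ m, Function.HasTemperateGrowth fun z : V => z m := fun m =>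
    (ContinuousLinearMap.proj (R := ℝ) (φ := fun _ : Ix => ℝ) m).hasTemperateGrowth
  have c := fun t : ℝ => Function.HasTemperateGrowth.const (E := V) t
  have d : ∀ u : V → V, (∀ m, Function.HasTemperateGrowth fun x => u x m) →
      Function.HasTemperateGrowth fun x => GF.mdot (u x) x := fun u hu =>
    .sum fun m _ => ((c _).mul (hu m)).mul (co m)
  exact (c _).mul (((((c _).add ((c _).mul (co n))).add (.sum fun m _ => (co m).mul (c _))).add
    (((c _).mul (d (fun _ => b) fun m => c _)).mul (co n))).sub ((d _ co).mul (c _)))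

theorem hx (hX : IsKil X) (m : ℕ) (k : Ix) : ∀ᶠ p : ℕ × ℝ in atTop, ∀ n : ℕ, ∀ h : Sch,
    ev h = (fun x => ((eta k * X k x * H148.cn n x : ℝ) : ℂ)) → sn m h ≤ p.2 * (2 ^ n) ^ p.1 := by
  obtain ⟨l, A, A0, hA⟩ := ST.bd_of_temperate (tg hX k) m
  obtain ⟨G, hG⟩ := tstIs H148.G0_tst
  filter_upwards [eventually_ge_atTop (m + l,
    2 ^ m * 2 ^ (m + l) * A * (2 ^ (m + l) * ST.sn V ℂ (m + l) G))] with p hp n h hh
  obtain ⟨G1, hG1⟩ := tstIs (H148.cn_tst n)
  have p2 : (1 : ℝ) ≤ 2 ^ n := one_le_pow₀ one_le_two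
  have p3 : (0 : ℝ) < 2 ^ n := by positivity
  have p4 : ((2 : ℝ) ^ n)⁻¹ ≤ 1 := inv_le_one_of_one_le₀ p2
  have b1 := ST.sn_mul hA G1 h fun z => by
    rw [show h z = _ from congrFun hh z, show G1 z = _ from congrFun hG1 z]
    push_cast
    rfl
  have b2 := ST.sn_comp (((2 : ℝ) ^ n)⁻¹ • ContinuousLinearMap.id ℝ V) le_rfl
    (ContinuousLinearMap.opNorm_le_bound _ zero_le_one fun z => by
      rw [ContinuousLinearMap.smul_apply, norm_smul, Real.norm_of_nonneg (by positivity)]
      exact mul_le_mul_of_nonneg_right p4 (norm_nonneg _)) p2 (fun z => by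
      rw [ContinuousLinearMap.smul_apply, norm_smul, Real.norm_of_nonneg (by positivity),
        mul_inv_cancel_left₀ p3.ne']
      rfl) ((((2 : ℝ) ^ n)⁻¹ : ℝ) • G) G1 (fun z => by
      rw [show G1 z = _ from congrFun hG1 z, SchwartzMap.smul_apply,
        show G _ = _ from congrFun hG _, H148.cn_eq]
      simp) (m + l)
  rw [map_smul_eq_mul, Real.norm_of_nonneg (by positivity), one_pow, mul_one] at b2
  have g0 : 0 ≤ ST.sn V ℂ (m + l) G := apply_nonneg _ _
  rw [Api4.sn_eq]
  refine b1.trans (le_trans ?_ (mul_le_mul hp.2 (pow_le_pow_right₀ p2 hp.1) (by positivity)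
    (le_trans (by positivity) hp.2)))
  rw [mul_assoc (_ * A)]
  refine mul_le_mul_of_nonneg_left (b2.trans ?_) (by positivity)
  rw [mul_right_comm (2 ^ (m + l) : ℝ) (ST.sn V ℂ (m + l) G)]
  exact mul_le_mul_of_nonneg_left (mul_le_of_le_one_left g0 p4) (by positivity)

theorem cs {f : Sch} (hf : HasCompactSupport f) : H755.CS (ev f) := ⟨⟨f, rfl⟩, hf⟩

theorem phi (g : PUG) (b : BA c) (i : IND c) (hX : IsKil X) (hP : c.F0 P P') (n : ℕ) {f : Fn}
    (hf : H755.CS f) (hs : tsupport f ⊆ Metric.closedBall 0 (2 ^ (n + 1))) (h : Ix → Sch)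
    (hh : ∀ k, ev (h k) = fun x => ((eta k * X k x * H148.cn n x : ℝ) : ℂ)) (v : D) :
    Phi c.t X P f v = ∑ k, (c.t o k (ev (h k)) (P f v) - P f (c.t o k (ev (h k)) v)) := by
  have k : Metric.closedBall (0 : V) (2 ^ (n + 1)) ⊆ H148.cub n := fun x hx j => by
    have := (norm_le_pi_norm x j).trans (mem_closedBall_zero_iff.1 hx)
    have : (0 : ℝ) < 2 ^ n := by positivity
    rw [Real.norm_eq_abs, pow_succ] at *
    linarith
  rw [i.phi _ _ X P f _ v (isCompact_closedBall _ _) (g.ok _ _ (H148.Ok.mono k (H148.ok_cub n)))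
    hX hf hs (b.fld _ P P' f hP hf subset_rfl), Cx.dl, b.chtm _ _ _ (H148.cn_tst n) hX,
    b.chtm _ _ _ (H148.cn_tst n) hX, Finset.sum_sub_distrib]
  simp only [hh]
  congr 1
  exact map_sum (IsLinearMap.mk' _ (lin_of fun v w => hP.adj f v w hf)) _ _

theorem big {f : Sch} (hf : HasCompactSupport f) :
    ∀ᶠ n : ℕ in atTop, tsupport (ev f) ⊆ Metric.closedBall 0 (2 ^ (n + 1)) := by
  obtain ⟨R, hR⟩ := hf.isCompact.isBounded.subset_closedBall (0 : V)
  filter_upwards [(tendsto_pow_atTop_atTop_of_one_lt (one_lt_two (α := ℝ))).eventually_ge_atTop R]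
    with n hn
  refine hR.trans (Metric.closedBall_subset_closedBall (hn.trans ?_))
  exact pow_le_pow_right₀ one_le_two n.le_succ

theorem padd (g : PUG) (b : BA c) (i : IND c) (hX : IsKil X) (hP : c.F0 P P') {f f' : Sch}
    (hf : HasCompactSupport f) (hf' : HasCompactSupport f') (v : D) :
    Phi c.t X P (ev (f + f')) v = Phi c.t X P (ev f) v + Phi c.t X P (ev f') v := by
  have hs : HasCompactSupport (f + f' : Sch) := hf.add hf'
  obtain ⟨n, ⟨a1, a2⟩, a3⟩ := (((big hf).and (big hf')).and (big hs)).exists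
  choose h hh using fun k => tstIs (kil_tst hX (H148.cn_tst n) k)
  have e : ∀ w, P (ev (f + f')) w = P (ev f) w + P (ev f') w := fun w => by
    have := hP.lin (ev f) (ev f') 1 w (cs hf) (cs hf')
    simp only [one_mul, one_smul] at this
    exact this
  rw [phi g b i hX hP n (cs hf) a1 h hh, phi g b i hX hP n (cs hf') a2 h hh,
    phi g b i hX hP n (cs hs) a3 h hh, ← Finset.sum_add_distrib]
  refine Finset.sum_congr rfl fun k _ => ?_
  rw [e, e, (lin_of fun v w => c.hT.herm o k (ev (h k)) v w ⟨_, rfl⟩).map_add]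
  abel

end Clj

open Clj in
/-- row CLJ -/
theorem clj_row {D : Type*} [NormedAddCommGroup D] [InnerProductSpace ℂ D] (c : Cx D) (g : PUG)
    (b : BA c) (i : IND c) : CLJ c := by
  intro X P P' hX hP hJ ls rs v
  obtain ⟨⟨m, C⟩, hC, -, C0⟩ := ((eventually_all.2 fun k : Ix =>
    (ev_jb hJ (ls ++ [(o, k)]) rs v).and (ev_jb hJ ls ((o, k) :: rs) v)).and
      (eventually_ge_atTop ((0 : ℕ), (0 : ℝ)))).exists
  obtain ⟨⟨M, A⟩, hA, -, A0⟩ := ((eventually_all.2 fun k : Ix => hx hX m k).and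
    (eventually_ge_atTop ((0 : ℕ), (0 : ℝ)))).exists
  obtain ⟨m', B, B0, hB⟩ := EB.dy_row' m M
  simp only at hC hA C0 A0
  refine ⟨max m m', B * (8 * C * A), by positivity, fun u u' f hu hu' hf => ?_⟩
  have s1 := snw0 m u
  have s2 := snw0 m u'
  refine (hB (fun f => ‖c.ap u (c.iP X P (ev f) (c.ap u' v))‖) (8 * C * A * snw m u * snw m u')
    (by positivity) (fun f f' hf hf' => ?_) (fun R f hR hs => ?_) f hf).trans ?_
  · simp only [Cx.iP]
    rw [padd g b i hX hP hf hf', smul_add, (apl u).map_add]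
    exact norm_add_le _ _
  · have hf : HasCompactSupport f :=
      (isCompact_closedBall _ _).of_isClosed_subset (isClosed_tsupport _) hs
    obtain ⟨n, n1, n2⟩ := exists_nat_pow_near hR one_lt_two
    choose h hh using fun k => tstIs (kil_tst hX (H148.cn_tst n) k)
    have s3 := sn0 m f
    have s4 : ∀ k, sn m (h k) ≤ A * R ^ M := fun k => (hA k n _ (hh k)).trans (by gcongr)
    simp only [Cx.iP]
    rw [(apl u).map_smul, norm_smul, Complex.norm_I, one_mul, phi g b i hX hP n (cs hf)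
      (hs.trans (Metric.closedBall_subset_closedBall n2.le)) h hh,
      show c.ap u _ = _ from map_sum (IsLinearMap.mk' _ (apl u)) _ _]
    refine (norm_sum_le_of_le _ (n := fun _ => 2 * (C * snw m u * (A * R ^ M) * sn m f * snw m u'))
      fun k _ => ?_).trans (le_of_eq (by simp; ring))
    have b1 := (hC k).1 (u ++ [((o, k), h k)]) u' f (by simp [hu]) hu' hf
    have b2 := (hC k).2 u (((o, k), h k) :: u') f hu (by simp [hu']) hf
    rw [ap_snoc, snw_snoc] at b1
    rw [snw_cons] at b2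
    rw [IsLinearMap.mk'_apply, (apl u).map_sub, two_mul]
    refine (norm_sub_le _ _).trans (add_le_add (b1.trans ?_) (b2.trans ?_))
    · rw [← mul_assoc]
      gcongr
      exact s4 k
    · rw [← mul_assoc, mul_right_comm _ (sn m f)]
      gcongr
      exact s4 k
  · have t1 := snwm (le_max_left m m') u
    have t2 := snwm (le_max_left m m') u'
    have t3 := snm (le_max_right m m') f
    have t4 := sn0 m' f
    calc _ = B * (8 * C * A) * snw m u * sn m' f * snw m u' := by ring
      _ ≤ _ := by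
        have := s1.trans t1
        have := t4.trans t3
        gcongr

end

end Vale.Agent.P352X.CA.G
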