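import Vale.Agent.P352X.CG.Spec
import Vale.Agent.P352X.Api3d

/-!
# P352X, block CG, row COV
-/

set_option linter.all false

open Filter Topology

namespace Vale.Agent.P352X.CA.G

open Vale.Agent.P352 Vale.Agent.P352.GF Vale.Agent.P352.BW Vale.Agent.P352.H246
open Vale.Agent.P352.H496 Vale.Agent.P352.H755
open Vale.Agent.P352.SubConf (IsKil)
open Complex (I)

noncomputable section

namespace Cov

variable {D : Type*} [NormedAddCommGroup D] [InnerProductSpace ℂ D] {c : Cx D} {s : ℝ}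
  {L : Ix → V} {a b : V} {f : Fn} {P P' R R' Z Z' : Fld D}

theorem ts_sim (s : ℝ) (L : Ix → V) (a : V) (f : Fn) :
    tsupport (fun x => f (sim s L a x)) ⊆ sim s L a ⁻¹' tsupport f :=
  closure_minimal (fun _ hx => subset_tsupport f hx)
    ((isClosed_tsupport f).preimage (by unfold sim; fun_prop))

/-- similitudes preserve the test functions with compact support -/
theorem cs_sim (g : PUG) (hs : 0 < s) (hL : IsLor L) (a : V) (hf : H755.CS f) :
    H755.CS fun x => f (sim s L a x) := by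
  refine ⟨?_, (g.cpt s L a _ hs hL hf.2.isCompact).of_isClosed_subset (isClosed_tsupport _)
    (ts_sim s L a f)⟩
  obtain ⟨F, rfl⟩ := exists_fl hf.1
  rw [fl_sim s hs hL]
  exact isTest_fl _

theorem cs_sum {ι : Type*} (t : Finset ι) (z : ι → ℂ) {F : ι → Fn} (hF : ∀ i, H755.CS (F i)) :
    H755.CS fun x => ∑ i ∈ t, z i * F i x := by
  classical
  induction t using Finset.induction_on with
  | empty => simpa using cs_zero
  | insert i t hi ih => simpa only [Finset.sum_insert hi, add_comm] using cs_add ih (hF i) (z i)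

/-- local fields are linear in the test function -/
theorem f_sum (h : c.F0 P P') {ι : Type*} (t : Finset ι) (z : ι → ℂ) {F : ι → Fn}
    (hF : ∀ i, H755.CS (F i)) (v : D) :
    P (fun x => ∑ i ∈ t, z i * F i x) v = ∑ i ∈ t, z i • P (F i) v := by
  classical
  induction t using Finset.induction_on with
  | empty => simpa using h.lin _ _ 1 v cs_zero cs_zero
  | insert i t hi ih =>
    simp only [Finset.sum_insert hi, add_comm (z i * _)]
    rw [h.lin _ _ _ v (cs_sum t z hF) (hF i), ih, add_comm]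

theorem t_sum {T : V → D} (h : ∀ a a' (r : ℝ), T (a + r • a') = T a + (r : ℂ) • T a') {ι : Type*}
    (t : Finset ι) (r : ι → ℝ) (a : ι → V) :
    T (∑ i ∈ t, r i • a i) = ∑ i ∈ t, (r i : ℂ) • T (a i) := by
  classical
  induction t using Finset.induction_on with
  | empty => simpa using h 0 0 1
  | insert i t hi ih => rw [Finset.sum_insert hi, Finset.sum_insert hi, add_comm, h, ih, add_comm]

theorem cs_dv (hf : H755.CS f) (a : V) : H755.CS (dv a f) := cs_sum _ _ (cs_pd hf)

theorem cs_xg (hf : H755.CS f) (k : Ix) : H755.CS (xg k f) := cs_mul hf (Mq.coord k)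

theorem U_sub (hs : 0 < s) (hL : IsLor L) (a : V) (v w : D) :
    c.Q.U s L a (v - w) = c.Q.U s L a v - c.Q.U s L a w := (H15.Ulin c.Q hs hL a).map_sub v w

theorem dv_sim (hf : IsTest f) (s : ℝ) (L : Ix → V) (a b : V) :
    (fun x => dv (sim s L 0 b) f (sim s L a x)) = dv b fun x => f (sim s L a x) := by
  funext x
  let T : V →L[ℝ] V := LinearMap.toContinuousLinearMap
    { toFun := sim s L 0
      map_add' := fun y z => by ext n; simp [sim, add_mul, Finset.sum_add_distrib, mul_add]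
      map_smul' := fun r y => by ext n; simp [sim, Finset.mul_sum, mul_assoc, mul_left_comm] }
  have d : HasFDerivAt (sim s L a) T x := by
    rw [show sim s L a = fun y => a + T y by ext y n; simp [T, sim]]
    exact T.hasFDerivAt.const_add a
  have e := ((test_smooth hf).differentiable (by simp) (sim s L a x)).hasFDerivAt.comp x d
  rw [dv_test hf]
  exact ((dv_at e.differentiableAt b).trans (by rw [e.fderiv]; rfl)).symm

theorem sg (h : L1 c) {X : Ix → V → ℝ} (hs : 0 < s) (hL : IsLor L) (hX : IsKil X)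
    (r : c.F0 R R') (z : c.F0 Z Z') (j : c.Cj s L a R Z) :
    c.Cj s L a (Sg c.t X R) (Sg c.t (pk s L a X) Z) := fun f v hf => by
  have hX' := h.pk.kil s L a X hs hL hX
  have f' := cs_sim h.pug hs hL a hf
  have K := hf.2.isCompact
  obtain ⟨u, hu⟩ := h.ind.ex _ K
  have p := fun n => cs_pd (cs_mul hf (Mq.kil hX n)) n
  have e₁ := f_sum z Finset.univ (fun _ => 1) (fun n => cs_sim h.pug hs hL a (p n)) v
  have e₂ := f_sum z Finset.univ (fun _ => 1) (fun n => cs_pd (cs_mul f' (Mq.kil hX' n)) n) v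
  simp only [one_mul, one_smul] at e₁ e₂
  simp only [Sg, U_add hs hL, U_smul hs hL, j _ v (p _)]
  rw [← U_sum hs hL, ← e₁, ← e₂, funext fun x => h.pk.div s L a X f x hs hL hX hf.1,
    h.ind.phi _ u X R f _ _ K hu hX hf subset_rfl (h.ba.fld _ R R' f r hf subset_rfl),
    h.ind.phi _ _ _ Z _ _ v (h.pug.cpt s L a _ hs hL K) (h.pug.den s L a _ u hs hL K hu) hX' f'
      (ts_sim s L a f) (h.ba.fld _ Z Z' _ z f' subset_rfl), Cx.dl, Cx.dl, j f v hf,
    h.puc.ch s L a u X _ hs hL hu.1 hX, h.puc.ch s L a u X _ hs hL hu.1 hX, j f _ hf, U_sub hs hL]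

theorem tb (h : L1 c) (hs : 0 < s) (hL : IsLor L) (r : c.F0 R R') (z : c.F0 Z Z')
    (j : c.Cj s L 0 R Z) (a b : V) :
    c.Cj s L 0 (c.Tb (sim 1 L 0 a) (sim 1 L 0 b) R) (c.Tb a b Z) := fun f v hf => by
  simp only [Cx.Tb, U_add hs hL, U_smul hs hL, md_LL hL]
  rw [sg h hs hL kil_d r z j f v hf, sg h hs hL (h.pk.kw _ (h.mat.aswd _ _)) r z j f v hf,
    h.pk.xd s L hs hL, h.pk.xw s L _ _ hs hL (h.mat.wd L a b hL)]

theorem tb_smul (s : ℝ) (a b : V) (P : Fld D) : c.Tb a (s • b) P = c.Tb (s • a) b P := by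
  have e : wd a (s • b) = wd (s • a) b := by ext m n; simp [wd]; ring
  have e' : GF.mdot a (s • b) = GF.mdot (s • a) b := by
    simp [GF.mdot, mul_assoc, mul_left_comm]
  unfold Cx.Tb
  rw [e, e']

theorem kb (h : L2 c) (hs : 0 < s) (hL : IsLor L) (r : c.C0 R R') (z : c.C0 Z Z')
    (j : c.Cj s L 0 R Z) : c.Cj s L 0 (c.Kb (sim 1 L 0 b) R) (c.Kb (s • b) Z) := fun f v hf => by
  have f' := cs_sim h.pug hs hL 0 hf
  have e : ∀ k, bas k 1 = sim 1 L 0 (linv L k) := fun k =>
    (congrFun ((h.mat.sim L (linv L)).trans (h.mat.inv L hL).2) k).symm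
  have x : ∀ k, (fun x => xg k f (sim s L 0 x)) =
      fun x => ∑ l, ((s * L l k : ℝ) : ℂ) * xg l (fun x => f (sim s L 0 x)) x := fun k => by
    funext x
    simp only [xg, ← mul_assoc, ← Finset.sum_mul]
    simp [sim, Finset.mul_sum, mul_assoc, mul_comm, mul_left_comm]
  have y : ∀ l, s • bas l 1 = ∑ k, (s * L l k) • linv L k := fun l => by
    ext n
    have := congrFun (congrFun (h.mat.inv L hL).1 l) n
    simp only [mm, GF.one] at this
    simp [← this, Finset.mul_sum, mul_assoc]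
  simp only [Cx.Kb, U_sub hs hL, U_sum hs hL]
  rw [sg h.toL1 hs hL (kil_b _) r.l z.l j f v hf, h.pk.xb s L b hs hL]
  congr 1
  have t := fun l => t_sum (T := fun a => c.Tb a b Z (xg l _) v) (fun a a' t =>
    h.sg.tba a a' t b Z Z' _ v z.l (cs_xg f' l)) Finset.univ (fun k => s * L l k) (linv L)
  simp only [tb_smul, y, t, U_sum hs hL]
  rw [Finset.sum_comm]
  refine Finset.sum_congr rfl fun k _ => ?_
  rw [e k, tb h.toL1 hs hL r.l z.l j _ b _ v (cs_xg hf k), x,
    f_sum (h.sg.tb _ b Z Z' z).l _ _ (cs_xg f'), U_sum hs hL]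

end Cov

variable {D : Type*} [NormedAddCommGroup D] [InnerProductSpace ℂ D]

/-- **row COV** -/
theorem cov_row (c : Cx D) (h : L2 c) : COV c where
  sg _ _ _ _ _ _ _ _ hs hL hX r z j := Cov.sg h.toL1 hs hL hX r z j
  kb _ _ _ _ _ _ _ hs hL r z j := Cov.kb h hs hL r z j
  df s L a b _ Z _ _ j f v hf := (j _ v (Cov.cs_dv hf _)).trans
    (congrArg (fun g => c.Q.U s L a (Z g v)) (Cov.dv_sim hf.1 s L a b))

end

end Vale.Agent.P352X.CA.G
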