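import Vale.Agent.P352X.CG.Alg
import Vale.Agent.P352X.CA.Spec
import Vale.Agent.P352X.EB.Spec
import Vale.Agent.P352.H755.ChJ

/-!
# P352X, block CG, layer B: vocabulary (see notes/P352/ca.md)
-/

set_option linter.all false

open MeasureTheory Filter Topology
open scoped SchwartzMap ComplexConjugate ContDiff

namespace Vale.Agent.P352X.CA.G

open Vale.Agent.P352 Vale.Agent.P352.GF Vale.Agent.P352.BW Vale.Agent.P352.H246
open Vale.Agent.P352.H496 Vale.Agent.P352.H755
open Vale.Agent.P352.SubConf (IsAdj IsKil)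
open TPD (Lsc Lg pS TT)
open EB (snw)
open UniformSpace (Completion)
open Complex (I)

noncomputable section

variable {D : Type*} [NormedAddCommGroup D] [InnerProductSpace ℂ D]

/-- the right side of `ActS` -/
def rhs (X : Ix → V → ℝ) (k : Rp) (Δ : ℝ) (P : Fin k.n → Fld D) (a : Fin k.n) (f : Fn)
    (v : D) : D := ∑ n, P a (pd n fun x => X n x * f x) v -
  ((Δ / 4 : ℝ) : ℂ) • P a (fun x => dvg X x * f x) v + ∑ b, ∑ m, ∑ n, k.S m n b a •
    P b (fun x => (pd m (fun y => (X n y : ℂ)) x - GF.one m n * dvg X x / 4) * f x) v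

/-- **The context**: a graded theory with a traceless stress tensor -/
structure Cx (D : Type*) [NormedAddCommGroup D] [InnerProductSpace ℂ D] where
  Q : Theory D
  t : Ix → Ix → Fld D
  G : D → D
  hT : IsT Q t
  self : ∀ m n k l f g v, IsTest f → IsTest g → Sep f g →
    t m n f (t k l g v) = t k l g (t m n f v)
  cov : ∀ m n s L a f v, 0 < s → IsLor L → IsTest f → t m n f (Q.U s L a v) =
    ∑ k, ∑ l, (L k m * L l n : ℂ) • Q.U s L a (t k l (fun x => f (sim s L a x)) v)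
  ab : ∃ A, Q.bose A
  gi : ∀ v, G (G v) = v
  gh : ∀ v w, inner ℂ (G v) w = inner ℂ v (G w)
  gt : ∀ m n f v, IsTest f → t m n f (G v) = G (t m n f v)
  gU : ∀ s L a v, 0 < s → IsLor L → Q.U s L a (G v) = G (Q.U s L a v)
  gf : ∀ C, Q.fld C → ∃ (n : ℕ) (z : Fin n → ℂ) (B : Fin n → Fld D), (∀ i, Q.fld (B i)) ∧
    ∀ g v, IsTest g → G (C g (G v)) = ∑ i, z i • B i g v
  mul : ∀ s L a s' L' a', 0 < s → 0 < s' → IsLor L → IsLor L' →
    (∀ v, Q.U s L a (Q.U s' L' a' v) =
      Q.U (s * s') (fun m => sim 1 L 0 (L' m)) (sim s L a a') v) ∨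
    L ≠ GF.one ∧ L' ≠ GF.one ∧ ∀ v, Q.U s L a (Q.U s' L' a' v) =
      G (Q.U (s * s') (fun m => sim 1 L 0 (L' m)) (sim s L a a') v)
  mix : ∀ (F : Ix → Ix → V → ℝ) (w : D), (∀ m n, Tst (F m n)) →
    Tendsto (fun r : ℝ => inner ℂ (smt t F Q.vac) (Q.U (Real.sqrt (r * 1)) (Lsc r 1) 0 w))
    (𝓝[>] 0) (𝓝 (inner ℂ (smt t F Q.vac) Q.vac * inner ℂ Q.vac w))

namespace Cx

variable (c : Cx D)

theorem mul1 {s s' : ℝ} {L L' : Ix → V} (a a' : V) (v : D) (hs : 0 < s) (hs' : 0 < s')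
    (hL : IsLor L) (hL' : IsLor L') (h : L = GF.one ∨ L' = GF.one) : c.Q.U s L a (c.Q.U s' L' a' v) =
      c.Q.U (s * s') (fun m => sim 1 L 0 (L' m)) (sim s L a a') v :=
  (c.mul s L a s' L' a' hs hs' hL hL').elim (fun e => e v) fun e =>
    (h.elim e.1 e.2.1).elim

/-- the grading as a linear map -/
def gl : D →ₗ[ℂ] D where
  toFun := c.G
  map_add' v w := ext_inner_right ℂ fun y => by simp only [c.gh, inner_add_left]
  map_smul' z v := ext_inner_right ℂ fun y => by simp only [c.gh, inner_smul_left, RingHom.id_apply]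

theorem gn (v : D) : ‖c.G v‖ = ‖v‖ := by
  rw [norm_eq_sqrt_re_inner (𝕜 := ℂ), c.gh, c.gi, ← norm_eq_sqrt_re_inner]

/-- the charge of the current `X^n t_mn` with the density `u` -/
def Ch (u X : Ix → V → ℝ) (v : D) : D := smt c.t (fun m n x => eta n * X n x * u m x) v

/-- the commutator with the charge -/
def dl (u X : Ix → V → ℝ) (Y : D → D) (v : D) : D := c.Ch u X (Y v) - Y (c.Ch u X v)

/-- operators that are localized in `K` relative to `t` -/
structure Lo (K : Set V) (Y Y' : D → D) : Prop where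
  adj : ∀ v w, inner ℂ (Y v) w = inner ℂ v (Y' w)
  loc : ∀ m n g v, In (Jc K)ᶜ g → c.t m n g (Y v) = Y (c.t m n g v)

/-- the vacuum is invariant under the charge of `X` -/
def Vac (X : Ix → V → ℝ) : Prop := ∀ K u Y Y', IsCompact K → Den K u → c.Lo K Y Y' →
  inner ℂ c.Q.vac (c.dl u X Y c.Q.vac) = 0

/-- words in `t` -/
def ap (u : List (I2 × Sch)) (v : D) : D := u.foldr (fun p w => c.t p.1.1 p.1.2 (ev p.2) w) v

/-- joint tempered bounds -/
def JB (P : Fld D) : Prop := ∀ (ls rs : List I2) (v : D), ∃ (m : ℕ) (C : ℝ), 0 ≤ C ∧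
  ∀ (u u' : List (I2 × Sch)) (f : Sch), u.map Prod.fst = ls → u'.map Prod.fst = rs →
    HasCompactSupport f → ‖c.ap u (P (ev f) (c.ap u' v))‖ ≤ C * snw m u * sn m f * snw m u'

/-- local fields on test functions with compact support -/
structure F0 (P P' : Fld D) : Prop where
  lin : ∀ (f g : Fn) (z : ℂ) v, CS f → CS g → P (fun x => f x + z * g x) v = P f v + z • P g v
  adj : ∀ f v w, CS f → inner ℂ (P f v) w = inner ℂ v (P' (bar f) w)
  loc : ∀ C f g v, c.Q.fld C → CS f → CS g → Sep f g → P f (C g v) = C g (P f v)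
  loct : ∀ m n f g v, CS f → CS g → Sep f g → P f (c.t m n g v) = c.t m n g (P f v)

/-- tempered local fields with their adjoints -/
structure C0 (P P' : Fld D) : Prop where
  l : c.F0 P P'
  r : c.F0 P' P
  jl : c.JB P
  jr : c.JB P'

/-- `R` is the transform of `Z` under the similitude `x ↦ s L x + a` -/
def Cj (s : ℝ) (L : Ix → V) (a : V) (R Z : Fld D) : Prop := ∀ f v, CS f →
  R f (c.Q.U s L a v) = c.Q.U s L a (Z (fun x => f (sim s L a x)) v)

/-- translation covariant tempered local fields -/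
structure CF (P P' : Fld D) : Prop extends c.C0 P P' where
  tl : ∀ a, c.Cj 1 GF.one a P P
  tr : ∀ a, c.Cj 1 GF.one a P' P'

/-- `y` is the field `P` applied to the vacuum -/
def Vv (P : Fld D) (y : TT D) : Prop := ∀ f : Sch, HasCompactSupport f →
  y f = (P (ev f) c.Q.vac : D)

/-- good fields: all transforms are local -/
structure Gd (P P' : Fld D) (y : TT D) : Prop where
  cf : c.CF P P'
  gc : ∀ s L, 0 < s → IsLor L → ∃ R R', c.CF R R' ∧ c.Cj s L 0 R P
  vv : c.Vv P y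

/-- translation covariant distributions -/
def TC (y : TT D) : Prop := ∀ a f, Ut c.Q a (y f) = y (ST.tsl a f)

/-- `i [Q_X, P]` -/
def iP (X : Ix → V → ℝ) (P : Fld D) : Fld D := fun f v => I • Phi c.t X P f v

/-- the charge of `∂_a (Xb b)` at the origin -/
def Tb (a b : V) (P : Fld D) : Fld D := fun f v =>
  ((2 * GF.mdot a b : ℝ) : ℂ) • Sg c.t Xd P f v + Sg c.t (Xw (wd a b)) P f v

/-- the special conformal charges at the origin -/
def Kb (b : V) (P : Fld D) : Fld D := fun f v =>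
  Sg c.t (Xb b) P f v - ∑ k, c.Tb (bas k 1) b P (xg k f) v

end Cx

/-- the space of good fields and the operations on it -/
structure Ops (c : Cx D) where
  W : Submodule ℂ (TT D)
  S : W →ₗ[ℂ] W
  M : (Ix → V) → W →ₗ[ℂ] W
  K : V → W →ₗ[ℂ] W
  P : V → W →ₗ[ℂ] W
  al : ℝ → (Ix → V) → W →ₗ[ℂ] W
  mem : ∀ y, y ∈ W ↔ ∃ R R', c.Gd R R' y
  hS : ∀ R R' (y : W), c.Gd R R' y → c.Gd (Sg c.t Xd R) (Sg c.t Xd R') (S y)
  hM : ∀ w R R' (y : W), As w → c.Gd R R' y →
    c.Gd (Sg c.t (Xw w) R) (Sg c.t (Xw w) R') (M w y)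
  hK : ∀ b R R' (y : W), c.Gd R R' y → c.Gd (c.Kb b R) (c.Kb b R') (K b y)
  hP : ∀ a (y : W), (P a y : TT D) = (y : TT D) ∘L KDa.dS a
  hal : ∀ s L (y : W), 0 < s → IsLor L → (al s L y : TT D) = Ug c.Q s L 0 ∘L (y : TT D) ∘L pS s L

/-- the data of layer A -/
def Ops.dat {c : Cx D} (x : Ops c) (f0 : Sch) : Dat x.W (Completion D) where
  ip := { toFun := fun y => (y : TT D) f0, map_add' := fun _ _ => rfl, map_smul' := fun _ _ => rfl }
  al := x.al
  P := x.P
  K := x.K
  S := x.S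
  M := x.M

end

end Vale.Agent.P352X.CA.G
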