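import Vale.Agent.P352X.EB.TD
import Vale.Agent.P352X.CG.Alg

/-!
# P352X, block CG: dilates of fields in graded theories (fork of block FSS)
-/

set_option linter.all false

open Filter Topology
open scoped ComplexConjugate

namespace Vale.Agent.P352X.Fss.G

open Vale.Agent.P352 Vale.Agent.P352.GF Vale.Agent.P352.H15 Vale.Agent.P352.H755
open Vale.Agent.P352.H496

noncomputable section

variable {D : Type*} [NormedAddCommGroup D] [InnerProductSpace ℂ D] {Q : Theory D}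
  {T : Ix → Ix → Fld D} {B : Fld D} {f g : Fn} {s : ℝ}

/-- the group law if one factor has no Lorentz part -/
def M1 (Q : Theory D) : Prop := ∀ s L a s' L' a' v, 0 < s → 0 < s' → IsLor L → IsLor L' →
  L = GF.one ∨ L' = GF.one → Q.U s L a (Q.U s' L' a' v) =
    Q.U (s * s') (fun m => sim 1 L 0 (L' m)) (sim s L a a') v

theorem m1_rep {A : (V → V) → D → D} (R : Rep Q A) : M1 Q :=
  fun s L a s' L' a' v hs hs' hL hL' _ => R.mul s L a s' L' a' v hs hs' hL hL'

theorem m1_gr {G : D → D} (g : Gr Q G) : M1 Q := fun s L a s' L' a' v hs hs' hL hL' h =>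
  (g.mul s L a s' L' a' hs hs' hL hL').elim (fun e => e v) fun e => (h.elim e.1 e.2.1).elim

section
variable (R : M1 Q)
include R

lemma U_dil (hs : 0 < s) {L : Ix → V} (hL : IsLor L) (a : V) (v : D) :
    u Q s hs (Q.U 1 L a v) = Q.U s L (s • a) v ∧ Q.U 1 L a (u Q s hs v) = Q.U s L a v := by
  constructor
  · refine (R s _ 0 1 L a v hs one_pos H496.isLor_one hL (.inl rfl)).trans ?_
    simp only [sim_dil, zero_add, one_smul, mul_one]
  · refine (R 1 L a s _ 0 v one_pos hs hL H496.isLor_one (.inr rfl)).trans ?_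
    have : sim 1 L a 0 = a := by
      funext n
      simp [sim]
    simp only [this, one_mul, GF.one, N86.c1_bas]

lemma u_inv (hs : 0 < s) (v : D) : u Q s hs (u Q s⁻¹ (inv_pos.2 hs) v) = v := by
  have e : ∀ v, Q.U 1 GF.one 0 (Q.U 1 GF.one 0 v) = Q.U 1 GF.one 0 v := fun v => by
    have := (U_dil R one_pos H496.isLor_one 0 v).1
    rwa [smul_zero] at this
  have e1 : Q.U 1 GF.one 0 v = v := by
    rw [← sub_eq_zero, ← inner_self_eq_zero (𝕜 := ℂ), ← Q.U_inner 1 _ 0 _ _ one_pos H496.isLor_one]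
    have := map_sub (u Q 1 one_pos) (Q.U 1 GF.one 0 v) v
    rw [show Q.U 1 GF.one 0 (Q.U 1 GF.one 0 v - v) = 0 from this.trans (sub_eq_zero.2 (e v)),
      inner_zero_left]
  refine (R s _ 0 s⁻¹ _ 0 v hs (inv_pos.2 hs) H496.isLor_one H496.isLor_one (.inl rfl)).trans ?_
  simpa only [sim_dil, zero_add, one_smul, smul_zero, mul_inv_cancel₀ hs.ne'] using e1

lemma inv_u (hs : 0 < s) (v : D) : u Q s⁻¹ (inv_pos.2 hs) (u Q s hs v) = v := by
  simpa only [inv_inv] using u_inv R (inv_pos.2 hs) v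

lemma u_adj (hs : 0 < s) (v w : D) :
    inner ℂ w (u Q s hs v) = inner ℂ (u Q s⁻¹ (inv_pos.2 hs) w) v := by
  conv_lhs => rw [← u_inv R hs w]
  exact Q.U_inner _ _ _ _ _ hs H496.isLor_one

end

variable {F : Finset ℂ} {C : ℂ → Fld D}

lemma dec_dl (h : Dec Q B F C) (R : M1 Q) (hs : 0 < s) (hf : IsTest f) (v : D) :
    dl Q s hs B f v = ∑ d ∈ F, (s : ℂ) ^ (d - 4) • C d f v := by
  rw [Fss.dl, h.key (inv_pos.2 hs) (ds_test hs hf), u_inv R, ds_inv hs]
  refine Finset.sum_congr rfl fun d _ => ?_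
  rw [Complex.ofReal_inv, Complex.inv_cpow _ _ (by
    rw [Complex.arg_ofReal_of_nonneg hs.le]; exact Real.pi_ne_zero.symm), ← Complex.cpow_neg,
    neg_sub]

lemma dec_comm (h : Dec Q B F C) (R : M1 Q) (hs : 0 < s) (hf : IsTest f) (P : D →ₗ[ℂ] D)
    (v w : D) : inner ℂ w (u Q s hs (P (u Q s⁻¹ (inv_pos.2 hs) (B f v))) -
      B f (u Q s hs (P (u Q s⁻¹ (inv_pos.2 hs) v)))) = ∑ d ∈ F, (s : ℂ) ^ (4 - d) *
      inner ℂ (u Q s⁻¹ (inv_pos.2 hs) w) (P (C d (ds s f) (u Q s⁻¹ (inv_pos.2 hs) v)) -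
        C d (ds s f) (P (u Q s⁻¹ (inv_pos.2 hs) v))) := by
  conv_lhs => rw [← u_inv R hs v]
  rw [h.key hs hf, h.key hs hf, inv_u R, inv_u R, ← map_sub, u_adj R, map_sum,
    ← Finset.sum_sub_distrib, inner_sum]
  exact Finset.sum_congr rfl fun d _ => by rw [map_smul, ← smul_sub, inner_smul_right]

/-- the components are linear combinations of dilates -/
lemma dec_fm (h : Dec Q B F C) (R : M1 Q) {S : Finset ℝ} {c : ℝ → ℂ} {e : ℂ} (he : e ∈ F)
    (hc : ∀ d ∈ F, ∑ t ∈ S, c t * (Real.exp t : ℂ) ^ (d - 4) = if d = e then 1 else 0)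
    (hf : IsTest f) (v : D) : C e f v = ∑ t ∈ S, c t • dl Q _ (Real.exp_pos t) B f v := by
  simp only [dec_dl h R _ hf, Finset.smul_sum, smul_smul]
  rw [Finset.sum_comm, Finset.sum_congr rfl fun d hd => by rw [← Finset.sum_smul, hc d hd]]
  simp [he]

lemma xt_comp {D' : Type*} [NormedAddCommGroup D'] [InnerProductSpace ℂ D'] {Q' : Theory D'}
    {i : D →ₗᵢ[ℂ] D'} (h : Sect Q Q' i) (R : M1 Q) (R' : M1 Q') {B' : Fld D'} {F' : Finset ℂ}
    {C' : ℂ → Fld D'} (x : Xt i B B') (d : Dec Q B F C) (d' : Dec Q' B' F' C') {e : ℂ}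
    (he : e ∈ F) (he' : e ∈ F') : Xt i (C e) (C' e) := fun f v hf => by
  classical
  obtain ⟨S, c, hc⟩ := EB.vand' (F ∪ F') e
  rw [dec_fm d R he (fun d hd => hc d (Finset.mem_union_left _ hd)) hf,
    dec_fm d' R' he' (fun d hd => hc d (Finset.mem_union_right _ hd)) hf, map_sum]
  refine Finset.sum_congr rfl fun t _ => ?_
  have p := Real.exp_pos t
  rw [map_smul]
  exact congrArg _ ((h.U _ _ _ _ p H496.isLor_one).trans (congrArg _ ((x _ _ (ds_test p hf)).trans
    (congrArg _ (h.U _ _ _ _ (inv_pos.2 p) H496.isLor_one)))))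

lemma dl_ml (R : M1 Q) {k : Rp} {Φ : Fin k.n → Fld D} (h : IsMl Q k Φ) (hs : 0 < s)
    (μ : Fin k.n) {L : Ix → V} (hL : IsLor L) (hf : IsTest f) (v : D) :
    dl Q s hs (Φ μ) f (Q.U 1 L 0 v) = ∑ ν, k.ρ L ν μ •
      Q.U 1 L 0 (dl Q s hs (Φ ν) (fun x => f (sim 1 L 0 x)) v) := by
  rw [dl, (U_dil R _ hL 0 v).1, smul_zero, ← (U_dil R (inv_pos.2 hs) hL _ v).2,
    h μ L _ _ hL (ds_test hs hf)]
  simp only [map_sum, map_smul, dl, (U_dil R hs hL _ _).1, (U_dil R hs hL _ _).2, smul_zero]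
  refine Finset.sum_congr rfl fun ν _ => ?_
  congr 3
  funext x
  rw [ds_apply, ds_apply, N86.c1_sim, N86.c1_sim 1 L 0, simL_smul]
  simp only [one_smul, zero_add]

lemma mp_of (R : M1 Q) {k : Rp} {d : ℂ} {Φ : Fin k.n → Fld D} (h : IsMl Q k Φ)
    (hd : ∀ a, Dim Q d (Φ a)) : IsMp Q k d Φ := fun ν s L f v hs hL hf => by
  let W : D →ₗ[ℂ] D := ⟨⟨Q.U 1 L 0, U_add one_pos hL 0⟩, U_smul one_pos hL 0⟩
  rw [← (U_dil R hs hL 0 v).2]
  refine (h ν L f _ hL hf).trans (Finset.sum_congr rfl fun b _ => ?_)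
  show _ • W _ = _
  rw [show Φ b _ (u Q s hs v) = _ from hd b s _ v hs (Ap.test_sim one_pos hL 0 hf), map_smul,
    smul_smul, mul_comm, ← (U_dil R hs hL 0 _).2,
    show (fun x => f (sim 1 L 0 (sim s GF.one 0 x))) = fun x => f (sim s L 0 x) from
      funext fun x => by
        rw [sim_dil, zero_add, N86.c1_sim, N86.c1_sim s L 0, simL_smul, one_smul]]
  rfl

/-- multiplets are sums of multiplets with scaling dimensions -/
theorem ml_dec (R : M1 Q) (hF : FSS Q) {k : Rp} {Φ : Fin k.n → Fld D} (h : IsMl Q k Φ)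
    (hΦ : ∀ μ, Q.fld (Φ μ)) : ∃ (G : Finset ℂ) (C : Fin k.n → ℂ → Fld D),
    (∀ μ f v, IsTest f → Φ μ f v = ∑ d ∈ G, C μ d f v) ∧ ∀ d ∈ G, IsMp Q k d (C · d) ∧ ∀ μ,
      (Q.bose (Φ μ) → Q.bose (C μ d)) ∧ ∀ H : D →ₗ[ℂ] D,
        (∀ s v, 0 < s → Q.U s GF.one 0 (H v) = H (Q.U s GF.one 0 v)) → Fer Q H (Φ μ) →
        Fer Q H (C μ d) := by
  classical
  choose F C hC hs using fun ν => hF (Φ ν) (hΦ ν)
  let G : Finset ℂ := Finset.univ.biUnion F
  have hd : ∀ ν, Dec Q (Φ ν) G (C ν) := fun ν =>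
    ⟨fun d => ⟨(hC ν d).1, (hC ν d).2.2.1⟩, fun f v hf => (hs ν f v hf).trans
      (Finset.sum_subset (fun d hd => Finset.mem_biUnion.2 ⟨ν, Finset.mem_univ _, hd⟩)
        fun d _ hd => by rw [(hC ν d).2.2.2 hd]; rfl)⟩
  refine ⟨G, C, fun μ => (hd μ).2, fun e he => ?_⟩
  obtain ⟨S, c, hc⟩ := EB.vand' G e
  have fm := fun ν f v (hf : IsTest f) => dec_fm (hd ν) R he hc hf v
  refine ⟨mp_of R (fun ν L f v hL hf => ?_) fun ν => (hC ν e).2.2.1, fun μ => ⟨(hC μ e).2.1,
    fun H hH h1 => ⟨(hC μ e).1, fun f v hf => ?_⟩⟩⟩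
  · let W : D →ₗ[ℂ] D := ⟨⟨Q.U 1 L 0, U_add one_pos hL 0⟩, U_smul one_pos hL 0⟩
    have t1 := Ap.test_sim one_pos hL 0 hf
    show _ = ∑ ν', _ • W _
    simp only [fm _ _ _ t1, fm ν f _ hf, dl_ml R h _ ν hL hf, map_sum, map_smul,
      Finset.smul_sum]
    rw [Finset.sum_comm]
    exact Finset.sum_congr rfl fun _ _ => Finset.sum_congr rfl fun t _ => smul_comm _ _ _
  · rw [fm μ f _ hf, fm μ f _ hf, map_sum, ← Finset.sum_neg_distrib]
    refine Finset.sum_congr rfl fun t _ => ?_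
    have p := Real.exp_pos t
    rw [map_smul, ← smul_neg, dl, dl]
    congr 1
    rw [show u Q _ (inv_pos.2 p) (H v) = _ from hH _ v (inv_pos.2 p), h1.2 _ _ (ds_test p hf),
      map_neg]
    exact congrArg _ (hH _ _ p)

section
variable (R : M1 Q) (hT : Stress0 Q T) (hs : 0 < s)
include R hT

lemma dl_herm (m n : Ix) (hf : IsTest f) (v w : D) :
    inner ℂ (dl Q s hs (T m n) f v) w = inner ℂ v (dl Q s hs (T m n) (bar f) w) := by
  rw [dl, dl, u_adj R, ← inner_conj_symm, u_adj R, inner_conj_symm,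
    hT.herm m n _ _ _ (ds_test hs hf)]
  rfl

lemma dl_cov (m n : Ix) {L : Ix → V} (hL : IsLor L) (a : V) (hf : IsTest f) (v : D) :
    dl Q s hs (T m n) f (Q.U 1 L a v) = ∑ k, ∑ l, (L k m * L l n : ℂ) •
      Q.U 1 L a (dl Q s hs (T k l) (fun x => f (sim 1 L a x)) v) := by
  rw [dl, (U_dil R _ hL a v).1, ← (U_dil R (inv_pos.2 hs) hL _ v).2,
    hT.cov m n L _ _ _ hL (ds_test hs hf)]
  simp only [map_sum, map_smul, dl, (U_dil R hs hL _ _).1, (U_dil R hs hL _ _).2,
    smul_inv_smul₀ hs.ne']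
  refine Finset.sum_congr rfl fun k _ => Finset.sum_congr rfl fun l _ => ?_
  congr 3
  funext x
  rw [ds_apply, ds_apply, N86.c1_sim, N86.c1_sim 1 L a, simL_smul, smul_add,
    smul_inv_smul₀ hs.ne', one_smul, one_smul]

lemma dl_cons (n : Ix) (hf : IsTest f) (v : D) : ∑ m, dl Q s hs (T m n) (pd m f) v = 0 := by
  have := hT.conserved n _ (u Q s⁻¹ (inv_pos.2 hs) v) (ds_test hs hf)
  simp only [ds_pd hs hf, fun m => lin1 (Q.bose_fld _ (hT.bose m n))
    (ds_test hs (Ap.test_pd m hf)), ← Finset.smul_sum] at this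
  simp only [dl, ← map_sum]
  rw [(smul_eq_zero.1 this).resolve_left (Complex.ofReal_ne_zero.2 hs.ne'), map_zero]

lemma dl_charge (h : Dec Q B F C) {G : ℝ → Fn} (hG : IsCutoff G) (n : Ix) (hf : IsTest f)
    (hc : HasCompactSupport f) (v w : D) : Tendsto (fun r => inner ℂ w
      (dl Q s hs (T o n) (G r) (B f v) - B f (dl Q s hs (T o n) (G r) v))) atTop
      (𝓝 (inner ℂ w ((Complex.I * eta n) • B (pd n f) v))) := by
  have hb := Q.bose_fld _ (hT.bose o n)
  have s0 : (s : ℂ) ≠ 0 := Complex.ofReal_ne_zero.2 hs.ne'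
  have l := tendsto_finset_sum F fun d _ => ((hT.charge _ n _ _ (u Q s⁻¹ (inv_pos.2 hs) v)
    (u Q s⁻¹ (inv_pos.2 hs) w) (cut_ds hG hs) (h.1 d).1 (ds_test hs hf)
    (ds_cpt hs hc)).const_mul (s : ℂ)⁻¹).const_mul ((s : ℂ) ^ (4 - d))
  convert l.congr' ((isTest_cutoff hG).mono fun r hr => ?_) using 2
  · conv_lhs => rw [← u_inv R hs v, h.key hs (Ap.test_pd n hf), ← map_smul, u_adj R,
      Finset.smul_sum, inner_sum]
    refine Finset.sum_congr rfl fun d _ => ?_
    rw [ds_pd hs hf, lin1 (h.1 d).1 (ds_test hs (Ap.test_pd n hf))]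
    simp only [inner_smul_right]
    field_simp
  · refine Eq.trans (Finset.sum_congr rfl fun d _ => ?_)
      (dec_comm h R hs hf (fl hb (ds_test hs hr)) v w).symm
    rw [lin1 hb (ds_test hs hr), lin1 hb (ds_test hs hr),
      H746.fld_smul (h.1 d).1 (ds_test hs hf), ← smul_sub, inner_smul_right, inv_mul_cancel_left₀ s0]
    rfl

end

/-- **the component of dimension four of a stress tensor is a stress tensor** -/
theorem fss (R : M1 Q) (hF : FSS Q) (hT : Stress0 Q T) : ∃ T', Q.IsStress T' ∧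
    (∀ m n, ∃ F C, (4 : ℂ) ∈ F ∧ Dec Q (T m n) F C ∧ T' m n = C 4) ∧ ∀ A, Rep Q A →
      ND.PCh Q T A → ND.PCh Q T' A ∧ ∀ t, IsImpr Q T' t → IsImpr Q T t := by
  classical
  have hb := fun m n => Q.bose_fld _ (hT.bose m n)
  choose F C hC hs using fun m n => hF (T m n) (hb m n)
  let G0 : Finset ℂ := insert 4 (Finset.univ.biUnion fun p : Ix × Ix => F p.1 p.2)
  let G := G0 ∪ G0.image conj
  have h4 : (4 : ℂ) ∈ G := by simp [G, G0]
  have hd : ∀ m n, Dec Q (T m n) G (C m n) := fun m n =>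
    ⟨fun d => ⟨(hC m n d).1, (hC m n d).2.2.1⟩, fun f v hf => (hs m n f v hf).trans
      (Finset.sum_subset (fun d hd => Finset.mem_union_left _ (Finset.mem_insert_of_mem
        (Finset.mem_biUnion.2 ⟨(m, n), Finset.mem_univ _, hd⟩))) fun d _ hd => by
          rw [(hC m n d).2.2.2 hd]; rfl)⟩
  obtain ⟨c, hc⟩ := vand G
  have hc' : ∀ d ∈ G, ∑ t ∈ c.support, conj (c t) * (Real.exp t : ℂ) ^ (d - 4) =
      if d = 4 then 1 else 0 := fun d hd => by
    have := congrArg conj (hc (conj d) (by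
      simp only [G, Finset.mem_union, Finset.mem_image] at hd ⊢
      rcases hd with h | ⟨e, h, rfl⟩
      exacts [.inr ⟨d, h, rfl⟩, .inl (by simpa using h)]))
    rw [map_sum, apply_ite conj, map_one, map_zero] at this
    convert this using 2 with t
    · rw [map_mul, show conj d - 4 = conj (d - 4) by simp [map_ofNat], Complex.cpow_conj _ _ (by
        rw [Complex.arg_ofReal_of_nonneg (Real.exp_pos t).le]; exact Real.pi_ne_zero.symm),
        Complex.conj_conj, Complex.conj_ofReal]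
    · exact ⟨fun h => by rw [h, map_ofNat], fun h => by simpa [map_ofNat] using congrArg conj h⟩
  have fm : ∀ a : ℝ → ℂ, (∀ d ∈ G, ∑ t ∈ c.support, a t * (Real.exp t : ℂ) ^ (d - 4) =
      if d = 4 then 1 else 0) → ∀ m n f v, IsTest f → C m n 4 f v =
        ∑ t ∈ c.support, a t • Fss.dl Q _ (Real.exp_pos t) (T m n) f v := fun a ha m n f v hf => by
    simp only [dec_dl (hd m n) R _ hf, Finset.smul_sum, smul_smul]
    rw [Finset.sum_comm, Finset.sum_congr rfl fun d hd => by rw [← Finset.sum_smul, ha d hd]]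
    simp [h4]
  have c1 : ∑ t ∈ c.support, c t = 1 := by simpa using hc 4 h4
  have dec : ∀ B, Q.fld B → ∃ F C, Dec Q B F C := fun B hB =>
    let ⟨F, C, h1, h2⟩ := hF B hB; ⟨F, C, fun d => ⟨(h1 d).1, (h1 d).2.2.1⟩, h2⟩
  have lim : ∀ {B : Fld D} {f : Fn} (hB : Q.fld B) (hf : IsTest f) (P : ℝ → D → D)
      (P' : ℝ → ℝ → D → D) (v w : D) (y : ℂ),
      (∀ᶠ r in atTop, ∀ z, P r z = ∑ t ∈ c.support, c t • P' t r z) →
      (∀ t, Tendsto (fun r => inner ℂ w (P' t r (B f v) - B f (P' t r v))) atTop (𝓝 y)) →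
      Tendsto (fun r => inner ℂ w (P r (B f v) - B f (P r v))) atTop (𝓝 y) :=
    fun hB hf P P' v w y h1 h2 => by
      have := tendsto_finset_sum c.support fun t _ => (h2 t).const_mul (c t)
      rw [← Finset.sum_mul, c1, one_mul] at this
      refine this.congr' (h1.mono fun r hr => ?_)
      simp only [hr, ← fl_apply hB hf, map_sum, map_smul, ← Finset.sum_sub_distrib, ← smul_sub,
        inner_sum, inner_smul_right]
  have h1 : Q.IsStress fun m n => C m n 4 := by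
    refine ⟨fun m n => (hC m n 4).2.1 (hT.bose m n), fun m n f v hf => ?_,
      fun m n f v w hf => ?_, fun m n s L a f v hs hL hf => ?_, fun n f v hf => ?_,
      fun G n B f v w hG hB hf hc' => ?_⟩
    · simp only [fm c hc _ _ f v hf, Fss.dl, hT.symm m n _ _ (ds_test (Real.exp_pos _) hf)]
    · rw [fm c hc _ _ f v hf, fm _ hc' _ _ _ w (Ap.test_bar hf), sum_inner, inner_sum]
      exact Finset.sum_congr rfl fun t _ => by
        rw [inner_smul_left, inner_smul_right, dl_herm R hT _ m n hf]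
    · have t1 := Ap.test_sim one_pos hL a hf
      let W : D →ₗ[ℂ] D := ⟨⟨Q.U 1 L a, U_add one_pos hL a⟩, U_smul one_pos hL a⟩
      have e : ∀ k l, Q.U s L a (C k l 4 (fun x => f (sim s L a x)) v) =
          W (C k l 4 (fun x => f (sim 1 L a x)) (u Q s hs v)) := fun k l => by
        have := (hC k l 4).2.2.1 s _ v hs t1
        rw [sub_self, Complex.cpow_zero, one_smul] at this
        rw [← (U_dil R hs hL a _).2, show C k l 4 _ (u Q s hs v) = _ from this]
        simp only [sim_dil, zero_add, N86.c1_sim _ L a, simL_smul, one_smul]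
        rfl
      simp only [e, fm c hc _ _ _ _ t1, map_sum, map_smul, Finset.smul_sum]
      rw [← (U_dil R hs hL a v).2, fm c hc _ _ f _ hf]
      simp only [dl_cov R hT _ m n hL a hf, Finset.smul_sum]
      rw [Finset.sum_comm]
      refine Finset.sum_congr rfl fun k _ => ?_
      rw [Finset.sum_comm]
      exact Finset.sum_congr rfl fun l _ => Finset.sum_congr rfl fun t _ => smul_comm _ _ _
    · simp only [fun m => fm c hc m n _ v (Ap.test_pd m hf)]
      rw [Finset.sum_comm]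
      simp only [← Finset.smul_sum, dl_cons R hT _ n hf, smul_zero, Finset.sum_const_zero]
    · obtain ⟨_, _, h⟩ := dec B hB
      exact lim hB hf _ (fun t r => Fss.dl Q _ (Real.exp_pos t) (T o n) (G r)) v w _
        ((isTest_cutoff hG).mono fun r hr z => fm c hc o n _ z hr) fun t =>
          dl_charge R hT _ h hG n hf hc' v w
  refine ⟨_, h1, fun m n => ⟨G, C m n, h4, hd m n, rfl⟩, fun A R' hP => ?_⟩
  have h2 : ND.PCh Q (fun m n => C m n 4) A := fun G X B f v w hG hX hB hf hc' => by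
    obtain ⟨_, _, h⟩ := dec B hB
    refine lim hB hf _ (fun t r => ND.cur (fun m n => Fss.dl Q _ (Real.exp_pos t) (T m n)) X (G r))
      v w _ ((isTest_cutoff hG).mono fun r hr z => ?_) fun t => dl_pch R' hT _ hP h hG hX hf hc' v w
    simp only [ND.cur, fun n => fm c hc o n _ z (test_sim0 hX hr n), Finset.smul_sum]
    exact Finset.sum_comm
  exact ⟨h2, fun t => impr hT hP h1 h2⟩

end

end Vale.Agent.P352X.Fss.G
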