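import Vale.Agent.P352X.CG.Alg
import Vale.Agent.P352X.CA.MAT
import Vale.Agent.P352X.CA.LO2

/-!
# P352X, block CG, row REP: projective representations of the Lorentz group
-/

set_option linter.all false

open Filter Topology

namespace Vale.Agent.P352X.CA.G

open Vale.Agent.P352 Vale.Agent.P352.GF Vale.Agent.P352.H246
open TPD (Lsc Lg)

noncomputable section

namespace Rp0

variable (k : Rp)

theorem lor_mm {L L' : Ix → V} (h : IsLor L) (h' : IsLor L') : IsLor (mm L' L) :=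
  mat_row.sim L L' ▸ N86.c1_lor h h'

theorem mul {L L' : Ix → V} (h : IsLor L) (h' : IsLor L') :
    ∃ z : ℂ, (z = 1 ∨ z = -1) ∧ k.ρ (mm L' L) = z • (k.ρ L' * k.ρ L) := by
  have := k.mul L L' h h'
  rw [mat_row.sim] at this
  rcases this with e | e
  · exact ⟨1, .inl rfl, by rw [e, one_smul]⟩
  · exact ⟨-1, .inr rfl, by rw [e, neg_one_smul]⟩

theorem mm_assoc (A B C : Ix → V) : mm (mm A B) C = mm A (mm B C) := by
  funext m n
  simp only [mm, Finset.sum_mul, Finset.mul_sum, mul_assoc]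
  exact Finset.sum_comm

theorem mm_one (A : Ix → V) : mm A GF.one = A := by
  funext m n
  simp [mm, GF.one, bas]

theorem one_mm (A : Ix → V) : mm GF.one A = A := by
  funext m n
  simp [mm, GF.one, bas]

/-- velocities of curves in the Lorentz group -/
def Cv (w : Ix → V) : Prop := ∃ c : ℝ → Ix → V, c 0 = GF.one ∧ (∀ e, IsLor (c e)) ∧
  ∀ m n, HasDerivAt (fun e => c e m n) (w m n) 0

theorem Cv.cnj {w L : Ix → V} (h : Cv w) (hL : IsLor L) : ∃ c c' : ℝ → Ix → V,
    (c 0 = GF.one ∧ (∀ e, IsLor (c e)) ∧ ∀ m n, HasDerivAt (fun e => c e m n) (w m n) 0) ∧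
    (c' 0 = GF.one ∧ (∀ e, IsLor (c' e)) ∧
      ∀ m n, HasDerivAt (fun e => c' e m n) (mm (mm L w) (linv L) m n) 0) ∧
    ∀ e, mm L (c e) = mm (c' e) L := by
  obtain ⟨c, h0, h1, h2⟩ := h
  refine ⟨c, fun e => mm (mm L (c e)) (linv L), ⟨h0, h1, h2⟩, ⟨?_, fun e =>
    lor_mm (isLor_linv hL) (lor_mm (h1 e) hL), fun m n => ?_⟩, fun e => ?_⟩
  · show mm (mm L (c 0)) _ = _
    rw [h0, mm_one, (mat_row.inv L hL).1]
  · exact HasDerivAt.fun_sum fun j _ =>
      (HasDerivAt.fun_sum fun l _ => (h2 l j).const_mul (L m l)).mul_const _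
  · rw [mm_assoc (mm L (c e)), (mat_row.inv L hL).2, mm_one]

theorem int0 {w L : Ix → V} (h : Cv w) (hL : IsLor L) :
    k.ρ L * sg k w = sg k (mm (mm L w) (linv L)) * k.ρ L := by
  obtain ⟨c, c', ⟨h0, h1, h2⟩, ⟨g0, g1, g2⟩, e⟩ := h.cnj hL
  have dF : ∀ a b, HasDerivAt (fun e => (k.ρ L * k.ρ (c e)) a b) ((k.ρ L * sg k w) a b) 0 :=
    fun a b => by
      simp only [Matrix.mul_apply]
      exact HasDerivAt.fun_sum fun j _ => (k.der c w j b h0 h1 h2).const_mul _
  have dG : ∀ a b, HasDerivAt (fun e => (k.ρ (c' e) * k.ρ L) a b)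
      ((sg k (mm (mm L w) (linv L)) * k.ρ L) a b) 0 :=
    fun a b => by
      simp only [Matrix.mul_apply]
      exact HasDerivAt.fun_sum fun j _ => (k.der c' _ a j g0 g1 g2).mul_const _
  by_cases hz : k.ρ L = 0
  · rw [hz, zero_mul, mul_zero]
  obtain ⟨a, b, hab⟩ : ∃ a b, k.ρ L a b ≠ 0 := by
    by_contra hc
    push Not at hc
    exact hz (Matrix.ext hc)
  have ev : ∀ᶠ e in 𝓝 (0 : ℝ), k.ρ L * k.ρ (c e) = k.ρ (c' e) * k.ρ L := by
    have := ((dF a b).add (dG a b)).continuousAt.eventually_ne (y := 0) (by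
      simp only [Pi.add_apply, h0, g0, k.id, mul_one, one_mul, ← two_mul]
      exact mul_ne_zero two_ne_zero hab)
    refine this.mono fun x hx => ?_
    obtain ⟨z, hz, e1⟩ := mul k (h1 x) hL
    obtain ⟨z', hz', e2⟩ := mul k hL (g1 x)
    rw [e x, e2] at e1
    have e3 := congrFun (congrFun e1 a) b
    simp only [Matrix.smul_apply, smul_eq_mul] at e3
    rcases hz with rfl | rfl <;> rcases hz' with rfl | rfl
    · simpa using e1.symm
    · exact absurd (by simp only [Pi.add_apply]; linear_combination -e3) hx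
    · exact absurd (by simp only [Pi.add_apply]; linear_combination e3) hx
    · simpa using e1.symm
  ext i j
  exact (dF i j).unique ((dG i j).congr_of_eventuallyEq (ev.mono fun x hx => by simp only [hx]))

theorem sg_lin (w w' : Ix → V) (r : ℝ) : sg k (w + r • w') = sg k w + (r : ℂ) • sg k w' := by
  ext a b
  simp only [sg, Matrix.add_apply, Matrix.smul_apply, ← Finset.sum_add_distrib,
    Finset.mul_sum, Pi.add_apply, Pi.smul_apply, smul_eq_mul, Complex.ofReal_add,
    Complex.ofReal_mul, add_mul, mul_assoc]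

theorem sg_zero : sg k 0 = 0 := by
  ext a b
  simp [sg]

theorem cj_lin (L L' w w' : Ix → V) (r : ℝ) :
    mm (mm L (w + r • w')) L' = mm (mm L w) L' + r • mm (mm L w') L' := by
  funext m n
  simp only [mm, Pi.add_apply, Pi.smul_apply, smul_eq_mul, mul_add, Finset.sum_add_distrib,
    add_mul, Finset.mul_sum, Finset.sum_mul]
  congr 1
  exact Finset.sum_congr rfl fun _ _ => Finset.sum_congr rfl fun _ _ => by ring

theorem int {w L : Ix → V} (h : As w) (hL : IsLor L) :
    k.ρ L * sg k w = sg k (mm (mm L w) (linv L)) * k.ρ L := by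
  have lin : ∀ w w' (r : ℝ), k.ρ L * sg k w = sg k (mm (mm L w) (linv L)) * k.ρ L →
      k.ρ L * sg k w' = sg k (mm (mm L w') (linv L)) * k.ρ L →
      k.ρ L * sg k (w + r • w') = sg k (mm (mm L (w + r • w')) (linv L)) * k.ρ L :=
    fun w w' r a b => by
      rw [cj_lin, sg_lin, sg_lin, mul_add, add_mul, Matrix.mul_smul, Matrix.smul_mul, a, b]
  have z : k.ρ L * sg k 0 = sg k (mm (mm L 0) (linv L)) * k.ρ L := by
    rw [show mm (mm L 0) (linv L) = 0 by funext m n; simp [mm], sg_zero, mul_zero, zero_mul]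
  let S : Submodule ℝ (Ix → V) :=
    { carrier := {w | k.ρ L * sg k w = sg k (mm (mm L w) (linv L)) * k.ρ L}
      zero_mem' := z
      add_mem' := fun {a b} ha hb => by simpa using lin a b 1 ha hb
      smul_mem' := fun r a ha => by simpa using lin 0 a r z ha }
  refine mat_row.spw S (fun M hM => ?_) w h
  obtain ⟨-, c, -, hc, -⟩ := Cv.cnj ⟨_, mat_row.lg0, LO2.lg, mat_row.lgd⟩ (isLor_linv hM)
  have e : wd (sim 1 M 0 (ex 0)) (sim 1 M 0 va) =
      0 + (2 : ℝ) • mm (mm (linv M) w0) (linv (linv M)) := by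
    rw [Mat.linv_linv, ← one_mm (wd _ _), ← (mat_row.inv M hM).2, mm_assoc, mat_row.wd M _ _ hM,
      ← mm_assoc, show wd (ex 0) va = 0 + (2 : ℝ) • w0 by rw [w0, smul_smul]; simp, cj_lin]
    congr 1
    funext m n
    simp [mm]
  rw [e]
  exact lin _ _ 2 z (int0 k ⟨c, hc⟩ hL)

/-- the boosts -/
def bo (e : ℝ) : Ix → V := Lsc 1 (Real.exp (-(2 * e)))

theorem bo_eq (e : ℝ) : bo e = ![![Real.cosh e, Real.sinh e, 0, 0],
    ![Real.sinh e, Real.cosh e, 0, 0], ![0, 0, 1, 0], ![0, 0, 0, 1]] := by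
  have h1 : √(Real.exp (-(2 * e)) / 1) = Real.exp (-e) := by
    rw [div_one, Real.sqrt_eq_iff_mul_self_eq (Real.exp_pos _).le (Real.exp_pos _).le,
      ← Real.exp_add]
    ring_nf
  have h2 : √(1 / Real.exp (-(2 * e))) = Real.exp e := by
    rw [one_div, ← Real.exp_neg, Real.sqrt_eq_iff_mul_self_eq (Real.exp_pos _).le
      (Real.exp_pos _).le, ← Real.exp_add]
    ring_nf
  rw [bo, Mat.Lsc_eq, h1, h2, Real.cosh_eq, Real.sinh_eq]

theorem bo_lor (e : ℝ) : IsLor (bo e) := LO2.lsc (Real.exp_pos _)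

theorem bo_add (e e' : ℝ) : mm (bo e) (bo e') = bo (e + e') := by
  rw [bo_eq, bo_eq, bo_eq, Real.cosh_add, Real.sinh_add]
  funext m n
  fin_cases m <;> fin_cases n <;> simp [mm, Fin.sum_univ_four] <;> ring

/-- the size of a matrix -/
def nn (e : ℝ) : ℝ := ∑ a, ∑ b, ‖k.ρ (bo e) a b‖

theorem nn_nonneg (e : ℝ) : 0 ≤ nn k e :=
  Finset.sum_nonneg fun _ _ => Finset.sum_nonneg fun _ _ => norm_nonneg _

theorem le_nn (e : ℝ) (a b) : ‖k.ρ (bo e) a b‖ ≤ nn k e :=
  (Finset.single_le_sum (f := fun b => ‖k.ρ (bo e) a b‖) (fun _ _ => norm_nonneg _)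
    (Finset.mem_univ b)).trans (Finset.single_le_sum (f := fun a => ∑ b, ‖k.ρ (bo e) a b‖)
      (fun _ _ => Finset.sum_nonneg fun _ _ => norm_nonneg _) (Finset.mem_univ a))

theorem nn_add (e e' : ℝ) : nn k (e + e') ≤ nn k e * nn k e' := by
  obtain ⟨z, hz, h⟩ := mul k (bo_lor e') (bo_lor e)
  have hn : ‖z‖ = 1 := by rcases hz with rfl | rfl <;> simp
  rw [nn, ← bo_add, h, nn, Finset.sum_mul]
  refine Finset.sum_le_sum fun a _ => ?_
  simp only [Matrix.smul_apply, norm_smul, hn, one_mul, Matrix.mul_apply]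
  refine (Finset.sum_le_sum fun b _ => norm_sum_le _ _).trans ?_
  rw [Finset.sum_comm, Finset.sum_mul]
  refine Finset.sum_le_sum fun c _ => ?_
  simp only [norm_mul, ← Finset.mul_sum]
  exact mul_le_mul_of_nonneg_left (Finset.single_le_sum
    (f := fun a => ∑ b, ‖k.ρ (bo e') a b‖)
      (fun _ _ => Finset.sum_nonneg fun _ _ => norm_nonneg _) (Finset.mem_univ c)) (norm_nonneg _)

theorem nn_cont : ContinuousAt (nn k) 0 := by
  have h0 : bo 0 = GF.one := by rw [bo_eq, Mat.one_eq]; simp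
  have hd : ∀ m n, HasDerivAt (fun e => bo e m n)
      ((![![0, 1, 0, 0], ![1, 0, 0, 0], ![0, 0, 0, 0], ![0, 0, 0, 0]] : Ix → V) m n) 0 :=
    fun m n => by
      have c := Real.hasDerivAt_cosh 0
      have s := Real.hasDerivAt_sinh 0
      rw [Real.sinh_zero] at c
      rw [Real.cosh_zero] at s
      simp only [bo_eq]
      fin_cases m <;> fin_cases n <;> first | exact c | exact s | exact hasDerivAt_const _ _
  exact tendsto_finset_sum _ fun a _ => tendsto_finset_sum _ fun b _ =>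
    (k.der bo _ a b h0 bo_lor hd).continuousAt.norm

theorem nn_bd : ∃ (C : ℝ) (N : ℕ), 0 ≤ C ∧ ∀ e, 0 ≤ e → nn k e ≤ C * Real.exp e ^ N := by
  obtain ⟨δ, hδ, h⟩ := Metric.continuousAt_iff.1 (nn_cont k) 1 one_pos
  set B := nn k 0 + 1 with hB
  have B1 : 1 ≤ B := by linarith [nn_nonneg k 0]
  have h1 : ∀ e, 0 ≤ e → e ≤ δ / 2 → nn k e ≤ B := fun e h0 h2 => by
    have := h (x := e) (by rw [Real.dist_eq, sub_zero, abs_of_nonneg h0]; linarith)
    rw [Real.dist_eq, abs_lt] at this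
    linarith
  have h2 : ∀ j : ℕ, ∀ e, 0 ≤ e → e ≤ (j + 1) * (δ / 2) → nn k e ≤ B ^ (j + 1) := fun j => by
    induction j with
    | zero => exact fun e a b => by simpa using h1 e a (by simpa using b)
    | succ j ih =>
      intro e a b
      by_cases c : e ≤ δ / 2
      · exact (h1 e a c).trans (le_self_pow₀ B1 (by omega))
      · push_cast at b
        rw [show e = (e - δ / 2) + δ / 2 by ring, pow_succ]
        exact (nn_add k _ _).trans (mul_le_mul (ih _ (by linarith) (by linarith))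
          (h1 _ (by linarith) le_rfl) (nn_nonneg k _) (by positivity))
  obtain ⟨N, hN⟩ := exists_nat_ge (Real.log B / (δ / 2))
  refine ⟨B, N, by linarith, fun e he => ?_⟩
  have h3 := Nat.lt_floor_add_one (e / (δ / 2))
  have h4 := Nat.floor_le (show 0 ≤ e / (δ / 2) by positivity)
  refine (h2 ⌊e / (δ / 2)⌋₊ e he ((div_le_iff₀ (by positivity)).1 h3.le)).trans ?_
  rw [pow_succ', ← Real.exp_nat_mul]
  refine mul_le_mul_of_nonneg_left ?_ (by linarith)
  rw [← Real.exp_log (show 0 < B by linarith), ← Real.exp_nat_mul]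
  refine Real.exp_le_exp.2 ?_
  have l0 : 0 ≤ Real.log B := Real.log_nonneg B1
  calc _ ≤ e / (δ / 2) * Real.log B := mul_le_mul_of_nonneg_right h4 l0
    _ = Real.log B / (δ / 2) * e := by ring
    _ ≤ _ := mul_le_mul_of_nonneg_right hN he

end Rp0

open Rp0 in
/-- row REP -/
theorem rep_row : REP where
  inv k L hL := by
    obtain ⟨z, -, h⟩ := mul k (isLor_linv hL) hL
    exact ⟨z, by rw [Matrix.mul_smul, ← h, (mat_row.inv L hL).1, k.id]⟩
  int k L w w' hL hw hw' e := by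
    rw [Rp0.int k hw hL, e, mm_assoc, (mat_row.inv L hL).1, mm_one]
  bd k := by
    obtain ⟨C, N, hC, h⟩ := nn_bd k
    refine ⟨C, N, hC, fun s a b s0 s1 => ?_⟩
    have h0 : 0 < √s := Real.sqrt_pos.2 s0
    have e : Lsc 1 s = bo (-Real.log √s) := by
      rw [bo, Real.log_sqrt s0.le]
      congr 1
      rw [show -(2 * -(Real.log s / 2)) = Real.log s by ring, Real.exp_log s0]
    rw [e]
    refine (le_nn k _ a b).trans ((h _ (neg_nonneg.2 (Real.log_nonpos h0.le
      (Real.sqrt_le_one.2 s1)))).trans_eq ?_)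
    rw [Real.exp_neg, Real.exp_log h0, inv_pow, div_eq_mul_inv]

end

end Vale.Agent.P352X.CA.G
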