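import Vale.Agent.P352X.CG.Spec
import Vale.Agent.P352X.CG.REP
import Vale.Agent.P352X.CG.CLB
import Vale.Agent.P352X.CA.Fin

/-!
# P352X, block CG: the assembly
-/

set_option linter.all false

open MeasureTheory Filter Topology
open scoped SchwartzMap ComplexConjugate ContDiff

namespace Vale.Agent.P352X.CA.G

open Vale.Agent.P352 Vale.Agent.P352.GF Vale.Agent.P352.BW Vale.Agent.P352.H246
open Vale.Agent.P352.H496 Vale.Agent.P352.H755
open Vale.Agent.P352.SubConf (IsAdj IsKil chg)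
open Vale.Agent.P352.H15 (IsSim)
open TPD (Lsc Lg pS TT)
open UniformSpace (Completion)
open Complex (I)

noncomputable section

variable {D : Type*} [NormedAddCommGroup D] [InnerProductSpace ℂ D] {c : Cx D}

theorem l1_of (r : Rows c) (m : MAT) (lie : LIE) : L1 c :=
  have ind := r.ind r.pug r.ba
  { mat := m, pug := r.pug, pk := r.pk m, nul := r.nul, lie := lie, ba := r.ba, ind := ind
    puc := r.puc r.pug r.ba, cla := r.cla r.pug r.ba ind, clj := r.clj r.pug r.ba ind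
    clb := r.clb r.ba, clm := r.clm, sep := r.sep, ext := r.ext, rho := r.rho
    bdr := r.bdr r.rho }

theorem l2_of (r : Rows c) (h : L1 c) : L2 c :=
  { h with vac := r.vac h (r.vc0 h), sg := r.sg h }

theorem l4_of (r : Rows c) (h : L2 c) : L4 c :=
  have h3 : L3 c := { h with tra := r.tra h, cov := r.cov h, rel := r.rel h, qq := r.qq h }
  { h3 with dec := r.dec h3, gd := r.gd h3 (r.dec h3) }

/-- everything -/
structure All (x : Ops c) (f0 : Sch) : Prop extends L4 c where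
  wrd : WRD c
  act : ACT c
  z0 : Z0 (ev f0)
  ax : (x.dat f0).Ax
  out : (x.dat f0).OUT
  ini : INI x f0
  lft : LFT x
  cvp : CVP x f0

theorem tc_of (h : L4 c) (x : Ops c) (y : x.W) : c.TC y := by
  obtain ⟨R, R', g⟩ := (x.mem y).1 y.2
  exact h.ext.tc R y g.cf.tl g.vv

theorem ax_of (r : Rows c) (h : L4 c) (x : Ops c) {f0 : Sch} (hz : Z0 (ev f0)) :
    (x.dat f0).Ax where
  toAx1 := r.ax1 h x f0
  toAx2 := r.ax2 h x f0 hz
  inj := (injective_iff_map_eq_zero _).2 fun y hy =>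
    Subtype.ext (h.rho.inj y f0 (tc_of h x y) hz hy)
  der := r.der h x f0 hz
  bd := fun y => by
    obtain ⟨C, hC⟩ := h.bdr y f0 (tc_of h x y)
    refine ⟨C, fun r s hr hr1 hs hs1 => ?_⟩
    have h1 : 0 < Real.sqrt (r * s) := Real.sqrt_pos.2 (mul_pos hr hs)
    have h2 : IsLor (Lsc r s) := (Grp.lsc hr hs).1
    have e : (x.dat f0).ip ((x.dat f0).al (Real.sqrt (r * s)) (Lsc r s) y) =
        ueC c.Q h1 h2 0 ((y : TT D) (pS (Real.sqrt (r * s)) (Lsc r s) f0)) := by
      show (x.al _ _ y : TT D) f0 = _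
      rw [x.hal _ _ y h1 h2, ueC_apply, ← Ug_apply c.Q h1 h2]
      rfl
    rw [e, LinearIsometry.norm_map]
    exact hC r s hr hr1 hs hs1
  rep := rep_row
  mat := h.mat

theorem all_of (r : Rows c) (m : MAT) (lie : LIE)
    (a : ∀ (x : Ops c) f0, (x.dat f0).Rows) : ∃ (x : Ops c) (f0 : Sch), All x f0 := by
  have h1 := l1_of r m lie
  have h2 := l2_of r h1
  have h := l4_of r h2
  obtain ⟨x⟩ := r.wsp h
  obtain ⟨f0, hz⟩ := h.nul.ex
  have ax := ax_of r h x hz
  exact ⟨x, f0, { h with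
    wrd := r.wrd h2, act := r.act h1, z0 := hz, ax := ax, out := Dat.out _ (a x f0) ax
    ini := r.ini h x f0, lft := r.lft h x, cvp := r.cvp h x f0 }⟩

variable {x : Ops c} {f0 : Sch}

/-- primary multiplets of good fields -/
structure PG (x : Ops c) (f0 : Sch) (k : Rp) (d : ℂ) (P P' : Fin k.n → Fld D)
    (y : Fin k.n → x.W) : Prop where
  gd : ∀ μ, c.Gd (P μ) (P' μ) (y μ)
  mu : (x.dat f0).Mu k d y
  act : ∀ X μ f v, IsKil X → CS f → Phi c.t X (P μ) f v = I • rhs X k d.re P μ f v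

/-- descendants of good primaries -/
def DG (x : Ops c) (f0 : Sch) (A : Fld D) : Prop :=
  ∃ (n : ℕ) (k : Fin n → Rp) (d z : Fin n → ℂ) (α : Fin n → List Ix) (μ : ∀ i, Fin (k i).n)
    (P P' : ∀ i, Fin (k i).n → Fld D) (y : ∀ i, Fin (k i).n → x.W),
    (∀ i, PG x f0 (k i) (d i) (P i) (P' i) (y i)) ∧
    ∀ f v, CS f → A f v = ∑ i, z i • P i (μ i) ((α i).foldr pd f) v

/-- gradings that commute with `t` and the similitudes -/
structure Tw (c : Cx D) (H : D → D) : Prop where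
  gi : ∀ v, H (H v) = v
  gh : ∀ v w, inner ℂ (H v) w = inner ℂ v (H w)
  gt : ∀ m n f v, IsTest f → c.t m n f (H v) = H (c.t m n f v)
  gU : ∀ s L a v, 0 < s → IsLor L → c.Q.U s L a (H v) = H (c.Q.U s L a v)

theorem tw_e (c : Cx D) (e : Bool) : Tw c fun v => if e then c.G v else v := by
  cases e
  exacts [⟨fun _ => rfl, fun _ _ => rfl, fun _ _ _ _ _ => rfl, fun _ _ _ _ _ _ => rfl⟩,
    ⟨c.gi, c.gh, c.gt, c.gU⟩]

namespace Tw

variable {H : D → D} (h : Tw c H)
include h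

/-- as a linear map -/
def gl : D →ₗ[ℂ] D where
  toFun := H
  map_add' v w := ext_inner_right ℂ fun y => by simp only [h.gh, inner_add_left]
  map_smul' z v := ext_inner_right ℂ fun y => by simp only [h.gh, inner_smul_left, RingHom.id_apply]

/-- the extension to the Hilbert space -/
theorem ex : ∃ E : Completion D → Completion D, (∀ v : D, E v = (H v : D)) ∧
    ∀ (y : Completion D) (v : D), inner ℂ (E y) (v : Completion D) =
      inner ℂ y ((H v : D) : Completion D) := by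
  let g : D →L[ℂ] D := h.gl.mkContinuous 1 fun v => by
    show ‖H v‖ ≤ _
    rw [norm_eq_sqrt_re_inner (𝕜 := ℂ), h.gh, h.gi, ← norm_eq_sqrt_re_inner, one_mul]
  refine ⟨Completion.map g, fun v => Completion.map_coe g.uniformContinuous v, fun y v => ?_⟩
  refine Completion.induction_on y (isClosed_eq (Completion.continuous_map.inner continuous_const)
    (continuous_id.inner continuous_const)) fun u => ?_
  rw [Completion.map_coe g.uniformContinuous, Completion.inner_coe, Completion.inner_coe]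
  exact h.gh u v

theorem act {X : Ix → V → ℝ} (hX : IsKil X) {k : Rp} {Δ : ℝ}
    {P P' R' : Fin k.n → Fn → D → Completion D} (a : ActS c.t X k Δ P P')
    (e : ∀ μ f w (u : D), IsTest f → inner ℂ (R' μ f w) (u : Completion D) =
      inner ℂ (P' μ f w) ((H u : D) : Completion D)) :
    ActS c.t X k Δ (fun μ f v => P μ f (H v)) R' := fun μ f w v F hf hF => by
  refine (a μ f w (H v) F hf hF).congr' ?_
  filter_upwards [ok_cutoff hF isCompact_empty] with R ⟨g, hg, e1⟩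
  rw [e1, show ∀ z, chg (fun m n => hil (c.t m n)) X (fun x => (g x : ℂ)) z = _ from chg_eq c.hT,
    show ∀ z, chg (fun m n => hil (c.t m n)) X (fun x => (g x : ℂ)) z = _ from chg_eq c.hT,
    show ∀ z, chg (fun m n => hil (c.t m n)) X (fun x => (g x : ℂ)) z = _ from chg_eq c.hT,
    e _ _ _ _ (isTest_bar hf.1)]
  congr 3
  refine Eq.trans ?_ (map_sum h.gl _ _).symm
  refine Finset.sum_congr rfl fun n _ => h.gt _ _ _ _ ?_
  simpa only [Complex.ofReal_mul] using
    (cs_mul ⟨hg.1.isTest, hg.1.2.comp_left Complex.ofReal_zero⟩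
      ((Mq.const (eta n)).mul (Mq.kil hX n))).1

end Tw

namespace All

variable (a : All x f0)
include a

theorem phi {k : Rp} {d : ℂ} {P P' : Fin k.n → Fld D} {y : Fin k.n → x.W}
    (g : ∀ μ, c.Gd (P μ) (P' μ) (y μ)) (m : (x.dat f0).Mu k d y) {X : Ix → V → ℝ} {p b : V}
    {r : ℝ} {w : Ix → V} (hb : ∀ μ, x.K b (y μ) = 0) (hX : Kd X p b r w) (μ : Fin k.n) (f : Fn)
    (v : D) (hf : CS f) : Phi c.t X (P μ) f v = I • rhs X k d.re P μ f v :=
  a.lft k d.re P P' y X p b r w g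
    (fun μ => a.out.dil d _ (Submodule.subset_span ⟨k, y, μ, m, rfl⟩))
    (fun w μ hw => a.out.lor.geo k d y w μ m hw) hb hX μ f v hf

theorem sim (k : Rp) (d : ℂ) (Φ Φ' : Fin k.n → Fld D) (r : ℝ) (X : V → V)
    (hΦ : IsMp c.Q k d Φ) (h : ∀ μ, c.CF (Φ μ) (Φ' μ)) (hX : IsSim r X) :
    ActS c.t (fun n x => X x n) k d.re (fun μ => hil (Φ μ)) fun μ => hil (Φ' μ) := by
  obtain ⟨y, gy, my⟩ := a.ini k d Φ Φ' hΦ h
  obtain ⟨p, w, hw, hx⟩ := hX
  have hK : Kd (fun n x => X x n) p 0 r w := ⟨hw, fun n x => by simp [hx, GF.mdot]⟩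
  have h0 : ∀ μ, x.K 0 (y μ) = 0 := fun μ => by
    have e := a.ax.Klin 0 0 1 (y μ)
    simp only [smul_zero, add_zero, Complex.ofReal_one, one_smul] at e
    exact left_eq_add.1 e
  exact a.act _ k d.re Φ Φ' _ _ ⟨p, 0, r, w, hK⟩ (fun μ => (gy μ).cf.l)
    (fun μ f v hf => ⟨rfl, rfl⟩) (a.phi gy my h0 hK)

theorem gd_pw (α : List Ix) {P P' : Fld D} {z : x.W} (g : c.Gd P P' z) :
    c.Gd (Dl α P) (Dl α P') ((x.dat f0).pw α z : x.W) := by
  induction α generalizing P P' z with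
  | nil => exact g
  | cons m α ih =>
    have g1 := a.gd.df (bas m 1) P P' z g
    rw [← x.hP] at g1
    have e : ∀ R : Fld D, Dl (m :: α) R = Dl α (Df (bas m 1) R) := fun R => by
      funext f
      simp only [Dl, Df, dv_bas, List.foldr_cons]
    rw [e, e]
    exact ih g1

theorem dg_of {A B : Fld D} {y : x.W} (g : c.CF A B) (gv : c.Vv A y) (hy : y ∈ Submodule.span ℂ
    {z | ∃ k e p ν α, (x.dat f0).Mu k e p ∧ (∀ μ, (x.dat f0).Pm (p μ)) ∧
      z = (x.dat f0).pw α (p ν)}) : DG x f0 A := by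
  obtain ⟨n, z, u, hu⟩ := Submodule.mem_span_set'.1 hy
  choose k e p ν α hp hpm hz using fun i => (u i).2
  choose P P' hP using fun i μ => (x.mem (p i μ : TT D)).1 (p i μ).2
  refine ⟨n, k, e, z, α, ν, P, P', p, fun i => ⟨hP i, hp i, fun X μ f v hX hf => ?_⟩, ?_⟩
  · obtain ⟨q, b, r, w, hX⟩ := hX
    exact a.phi (hP i) (hp i) (fun μ => hpm i μ b) hX μ f v hf
  · have gi := fun i => a.gd_pw (α i) (hP i (ν i))
    refine a.gd.uniq A B _ _ y g gv
      (a.clm.sumf (Fin n) z _ _ fun i => (gi i).cf) fun f hf => ?_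
    rw [← hu, coe_sum, Submodule.coe_sum, ContinuousLinearMap.sum_apply]
    refine Finset.sum_congr rfl fun i _ => ?_
    rw [Completion.coe_smul, hz i]
    exact congrArg (z i • ·) ((gi i).vv f hf)

theorem dg (k : Rp) (d : ℂ) (Φ Φ' : Fin k.n → Fld D) (μ : Fin k.n) (hΦ : IsMp c.Q k d Φ)
    (h : ∀ μ, c.CF (Φ μ) (Φ' μ)) : DG x f0 (Φ μ) := by
  obtain ⟨y, gy, my⟩ := a.ini k d Φ Φ' hΦ h
  exact a.dg_of (h μ) (gy μ).vv (a.out.dsc d _ (Submodule.subset_span ⟨k, y, μ, my, rfl⟩))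

theorem desc (e : Bool) {A : Fld D} (hA : c.Q.fld A)
    (h : DG x f0 fun f v => A f (if e then c.G v else v)) : DescS c.Q c.G c.t e A := by
  obtain ⟨n, k, d, z, α, μ, P, P', y, g, e1⟩ := h
  have t := tw_e c e
  obtain ⟨E, -, hE⟩ := t.ex
  choose Ψ Ψ' hΨ h1 h2 using fun i ν => a.ext.loc (P i ν) (P' i ν) ((g i).gd ν).cf
  refine ⟨n, k, d, z, α, μ, fun i ν f v => Ψ i ν f (if e then c.G v else v),
    fun i ν f v => E (Ψ' i ν f v), fun i => ⟨fun ν => ⟨Ψ' i ν, ?_⟩, fun ν f v w hf => ?_,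
      fun ν s L f v u hs hL hf => ?_, fun X hX => t.act hX
        (a.act X (k i) _ (P i) (P' i) (Ψ i) (Ψ' i) hX (fun ν => ((g i).gd ν).cf.l)
          (fun ν f v hf => ⟨h1 i ν f v hf, h2 i ν f v hf⟩)
          fun ν f v hf => (g i).act X ν f v hX hf) fun ν f w u _ => hE _ u⟩, ?_⟩
  · simpa only [t.gi] using hΨ i ν
  · rw [(hΨ i ν).adj _ _ _ hf, ← inner_conj_symm, ← hE, inner_conj_symm]
  · simp only [← t.gU _ _ _ _ hs hL]
    exact a.cvp (k i) (d i) (P i) (P' i) (y i) (Ψ i) (Ψ' i) (g i).gd (g i).mu (hΨ i) (h1 i)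
      ν s L f _ u hs hL hf
  rintro _ v ⟨G, rfl⟩
  refine ext_inner_left ℂ fun u => ?_
  refine congrFun (a.ext.ext ℂ (fun G => inner ℂ u (hil A (ev G) v))
    (fun G => inner ℂ u (∑ i, z i • Ψ i (μ i) ((α i).foldr pd (ev G)) _)) ?_ ?_ fun G hG => ?_) G
  · exact continuous_const.inner ((Completion.continuous_coe D).comp (c.Q.cont A v hA))
  · refine continuous_const.inner (continuous_finset_sum _ fun i _ => ?_)
    simp only [← ev_dl]
    exact (((hΨ i (μ i)).cont _).comp (dl (α i)).continuous).const_smul (z i)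
  · have hc : CS (ev G) := ⟨⟨G, rfl⟩, hG⟩
    have e2 := e1 _ (if e then c.G v else v) hc
    simp only [t.gi] at e2
    show inner ℂ u ((A (ev G) v : D) : Completion D) = _
    rw [e2, coe_sum]
    congr 1
    refine Finset.sum_congr rfl fun i _ => ?_
    rw [Completion.coe_smul, h1 i _ _ _ (cs_fold _ hc)]

/-- multiplets whose twists are local -/
theorem mp (e : Bool) (k : Rp) (d : ℂ) (Φ Φ' B : Fin k.n → Fld D) (hΦ : IsMp c.Q k d Φ)
    (h : ∀ μ, c.Q.fld (Φ μ) ∧ IsAdj (Φ μ) (Φ' μ) ∧ IsAdj (Φ μ) (B μ) ∧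
      c.CF (fun f v => Φ μ f (if e then c.G v else v))
        fun f v => if e then c.G (B μ f v) else B μ f v) :
    (∀ r X, IsSim r X → ActS c.t (fun n x => X x n) k d.re (fun a => hil (Φ a))
      fun a => hil (Φ' a)) ∧ ∀ a, DescS c.Q c.G c.t e (Φ a) := by
  have t := tw_e c e
  have m : IsMp c.Q k d fun μ f v => Φ μ f (if e then c.G v else v) :=
    fun μ s L f v hs hL hf => by
      have := hΦ μ s L f (if e then c.G v else v) hs hL hf
      rwa [t.gU _ _ _ _ hs hL] at this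
  refine ⟨fun r X hX => ?_, fun μ => a.desc e (h μ).1 (a.dg k d _ _ μ m fun μ => (h μ).2.2.2)⟩
  have := t.act (R' := fun a => hil (Φ' a))
    (let ⟨p, w, hw, hx⟩ := hX; ⟨p, 0, r, w, hw, fun n x => by simp [hx, GF.mdot]⟩)
    (a.sim k d _ _ r X m (fun μ => (h μ).2.2.2) hX) fun μ f w u hf => by
      simp only [hil, Completion.inner_coe]
      rw [t.gh, t.gi, H755.adj_symm (h μ).2.1 _ _ _ hf, H755.adj_symm (h μ).2.2.1 _ _ _ hf]
  refine (congrArg (fun P => ActS c.t _ k d.re P _) ?_).mp this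
  funext μ f v
  exact congrArg (fun u => hil (Φ μ) f u) (t.gi v)

end All

end

end Vale.Agent.P352X.CA.G
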