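import Vale.Agent.P352X.CG.Spec

/-!
# P352X, block CG, row GD: good fields
-/

set_option linter.all false

namespace Vale.Agent.P352X.CA.G

open Vale.Agent.P352 Vale.Agent.P352.GF Vale.Agent.P352.BW Vale.Agent.P352.H246
open Vale.Agent.P352.H496 Vale.Agent.P352.H755
open TPD (pS TT)
open UniformSpace (Completion)

noncomputable section

variable {D : Type*} [NormedAddCommGroup D] [InnerProductSpace ℂ D] {c : Cx D}

namespace GDa

variable {s : ℝ} {L : Ix → V}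

lemma ev_pS (hs : 0 < s) (hL : IsLor L) (f : Sch) :
    ev (pS s L f) = fun x => ev f (sim s L 0 x) := funext (TPD.pS_apply hs hL f)

lemma hcs_sim (g : PUG) (hs : 0 < s) (hL : IsLor L) {f : Fn} (h : HasCompactSupport f) :
    HasCompactSupport fun x => f (sim s L 0 x) :=
  .intro (g.cpt s L 0 _ hs hL h) fun x hx => image_eq_zero_of_notMem_tsupport hx

lemma cs_sim (g : PUG) (hs : 0 < s) (hL : IsLor L) {f : Fn} (h : CS f) :
    CS fun x => f (sim s L 0 x) :=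
  ⟨h.1.elim fun F e => ⟨pS s L F, e ▸ ev_pS hs hL F⟩, hcs_sim g hs hL h.2⟩

lemma sim_sim (s s' : ℝ) (L L' : Ix → V) (x : V) :
    sim (s * s') (fun m => sim 1 L 0 (L' m)) 0 x = sim s L 0 (sim s' L' 0 x) := by
  funext n
  simp only [sim, Pi.zero_apply, zero_add, one_mul, Fin.sum_univ_four]
  ring

lemma sim0 (s : ℝ) (L : Ix → V) : sim s L 0 0 = 0 := by
  funext n
  simp [sim]

lemma mm_assoc (A B C : Ix → V) : mm (mm A B) C = mm A (mm B C) := by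
  funext m n
  simp only [mm, Fin.sum_univ_four]
  ring

lemma one_mm (A : Ix → V) : mm GF.one A = A := by
  funext m n
  simp [mm, GF.one, bas]

lemma vv (e : EXT c) {P P' : Fld D} (h : c.CF P P') : ∃ z, c.Vv P z := e.vac P P' _ h.l h.jl

/-- conjugation with the grading -/
def cg (c : Cx D) (P : Fld D) : Fld D := fun f v => c.G (P f (c.G v))

lemma ap_G (u : List (I2 × Sch)) (v : D) : c.ap u (c.G v) = c.G (c.ap u v) := by
  induction u with
  | nil => rfl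
  | cons p u ih => exact (congrArg _ ih).trans (c.gt _ _ _ _ ⟨_, rfl⟩)

lemma f0_G {P P' : Fld D} (h : c.F0 P P') : c.F0 (cg c P) (cg c P') where
  lin f g z v hf hg := by
    rw [cg, h.lin f g z _ hf hg]
    exact (c.gl.map_add _ _).trans (congrArg _ (c.gl.map_smul _ _))
  adj f v w hf := by rw [cg, cg, c.gh, h.adj _ _ _ hf, c.gh]
  loc C f g v hC hf hg s := by
    obtain ⟨n, z, B, hB, e⟩ := c.gf C hC
    have e1 : ∀ u, c.G (C g u) = ∑ i, z i • B i g (c.G u) := fun u => by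
      rw [← e g _ hg.1, c.gi]
    have e2 : P f (∑ i, z i • B i g (c.G v)) = ∑ i, z i • P f (B i g (c.G v)) :=
      ext_inner_right ℂ fun y => by simp only [h.adj _ _ _ hf, sum_inner, inner_smul_left]
    rw [cg, cg, ← c.gi (C g (c.G _)), e1, e1, e2, c.gi]
    simp only [fun i => h.loc (B i) f g (c.G v) (hB i) hf hg s]
  loct m n f g v hf hg s := by
    rw [cg, cg, ← c.gt _ _ _ _ hg.1, h.loct m n f g _ hf hg s, c.gt _ _ _ _ hg.1]

lemma jb_G {P : Fld D} (h : c.JB P) : c.JB (cg c P) := fun ls rs v => by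
  obtain ⟨m, C, hC, e⟩ := h ls rs (c.G v)
  exact ⟨m, C, hC, fun u u' f hu hu' hf => by
    rw [cg, ap_G, c.gn, ← ap_G]
    exact e u u' f hu hu' hf⟩

lemma cj_G {a : V} {R Z : Fld D} (hs : 0 < s) (hL : IsLor L) (h : c.Cj s L a R Z) :
    c.Cj s L a (cg c R) (cg c Z) := fun f v hf => by
  rw [cg, cg, ← c.gU _ _ _ _ hs hL, h f _ hf, c.gU _ _ _ _ hs hL]

lemma cf_G {P P' : Fld D} (h : c.CF P P') : c.CF (cg c P) (cg c P') :=
  ⟨⟨f0_G h.l, f0_G h.r, jb_G h.jl, jb_G h.jr⟩, fun a => cj_G one_pos H496.isLor_one (h.tl a),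
    fun a => cj_G one_pos H496.isLor_one (h.tr a)⟩

lemma al (h : L3 c) {P P' : Fld D} {y : TT D} (hs : 0 < s) (hL : IsLor L) (p : c.Gd P P' y) :
    ∃ R R', c.Gd R R' (Ug c.Q s L 0 ∘L y ∘L pS s L) ∧ c.Cj s L 0 R P := by
  obtain ⟨R, R', a1, a2⟩ := p.gc s L hs hL
  refine ⟨R, R', ⟨a1, fun s' L' hs' hL' => ?_, fun f hf => ?_⟩, a2⟩
  · obtain ⟨Z, Z', b1, b2⟩ := p.gc _ _ (mul_pos hs' hs) (ue_lor hL' hL)
    rcases c.mul s' L' 0 s L 0 hs' hs hL' hL with m | ⟨-, -, m⟩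
    · refine ⟨Z, Z', b1, fun f v hf => ?_⟩
      obtain ⟨w, rfl⟩ := h.ba.surj s L 0 v hs hL
      rw [a2 _ w (cs_sim h.pug hs' hL' hf), m, m, sim0, b2 f w hf]
      simp only [sim_sim]
    · refine ⟨_, _, cf_G b1, fun f v hf => ?_⟩
      obtain ⟨w, rfl⟩ := h.ba.surj s L 0 v hs hL
      rw [a2 _ w (cs_sim h.pug hs' hL' hf), m, m, sim0, cg, c.gi, b2 f w hf]
      simp only [sim_sim]
  · have e := a2 _ c.Q.vac ⟨⟨f, rfl⟩, hf⟩
    have k : HasCompactSupport (ev (pS s L f)) := by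
      rw [ev_pS hs hL]
      exact hcs_sim h.pug hs hL hf
    rw [c.Q.U_vac s L 0 hs hL] at e
    rw [e, ← ue_coe hs hL, ← Ug_apply _ hs hL, ← ev_pS hs hL, ← p.vv _ k]
    rfl

lemma uniq (h : L3 c) {P P' R R' : Fld D} {y : TT D} (p : c.CF P P') (a : c.Vv P y)
    (r : c.CF R R') (b : c.Vv R y) (f : Fn) (v : D) (hf : CS f) : P f v = R f v := by
  have k := h.clm.add _ _ _ _ (-1) p.toC0 r.toC0
  have := h.sep _ _ k.l k.r (fun f ⟨⟨F, e⟩, hf⟩ => by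
    subst e
    rw [lc, Completion.coe_injective _ ((a F hf).symm.trans (b F hf)), neg_one_smul,
      add_neg_cancel]) f v hf
  rwa [lc, neg_one_smul, add_neg_eq_zero] at this

end GDa

open GDa in
/-- row GD -/
theorem gd_row (c : Cx D) (h : L3 c) (d : DEC c) : GD c := by
  refine ⟨⟨h.clm.zero, fun s L hs hL => ⟨0, 0, h.clm.zero, fun _ _ _ => ?_⟩,
    fun _ _ => Completion.coe_zero.symm⟩, fun P P' y R R' z a p r =>
    ⟨h.clm.addf _ _ _ _ a p.cf r.cf, fun s L hs hL => ?_, fun f hf => ?_⟩,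
    fun _ _ _ _ _ => uniq h, fun a P P' y p => ⟨h.clm.dff _ _ a p.cf, fun s L hs hL => ?_,
      fun f hf => ?_⟩, fun _ _ _ _ _ => GDa.al h,
    fun P P' y p => (vv h.ext (d.s _ _ p.cf)).imp fun z hz =>
      ⟨d.s _ _ p.cf, fun s L hs hL => ?_, hz⟩,
    fun w P P' y hw p => (vv h.ext (d.w w _ _ hw p.cf)).imp fun z hz =>
      ⟨d.w w _ _ hw p.cf, fun s L hs hL => ?_, hz⟩,
    fun b P P' y p => (vv h.ext (d.k b _ _ p.cf)).imp fun z hz =>
      ⟨d.k b _ _ p.cf, fun s L hs hL => ?_, hz⟩⟩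
  · simpa using (ue_smul hs hL 0 0 (0 : D)).symm
  · obtain ⟨P1, P1', a1, a2⟩ := p.gc s L hs hL
    obtain ⟨R1, R1', b1, b2⟩ := r.gc s L hs hL
    exact ⟨_, _, h.clm.addf _ _ _ _ a a1 b1, fun f v hf => by
      rw [lc, lc, a2 f v hf, b2 f v hf, ue_add hs hL, ue_smul hs hL]⟩
  · rw [lc, Completion.coe_add, Completion.coe_smul, ← p.vv f hf, ← r.vv f hf]
    rfl
  · obtain ⟨_, _, a1, a2⟩ := p.gc s L hs hL
    exact ⟨_, _, h.clm.dff _ _ _ a1, h.cov.df s L 0 a _ _ hs hL a2⟩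
  · have k : HasCompactSupport (KDa.dS a f) := hf.fderiv_apply ℝ a
    rw [Df, ← KDa.ev_dS, ← p.vv _ k]
    rfl
  · obtain ⟨_, _, a1, a2⟩ := p.gc s L hs hL
    have e := h.cov.sg s L 0 _ _ _ _ _ hs hL kil_d a1.l p.cf.l a2
    rw [h.pk.xd s L hs hL] at e
    exact ⟨_, _, d.s _ _ a1, e⟩
  · obtain ⟨_, _, a1, a2⟩ := p.gc s L hs hL
    have k := (h.mat.cnj L w hL hw).2
    have e := h.cov.sg s L 0 _ _ _ _ _ hs hL (h.pk.kw _ k) a1.l p.cf.l a2
    rw [h.pk.xw s L _ w hs hL (by rw [← mm_assoc, ← mm_assoc, (h.mat.inv L hL).1, one_mm])] at e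
    exact ⟨_, _, d.w _ _ _ k a1, e⟩
  · obtain ⟨_, _, a1, a2⟩ := p.gc s L hs hL
    have e := h.cov.kb s L (s⁻¹ • b) _ _ _ _ hs hL a1.toC0 p.cf.toC0 a2
    rw [smul_inv_smul₀ hs.ne'] at e
    exact ⟨_, _, d.k _ _ _ a1, e⟩

end

end Vale.Agent.P352X.CA.G
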