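import Vale.Agent.P352X.CG.Spec
import Vale.Agent.P352X.R.CH

/-!
# P352X, block CG, row IND: the commutators do not depend on the density
-/

set_option linter.all false

open MeasureTheory Filter Topology Set
open scoped SchwartzMap ComplexConjugate ContDiff

namespace Vale.Agent.P352X.CA.G

open Vale.Agent.P352 Vale.Agent.P352.GF Vale.Agent.P352.H246 Vale.Agent.P352.H755
open Vale.Agent.P352.SubConf (IsKil)

noncomputable section

variable {D : Type*} [NormedAddCommGroup D] [InnerProductSpace ℂ D] (c : Cx D)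

lemma ch_loc (b : BA c) {K : Set V} {u X : Ix → V → ℝ} {Y Y' : D → D} (hu : ∀ m, Tst (u m))
    (hX : IsKil X) (h : ∀ m, ∀ z ∈ Jc K, ∀ᶠ x in 𝓝 z, u m x = 0) (hY : c.Lo K Y Y') (v : D) :
    c.Ch u X (Y v) = Y (c.Ch u X v) := by
  have y0 : Y 0 = 0 := by simpa using b.lov K Y Y' 0 0 1 hY
  let L : D →+ D := ⟨⟨Y, y0⟩, fun v w => by simpa using b.lov K Y Y' v w 1 hY⟩
  change _ = L _
  simp only [Cx.Ch, smt, map_sum]
  refine Finset.sum_congr rfl fun m _ => Finset.sum_congr rfl fun n _ => hY.loc m n _ v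
    ⟨tstIs (kil_tst hX (hu m) n), (kil_tst hX (hu m) n).2.comp_left Complex.ofReal_zero,
      fun x hx k => (notMem_tsupport_iff_eventuallyEq.2 ?_) hx⟩
  filter_upwards [h m x k] with z hz
  simp [hz]

lemma ch_add {u u' X : Ix → V → ℝ} (hu : ∀ m, Tst (u m)) (hu' : ∀ m, Tst (u' m)) (hX : IsKil X)
    (v : D) : c.Ch (fun m x => u m x + u' m x) X v = c.Ch u X v + c.Ch u' X v := by
  have := smt_add c.hT (fun m n => kil_tst hX (hu m) n) (fun m n => kil_tst hX (hu' m) n) 1 v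
  simpa [Cx.Ch, mul_add] using this

lemma ind0 (b : BA c) : IND0 c := by
  intro K u u' X Y Y' v hK ⟨hu, Ξ, hΞ, ⟨R, hR⟩, h1⟩ ⟨hu', Ξ', hΞ', ⟨R', hR'⟩, h1'⟩ hX hY
  obtain ⟨ρ, hρ⟩ := Chx.jc_bd hK (max R R')
  obtain ⟨κ, hκ, -, κ1, -⟩ := Ap.ex_chi (isCompact_closedBall (0 : V) ρ) isOpen_univ (subset_univ _)
  have hψ : Tst fun x : V => (Ξ x - Ξ' x) * κ x := Ap.cs_mul_l (hΞ.sub hΞ') hκ
  set ψ : V → ℝ := fun x => (Ξ x - Ξ' x) * κ x with hψd
  set u2 : Ix → V → ℝ := fun m x => u m x - u' m x - dr m ψ x with hu2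
  have t2 : ∀ m, Tst (u2 m) := fun m => Ap.cs_sub (Ap.cs_sub (hu m) (hu' m)) (Chx.tst_dr hψ m)
  have e2 : ∀ y, c.Ch u X y = c.Ch u' X y + c.Ch u2 X y := fun y => by
    have k := ch_add c (fun m => Ap.cs_add (hu' m) (t2 m)) (Chx.tst_dr hψ) hX y
    rw [show c.Ch (fun m => dr m ψ) X y = 0 from kil_cons c.hT hX hψ y, add_zero,
      ch_add c hu' t2 hX] at k
    rw [← k]
    congr 1
    funext m x
    simp only [hu2]
    ring
  have e3 : ∀ m, ∀ z ∈ Jc K, ∀ᶠ x in 𝓝 z, u2 m x = 0 := fun m z hz => by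
    have h2 : ∀ᶠ x in 𝓝 z, ψ x = Ξ x - Ξ' x := by
      rcases le_or_gt (|z o|) (max R R') with h | h
      · exact (κ1 z (mem_closedBall_zero_iff.2 (hρ z hz h))).mono fun x hx => by simp [hψd, hx]
      · obtain ⟨k1, k2⟩ := max_lt_iff.1 h
        rcases le_total 0 (z o) with k | k
        · rw [abs_of_nonneg k] at k1 k2
          filter_upwards [(hR z hz).1 k1.le, (hR' z hz).1 k2.le] with x a1 a2
          simp [hψd, a1, a2]
        · rw [abs_of_nonpos k] at k1 k2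
          filter_upwards [(hR z hz).2 (by linarith), (hR' z hz).2 (by linarith)] with x a1 a2
          simp [hψd, a1, a2]
    filter_upwards [Chx.dr_congr h2 m, h1 z hz, h1' z hz] with x k1 k2 k3
    rw [Chx.dr_sub (hΞ.differentiable (by simp)) (hΞ'.differentiable (by simp))] at k1
    simp only [hu2, k1, k2, k3, sub_self]
  have ya : ∀ v w, Y (v + w) = Y v + Y w := fun v w => by simpa using b.lov K Y Y' v w 1 hY
  simp only [Cx.dl, e2, ya, ch_loc c b t2 hX e3 hY]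
  abel

theorem ind_row (g : PUG) (b : BA c) : IND c := by
  refine ⟨ind0 c b, fun K hK => (exists_ok hK).elim fun a ha => ⟨_, g.ok K a ha⟩,
    fun K u X P f Y' v hK hu hX hf hs hY => ?_⟩
  have h : Ok (tsupport f) (cg f) := Classical.epsilon_spec (exists_ok hf.2.isCompact)
  rw [← ind0 c b _ _ _ X _ Y' v hf.2.isCompact (g.ok _ _ h) (b.mono _ _ _ hs hu) hX hY, Cx.dl,
    b.chtm _ _ _ h.1 hX, b.chtm _ _ _ h.1 hX]
  rfl

end

end Vale.Agent.P352X.CA.G
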