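import Vale.Agent.P352X.CG.Alg

/-!
# P352X, block CG, row KIL: scaling kills negative weights
-/

set_option linter.all false

open Filter Topology

namespace Vale.Agent.P352X.CA.G

open Vale.Agent.P352 Vale.Agent.P352.GF
open TPD (Lsc)

namespace KIL

theorem zero {a C p : ℝ} (hp : 0 < p) (h : ∀ t : ℝ, 0 < t → t ≤ 1 → a ≤ C * t ^ p) : a ≤ 0 := by
  have c : Tendsto (fun t : ℝ => C * t ^ p) (𝓝[>] 0) (𝓝 (C * (0 : ℝ) ^ p)) :=
    ((Real.continuous_rpow_const hp.le).tendsto 0 |>.const_mul C).mono_left nhdsWithin_le_nhds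
  rw [Real.zero_rpow hp.ne', mul_zero] at c
  exact ge_of_tendsto c (mem_of_superset (Ioc_mem_nhdsGT one_pos) fun t ht => h t ht.1 ht.2)

theorem tl_one {W : Type*} [AddCommGroup W] [Module ℂ W] (k : Rp) (y : Fin k.n → W) :
    tl k GF.one y = y := funext fun μ => by
  simp [tl, k.id, Matrix.one_apply]

end KIL

open KIL in

theorem kil_row {W H : Type*} [AddCommGroup W] [Module ℂ W] [NormedAddCommGroup H]
    [InnerProductSpace ℂ H] (A : Dat W H) (h : A.Ax) : A.KIL := by
  have z : ∀ y, ‖A.ip y‖ ≤ 0 → y = 0 := fun y e =>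
    h.inj ((norm_le_zero_iff.1 e).trans (map_zero _).symm)
  refine ⟨fun d hd => Submodule.span_eq_bot.2 ?_, fun k => ?_⟩
  · rintro _ ⟨k, y, μ, hy, rfl⟩
    obtain ⟨C, hC⟩ := h.bd (y μ)
    refine z _ (KIL.zero (C := C) (neg_pos.2 hd) fun t t0 t1 => ?_)
    have b := hC t t t0 t1 t0 t1
    rw [Real.sqrt_mul_self t0.le, h.mat.ls1 t t0] at b
    rw [hy t _ μ t0 isLor_one, tl_one, map_smul, norm_smul,
      Complex.norm_cpow_eq_rpow_re_of_pos t0]
    refine (mul_le_mul_of_nonneg_left b (by positivity)).trans_eq ?_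
    rw [Complex.sub_re, Real.rpow_sub t0, Real.rpow_neg t0.le, show (4 : ℂ).re = (4 : ℕ) by simp,
      Real.rpow_natCast]
    field_simp
  · obtain ⟨B, N, hB, hb⟩ := h.rep.bd k
    refine ⟨N, fun y d n hd hy => funext fun μ => ?_⟩
    choose C hC using fun ν => h.bd (y ν)
    refine z _ (KIL.zero (C := ∑ ν, B * C ν) (sub_pos.2 hd) fun t t0 t1 => ?_)
    have s0 := mul_pos t0 t0
    have s1 : t * t ≤ 1 := mul_le_one₀ t1 t0.le t1
    have l := fun m m' => hb _ m m' s0 s1
    rw [hy _ μ s0 s1, map_smul, norm_smul, tl, map_sum, Finset.sum_mul]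
    rw [Real.sqrt_mul_self t0.le] at l ⊢
    rw [norm_mul, norm_pow, Complex.norm_cpow_eq_rpow_re_of_pos t0, Complex.norm_of_nonneg t0.le]
    refine (mul_le_mul_of_nonneg_left (norm_sum_le _ _) (by positivity)).trans ?_
    rw [Finset.mul_sum]
    refine Finset.sum_le_sum fun ν _ => ?_
    rw [map_smul, norm_smul]
    refine (mul_le_mul_of_nonneg_left (mul_le_mul (l _ _) (hC ν 1 _ one_pos le_rfl s0 s1)
      (norm_nonneg _) (by positivity)) (by positivity)).trans_eq ?_
    rw [Complex.sub_re, Real.rpow_sub t0, Real.rpow_sub t0, Real.rpow_add t0,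
      show (4 : ℂ).re = (4 : ℕ) by simp]
    simp only [Real.rpow_natCast]
    field_simp

end Vale.Agent.P352X.CA.G
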