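import Vale.Agent.P352X.CG.Alg

/-!
# P352X, block CG, row MUL: operations on multiplets
-/

set_option linter.all false

namespace Vale.Agent.P352X.CA.G

open Vale.Agent.P352 Vale.Agent.P352.GF Vale.Agent.P352.H246

noncomputable section

variable {W H : Type*} [AddCommGroup W] [Module ℂ W] [NormedAddCommGroup H]
  [InnerProductSpace ℂ H]

namespace MUL

variable {k : Rp} {L : Ix → V} {R : V → W →ₗ[ℂ] W}

theorem tl_map (T : W →ₗ[ℂ] W) (L : Ix → V) (y : Fin k.n → W) (μ : Fin k.n) :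
    tl k L (fun ν => T (y ν)) μ = T (tl k L y μ) := by
  simp only [tl, map_sum, map_smul]

theorem tl_smul (c : ℂ) (L : Ix → V) (y : Fin k.n → W) (μ : Fin k.n) :
    tl k L (fun ν => c • y ν) μ = c • tl k L y μ := by
  simp only [tl, Finset.smul_sum, smul_comm c]

theorem tl_add (L : Ix → V) (y z : Fin k.n → W) (μ : Fin k.n) :
    tl k L (fun ν => y ν + z ν) μ = tl k L y μ + tl k L z μ := by
  simp only [tl, smul_add, Finset.sum_add_distrib]

theorem tl_mem {N : Submodule ℂ W} (L : Ix → V) {y : Fin k.n → W} (h : ∀ ν, y ν ∈ N)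
    (μ : Fin k.n) : tl k L y μ ∈ N := sum_mem fun ν _ => N.smul_mem _ (h ν)

theorem eta_sq (m : Ix) : eta m * eta m = 1 := by
  unfold eta
  split_ifs <;> norm_num

theorem sum_bas (a : V) : ∑ m, a m • bas m 1 = a := funext fun n => by
  simp [Finset.sum_apply, bas]

theorem sim_bas (s : ℝ) (L : Ix → V) (n : Ix) : sim s L 0 (bas n 1) = s • L n := funext fun m => by
  simp [sim, bas]

section

variable (l : ∀ a b (r : ℝ) y, R (a + r • b) y = R a y + (r : ℂ) • R b y)
include l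

theorem lin_zero (y : W) : R 0 y = 0 := by
  simpa using l 0 0 1 y

theorem lin_smul (r : ℝ) (b : V) (y : W) : R (r • b) y = (r : ℂ) • R b y := by
  simpa [lin_zero l] using l 0 b r y

theorem lin_sum {ι : Type*} (t : Finset ι) (c : ι → ℝ) (v : ι → V) (y : W) :
    R (∑ i ∈ t, c i • v i) y = ∑ i ∈ t, (c i : ℂ) • R (v i) y := by
  classical
  induction t using Finset.induction_on with
  | empty => simp [lin_zero l]
  | insert i t hi ih => rw [Finset.sum_insert hi, Finset.sum_insert hi, add_comm, l, ih, add_comm]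

theorem lin_bas (a : V) (y : W) : R a y = ∑ m, (a m : ℂ) • R (bas m 1) y := by
  rw [← lin_sum l, sum_bas]

theorem tl_cons (e : mm (linv L) L = GF.one) (T : W →ₗ[ℂ] W) (c : ℂ)
    (h : ∀ n y, T (R (bas n 1) y) = c • R (L n) (T y)) (y : Fin k.n → W)
    (ν : Fin (up k).n) :
    tl (up k) L (fun ν => T (cons k R y ν)) ν = c • cons k R (tl k L fun μ => T (y μ)) ν := by
  have e1 : ∑ n, (L n (i1 ν) * eta n) • L n = eta (i1 ν) • bas (i1 ν) 1 := funext fun m => by
    have := congrFun (congrFun e (i1 ν)) m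
    simp only [mm, linv, GF.one] at this
    rw [Pi.smul_apply, ← this, smul_eq_mul, Finset.mul_sum, Finset.sum_apply]
    refine Finset.sum_congr rfl fun n _ => ?_
    rw [Pi.smul_apply, smul_eq_mul]
    linear_combination -(L n (i1 ν) * eta n * L n m) * eta_sq (i1 ν)
  rw [cons, ← lin_smul l, ← e1, lin_sum l, Finset.smul_sum]
  refine (sum_ic _).trans (Finset.sum_congr rfl fun n _ => ?_)
  have e2 : ∀ a, (up k).ρ L (ic n a) ν = L n (i1 ν) * k.ρ L a (i2 ν) := fun a => by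
    show (L (i1 (ic n a)) (i1 ν) : ℂ) * k.ρ L (i2 (ic n a)) (i2 ν) = _
    rw [i1_ic, i2_ic]
  simp only [cons, e2, i1_ic, i2_ic, map_smul, h, tl, map_sum, Finset.smul_sum,
    smul_smul, Complex.ofReal_mul]
  refine Finset.sum_congr rfl fun a _ => ?_
  congr 1
  ring

end

theorem cons_cons (R : V → W →ₗ[ℂ] W) (y : Fin k.n → W) (m : Ix) (μ : Fin k.n) :
    R (bas m 1) (y μ) = (eta m : ℂ) • cons k R y (ic m μ) := by
  show _ = (eta m : ℂ) • (eta (i1 (ic m μ)) : ℂ) • R (bas (i1 (ic m μ)) 1) (y (i2 (ic m μ)))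
  rw [i1_ic, i2_ic, smul_smul, ← Complex.ofReal_mul, eta_sq,
    Complex.ofReal_one, one_smul]

variable {A : Dat W H} {d : ℂ}

theorem mem_Wd {y : Fin k.n → W} (h : A.Mu k d y) (μ : Fin k.n) : y μ ∈ A.Wd d :=
  Submodule.subset_span ⟨k, y, μ, h, rfl⟩

theorem Wd_ind (T : W →ₗ[ℂ] W) {N : Submodule ℂ W}
    (h : ∀ k y μ, A.Mu k d y → T (y μ) ∈ N) : ∀ y ∈ A.Wd d, T y ∈ N :=
  (Submodule.span_le.2 (by rintro _ ⟨k, y, μ, m, rfl⟩; exact h k y μ m) : A.Wd d ≤ N.comap T)

theorem mu_cons (h : A.Ax) (l : ∀ a b (r : ℝ) y, R (a + r • b) y = R a y + (r : ℂ) • R b y)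
    (j : ℂ) (c : ∀ (s : ℝ) L n y, 0 < s → IsLor L →
      A.al s L (R (bas n 1) y) = (s : ℂ) ^ j • R (L n) (A.al s L y))
    {y : Fin k.n → W} (m : A.Mu k d y) : A.Mu (up k) (d + j) (cons k R y) :=
  fun s L ν hs hL => by
    rw [tl_cons l (h.mat.inv L hL).2 _ _ fun n y => c s L n y hs hL, smul_smul,
      ← Complex.cpow_add _ _ (Complex.ofReal_ne_zero.2 hs.ne'), cons, cons, m s L _ hs hL,
      map_smul, smul_comm, show 4 - (d + j) + j = 4 - d by ring]

theorem W_cons (l : ∀ a b (r : ℝ) y, R (a + r • b) y = R a y + (r : ℂ) • R b y) {d' : ℂ}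
    (c : ∀ k y, A.Mu k d y → A.Mu (up k) d' (cons k R y)) (a : V) :
    ∀ y ∈ A.Wd d, R a y ∈ A.Wd d' := Wd_ind _ fun k y μ m => by
  rw [lin_bas l]
  exact sum_mem fun n _ => Submodule.smul_mem _ _
    (cons_cons R y n μ ▸ Submodule.smul_mem _ _ (mem_Wd (c k y m) _))

end MUL

open MUL

/-- **MUL** -/
theorem mul_row (A : Dat W H) (h : A.Ax) : A.MUL := by
  have S : ∀ k d y, A.Mu k d y → A.Mu k d fun μ => A.S (y μ) := fun k d y m s L μ hs hL => by
    simp only [← h.alS s L _ hs hL, tl_map A.S, ← map_smul, ← m s L μ hs hL]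
  have P : ∀ k d y, A.Mu k d y → A.Mu (up k) (d + 1) (cons k A.P y) := fun k d y =>
    mu_cons h h.Plin 1 fun s L n y hs hL => by
      rw [← h.alP s L _ _ hs hL, sim_bas, lin_smul h.Plin, Complex.cpow_one]
  have K : ∀ k d y, A.Mu k d y → A.Mu (up k) (d - 1) (cons k A.K y) := fun k d y m =>
    sub_eq_add_neg d 1 ▸ mu_cons h h.Klin (-1) (fun s L n y hs hL => by
      rw [← one_smul ℝ (L n), ← sim_bas, h.alK s L _ _ hs hL, Complex.cpow_neg_one,
        inv_smul_smul₀ (Complex.ofReal_ne_zero.2 hs.ne')]) m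
  have inv : ∀ k d y (s : ℝ) L, A.Mu k d y → 0 < s → IsLor L → ∃ z : ℂ, ∀ μ,
      A.al s L (y μ) = z • tl k (linv L) y μ := fun k d y s L m hs hL => by
    obtain ⟨z, hz⟩ := h.rep.inv k L hL
    refine ⟨z * (s : ℂ) ^ (d - 4), fun μ => ?_⟩
    conv_rhs => rw [show y = _ from funext fun μ => m s L μ hs hL]
    have e : ∀ κ, ∑ ν, z * (k.ρ (linv L) ν μ * k.ρ L κ ν) = if κ = μ then 1 else 0 := fun κ => by
      rw [← Matrix.one_apply, ← hz, Matrix.mul_apply]
      exact Finset.sum_congr rfl fun ν _ => by rw [Matrix.smul_apply, smul_eq_mul]; ring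
    rw [tl_smul, smul_smul, mul_assoc, ← Complex.cpow_add _ _ (Complex.ofReal_ne_zero.2 hs.ne'),
      show d - 4 + (4 - d) = 0 by ring, Complex.cpow_zero, mul_one]
    simp only [tl, Finset.smul_sum, smul_smul]
    rw [Finset.sum_comm]
    simp only [← Finset.sum_smul, e, ite_smul, one_smul, zero_smul, Finset.sum_ite_eq',
      Finset.mem_univ, if_true]
  have WP := fun d => W_cons h.Plin fun k => P k d
  have Wa : ∀ d s L, 0 < s → IsLor L → ∀ y ∈ A.Wd d, A.al s L y ∈ A.Wd d := fun d s L hs hL =>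
    Wd_ind _ fun k y μ m => (inv k d y s L m hs hL).elim fun z hz => hz μ ▸
      Submodule.smul_mem _ _ (tl_mem _ (mem_Wd m) μ)
  refine ⟨fun k d y z c m m' s L μ hs hL => ?_, S, P, K, inv, lin_bas h.Plin, lin_bas h.Klin, WP,
    fun d => W_cons h.Klin fun k => K k d, fun d => Wd_ind _ fun k y μ m => mem_Wd (S k d y m) μ,
    Wa, fun d s L hs hL => (Submodule.span_le.2 ?_ : A.Ds d ≤ (A.Ds d).comap (A.al s L)),
    fun s L p hs hL hp b => ?_, fun d => Submodule.span_le.2 ?_⟩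
  · simp only [map_add, map_smul, tl_add, tl_smul, smul_add, smul_comm _ c, ← m s L μ hs hL,
      ← m' s L μ hs hL]
  · rintro _ ⟨a, y, hy, rfl⟩
    exact Submodule.subset_span ⟨_, _, Wa _ s L hs hL y hy, (h.alP s L a y hs hL).symm⟩
  · have e : ∀ m, bas m 1 = sim 1 L 0 (linv L m) := fun m =>
      (congrFun ((h.mat.sim L (linv L)).trans (h.mat.inv L hL).2) m).symm
    rw [lin_bas h.Klin]
    exact Finset.sum_eq_zero fun m _ => by
      rw [e, h.alK s L _ _ hs hL, hp, map_zero, smul_zero, smul_zero]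
  · rintro _ ⟨a, y, hy, rfl⟩
    simpa using WP _ a y hy

end

end Vale.Agent.P352X.CA.G
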