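import Vale.Agent.P352X.CG.Spec

/-!
# P352X, block CG, row QQ: the charges are symmetric
-/

set_option linter.all false

namespace Vale.Agent.P352X.CA.G

open Vale.Agent.P352 Vale.Agent.P352.GF Vale.Agent.P352.H246 Vale.Agent.P352.H755

variable {D : Type*} [NormedAddCommGroup D] [InnerProductSpace ℂ D]

/-- **QQ** -/
theorem qq_row (c : Cx D) (h : L2 c) : QQ c := fun X P P' R R' f g hX p p' r hf hg => by
  have hK : IsCompact (tsupport f ∪ tsupport g) := hf.2.isCompact.union hg.2.isCompact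
  obtain ⟨u, hu⟩ := h.ind.ex _ hK
  have hb : CS (bar f) := ⟨isTest_bar hf.1, by rw [HasCompactSupport, tsupport_bar]; exact hf.2⟩
  have l1 := h.ba.fld _ P P' f p hf (Set.subset_union_left (t := tsupport g))
  have l2 := h.ba.fld _ R R' g r hg (Set.subset_union_right (s := tsupport f))
  have l3 := h.ba.symm _ _ _ l1
  have e := h.vac X hX _ u _ _ hK hu (h.ba.mul _ _ _ _ _ l3 l2)
  rw [h.ba.der _ u X _ _ _ _ l3, inner_add_right] at e
  rw [h.ind.phi _ u X P f _ _ hK hu hX hf Set.subset_union_left (h.ba.fld _ P P' f p hf le_rfl),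
    h.ind.phi _ u X R g _ _ hK hu hX hg Set.subset_union_right (h.ba.fld _ R R' g r hg le_rfl),
    h.ba.dladj _ u X _ _ _ _ hu.1 hX l1, p.adj f _ _ hf]
  linear_combination -e

end Vale.Agent.P352X.CA.G
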