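import Vale.Agent.P352X.CG.Spec
import Vale.Agent.P352X.TPD.RHO

/-!
# P352X, block CG, row RHO: the spectrum condition for translation covariant distributions
(helper13)
-/

set_option linter.all false

open MeasureTheory Measure Set Filter Topology
open scoped SchwartzMap ComplexConjugate NNReal ENNReal

namespace Vale.Agent.P352X.CA.G

open Vale.Agent.P352 Vale.Agent.P352.GF Vale.Agent.P352.BW Vale.Agent.P352.H496
open Vale.Agent.P352.H755
open UniformSpace (Completion)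
open TPD (TT)
open Two (sq2 g0 gS g0_in g0_ne cont_k meas_sq2 bd_ft wd_sq2 sq2_one)

noncomputable section

namespace Rho

variable {D : Type*} [NormedAddCommGroup D] [InnerProductSpace ℂ D] (c : Cx D)

lemma ut_eq (y : V) (z : Completion D) : Ut c.Q y z = Ue c.Q 1 GF.one y z :=
  Ug_apply c.Q one_pos H496.isLor_one y z

lemma ut_coe (y : V) (v : D) : Ut c.Q y (v : Completion D) = (c.Q.U 1 GF.one y v : D) := by
  rw [ut_eq, ue_coe one_pos H496.isLor_one]

lemma ut_inn (y : V) (z w : Completion D) : inner ℂ (Ut c.Q y z) (Ut c.Q y w) = inner ℂ z w := by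
  rw [ut_eq, ut_eq]
  exact (ueC c.Q one_pos H496.isLor_one y).inner_map_map z w

lemma u_add (x y : V) (v : D) :
    c.Q.U 1 GF.one (x + y) v = c.Q.U 1 GF.one x (c.Q.U 1 GF.one y v) := by
  rw [c.mul1 x y v one_pos one_pos H496.isLor_one H496.isLor_one (.inl rfl), HM.sim_tr, mul_one,
    add_comm x y]
  congr 1
  funext m
  rw [HM.sim_tr, add_zero]

lemma ut_add (x y : V) (z : Completion D) : Ut c.Q (x + y) z = Ut c.Q x (Ut c.Q y z) :=
  Completion.induction_on z (isClosed_eq (by fun_prop) (by fun_prop)) fun v => by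
    rw [ut_coe, ut_coe, ut_coe, u_add]

lemma ut_zero (z : Completion D) : Ut c.Q 0 z = z := by
  have h := SN.norm_of_inn (ut_inn c 0) (Ut c.Q 0 z) z
  rw [← ut_add, add_zero, sub_self, norm_zero] at h
  exact sub_eq_zero.1 (norm_eq_zero.1 h.symm)

lemma tends_coe (y : V) (v : D) :
    Tendsto (fun t : ℝ => Ut c.Q (t • y) (v : Completion D)) (𝓝 0) (𝓝 v) := by
  obtain ⟨ν, hν, -, h2⟩ := c.Q.spectrum v
  have h3 : Continuous fun t : ℝ => inner ℂ (v : Completion D) (Ut c.Q (t • y) v) := by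
    simp only [ut_coe, Completion.inner_coe, h2]
    refine continuous_of_dominated (bound := fun _ => 1) (fun t => ?_)
      (fun t => .of_forall fun p => ?_) (integrable_const _) (.of_forall fun p => ?_)
    · refine Continuous.aestronglyMeasurable ?_
      unfold GF.mdot
      fun_prop
    · rw [mul_comm, Complex.norm_exp_ofReal_mul_I]
    · unfold GF.mdot
      fun_prop
  have h4 : ∀ t : ℝ, ‖Ut c.Q (t • y) (v : Completion D) - v‖ =
      Real.sqrt (2 * ‖(v : Completion D)‖ ^ 2 -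
        2 * (inner ℂ (v : Completion D) (Ut c.Q (t • y) v)).re) := fun t => by
    have a := SN.norm_of_inn (ut_inn c (t • y)) v 0
    rw [map_zero, sub_zero, sub_zero] at a
    rw [← Real.sqrt_sq (norm_nonneg _), norm_sub_rev, @norm_sub_sq ℂ, a]
    congr 1
    simp only [RCLike.re_to_complex]
    ring
  rw [tendsto_iff_norm_sub_tendsto_zero]
  simp only [h4]
  have h5 : Continuous fun t : ℝ => Real.sqrt (2 * ‖(v : Completion D)‖ ^ 2 -
      2 * (inner ℂ (v : Completion D) (Ut c.Q (t • y) v)).re) := by fun_prop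
  have h6 := h5.tendsto 0
  rwa [← h4, zero_smul, ut_zero, sub_self, norm_zero] at h6

lemma tends (y : V) (z : Completion D) :
    Tendsto (fun t : ℝ => Ut c.Q (t • y) z) (𝓝 0) (𝓝 z) := by
  refine Metric.tendsto_nhds.2 fun ε hε => ?_
  obtain ⟨v, hv⟩ := Completion.denseRange_coe.exists_dist_lt z (show 0 < ε / 3 by positivity)
  filter_upwards [Metric.tendsto_nhds.1 (tends_coe c y v) (ε / 3) (by positivity)] with t ht
  have a := SN.norm_of_inn (ut_inn c (t • y)) z v
  have b := dist_triangle4 (Ut c.Q (t • y) z) (Ut c.Q (t • y) v) v z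
  rw [← dist_eq_norm, ← dist_eq_norm] at a
  rw [a, dist_comm (v : Completion D) z] at b
  linarith

lemma urep : SN.URep fun y z => Ut c.Q y z :=
  SN.URep.of_lines (ut_zero c) (ut_add c) (ut_inn c) (tends c)

/-- the calculus of the translations -/
abbrev BT := SN.BC (fun p y : V => GF.mdot p y) fun y z => Ut c.Q y z

lemma exists_bt : Nonempty (BT c) := SN.exists_BC SN.isPair_mdot (urep c)

variable {c} (b : BT c)

lemma meas_cn : MeasurableSet Cn := by
  have : Continuous fun p : V => GF.mdot p p := by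
    unfold GF.mdot
    fun_prop
  exact (measurableSet_le measurable_const (measurable_pi_apply o)).inter
    (measurableSet_le measurable_const this.measurable)

lemma cone (z : Completion D) : ∀ᵐ p ∂b.nu z, p ∈ Cn := by
  refine b.ae_of_dense meas_cn Completion.denseRange_coe ?_ z
  rintro _ ⟨u, rfl⟩
  obtain ⟨ν, hν, h1, h2⟩ := c.Q.spectrum u
  rw [← b.nu_unique SN.isPair_mdot (μ := ν) fun y => ?_]
  · exact h1
  · rw [ut_coe, Completion.inner_coe, h2]
    rfl

lemma rel {x : TT D} (h : c.TC x) (f g : Sch) :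
    b.Phi (ft (ev g)) (x f) = b.Phi (ft (ev f)) (x g) := by
  have key : ∀ f g : Sch, b.Phi (ft (ev g)) (x f) = x (ST.cnv volume g f) := fun f g => by
    rw [(ST.clm_cnv x g f).2]
    refine (b.smear SN.isPair_mdot continuous_id g.integrable (x f)).2.symm.trans ?_
    refine integral_congr_ae (.of_forall fun y => ?_)
    simp [h y f]
  rw [key, key, ST.cnv_comm]

/-- the two point measure -/
def rho (v : Completion D) : Measure V := (b.nu v).withDensity (sq2 fun p => (ft g0 p)⁻¹)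

lemma nu_eq {v w : Completion D} {F : V → ℂ} (hF : SN.Bd F)
    (h : b.Phi (ft g0) w = b.Phi F v) : b.nu w = (rho b v).withDensity (sq2 F) := by
  have e := congrArg (fun u => (b.nu u).withDensity (sq2 fun p => (ft g0 p)⁻¹)) h
  simp only [b.nu_Phi hF, b.nu_Phi (bd_ft g0_in.1)] at e
  change (withDensity _ (sq2 _)).withDensity _ = (withDensity _ (sq2 _)).withDensity _ at e
  rw [wd_sq2 _ (bd_ft g0_in.1).1 cont_k.measurable, wd_sq2 _ hF.1 cont_k.measurable] at e
  simp only [mul_inv_cancel₀ (g0_ne _), sq2_one, withDensity_one] at e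
  rw [rho, wd_sq2 _ cont_k.measurable hF.1, e]
  simp only [mul_comm]

lemma lint {x : TT D} (h : c.TC x) (f : Sch) :
    ∫⁻ p, sq2 (ft (ev f)) p ∂rho b (x gS) = ENNReal.ofReal (‖x f‖ ^ 2) := by
  rw [← b.nu_univ, ofReal_measureReal, nu_eq b (bd_ft ⟨f, rfl⟩) (rel b h f gS),
    withDensity_apply _ MeasurableSet.univ, restrict_univ]

lemma temp {x : TT D} (h : c.TC x) : ∃ M, ∫⁻ p, TPD.Rh.W M p ∂rho b (x gS) < ⊤ := by
  haveI : IsLocallyFiniteMeasure (rho b (x gS)) :=
    IsLocallyFiniteMeasure.withDensity_ofReal (cont_k.norm.pow 2)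
  obtain ⟨C, N, hC, hb⟩ := ST.clm_sn_c x
  refine ⟨2 * N + 5, TPD.Rh.temp (meas_sq2 (bd_ft g0_in.1).1) (fun p => (ENNReal.ofReal_pos.2
    (pow_pos (norm_pos_iff.2 (g0_ne p)) 2)).ne')
    (C := (C * (4 ^ N * (1 + ‖mdL‖) ^ N * ST.sn V ℂ N gS)) ^ 2) fun ξ => ?_⟩
  have e := lint b h (ST.mdl (mdL ξ) gS)
  simp only [sq2, Two.ft_mdl] at e ⊢
  refine e.le.trans (ENNReal.ofReal_le_ofReal ?_)
  rw [pow_mul', ← mul_pow]
  refine pow_le_pow_left₀ (norm_nonneg _) ((hb _).trans ?_) 2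
  rw [mul_assoc]
  refine mul_le_mul_of_nonneg_left ((ST.sn_mdl _ _ _).trans ?_) hC
  rw [mul_right_comm _ (ST.sn V ℂ N gS), mul_assoc (4 ^ N) ((1 + ‖mdL‖) ^ N),
    ← mul_pow (1 + ‖mdL‖)]
  gcongr
  nlinarith [mdL.le_opNorm ξ, norm_nonneg ξ, norm_nonneg mdL]

lemma bd {x : TT D} (h : c.TC x) : ∃ (C : ℝ) (M : ℕ), 0 ≤ C ∧ ∀ (f : Sch) (B : ℝ),
    (∀ p ∈ Cn, (1 + ‖p‖) ^ M * ‖ft (ev f) p‖ ≤ B) → ‖x f‖ ≤ C * B := by
  obtain ⟨b⟩ := exists_bt c
  obtain ⟨M, hM⟩ := temp b h
  refine ⟨Real.sqrt (∫⁻ p, TPD.Rh.W M p ∂rho b (x gS)).toReal, M, Real.sqrt_nonneg _,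
    fun f B hB => ?_⟩
  have B0 : 0 ≤ B := le_trans (by positivity) (hB 0 ⟨le_rfl, by simp [GF.mdot]⟩)
  have hc : ∀ᵐ p ∂rho b (x gS), p ∈ Cn := withDensity_absolutelyContinuous _ _ (cone b _)
  have a : ENNReal.ofReal (‖x f‖ ^ 2) ≤
      ENNReal.ofReal (B ^ 2) * ∫⁻ p, TPD.Rh.W M p ∂rho b (x gS) := by
    rw [← lint b h f, ← lintegral_const_mul _ (TPD.Rh.meas_W M)]
    refine lintegral_mono_ae (hc.mono fun p hp => ?_)
    rw [sq2, TPD.Rh.W, ← ENNReal.ofReal_mul (by positivity)]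
    refine ENNReal.ofReal_le_ofReal ?_
    have h1 : (1 : ℝ) ≤ (1 + ‖p‖) ^ M := one_le_pow₀ (by linarith [norm_nonneg p])
    rw [← div_eq_mul_inv, le_div_iff₀ (by positivity)]
    have h2 := pow_le_pow_left₀ (by positivity) (hB p hp) 2
    nlinarith [sq_nonneg ‖ft (ev f) p‖, mul_nonneg (sq_nonneg ‖ft (ev f) p‖) (sub_nonneg.2 h1),
      mul_nonneg (mul_nonneg (sq_nonneg ‖ft (ev f) p‖) (sub_nonneg.2 h1)) (zero_le_one.trans h1)]
  rw [← ENNReal.ofReal_toReal hM.ne, ← ENNReal.ofReal_mul (by positivity),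
    ENNReal.ofReal_le_ofReal_iff (by positivity)] at a
  refine (pow_le_pow_iff_left₀ (norm_nonneg _) (by positivity) two_ne_zero).1 ?_
  rw [mul_pow, Real.sq_sqrt ENNReal.toReal_nonneg, mul_comm]
  exact a

lemma inj {x : TT D} {f0 : Sch} (h : c.TC x) (h0 : Z0 (ev f0)) (e : x f0 = 0) : x = 0 := by
  obtain ⟨b⟩ := exists_bt c
  ext1 g
  have b0 := bd_ft (f := ev f0) ⟨f0, rfl⟩
  have a := rel b h g f0
  rw [e, map_zero] at a
  have n := b.nu_Phi b0 (x g)
  have z0 : b.nu 0 = 0 := by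
    have := b.nu_univ 0
    rw [norm_zero, zero_pow two_ne_zero, measureReal_eq_zero_iff] at this
    exact measure_univ_eq_zero.1 this
  rw [a, z0, eq_comm] at n
  replace n := (withDensity_eq_zero_iff (meas_sq2 b0.1).aemeasurable).1 n
  have z1 : b.nu (x g) = 0 := by
    refine ae_eq_bot.1 (eventually_false_iff_eq_bot.1 ?_)
    filter_upwards [n, cone b (x g)] with p h1 h2
    rw [sq2, h0 p h2] at h1
    exact (ENNReal.ofReal_pos.2 (pow_pos (norm_pos_iff.2 (Complex.exp_ne_zero _)) 2)).ne' h1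
  have := b.nu_univ (x g)
  rw [z1] at this
  simpa using this.symm

end Rho

variable {D : Type*} [NormedAddCommGroup D] [InnerProductSpace ℂ D]

theorem rho_row (c : Cx D) : RHO c :=
  ⟨fun _ h => Rho.bd h, fun _ _ h h0 e => Rho.inj h h0 e⟩

end

end Vale.Agent.P352X.CA.G
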