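import Vale.Agent.P352X.CG.Spec

/-!
# P352X, block CG: rows SEP and EXT
-/

set_option linter.all false

open MeasureTheory Filter Topology
open scoped SchwartzMap ComplexConjugate ContDiff

namespace Vale.Agent.P352X.CA.G

open Vale.Agent.P352 Vale.Agent.P352.GF Vale.Agent.P352.H246
open Vale.Agent.P352.H755
open TPD (TT)
open UniformSpace (Completion)

noncomputable section

variable {D : Type*} [NormedAddCommGroup D] [InnerProductSpace ℂ D]

namespace SEP

variable {c : Cx D} {P P' : Fld D}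

theorem linv (h : c.F0 P P') (f : Fn) (z : ℂ) (v w : D) (hf : H755.CS f) :
    P f (v + z • w) = P f v + z • P f w := by
  refine ext_inner_right ℂ fun u => ?_
  simp only [inner_add_left, inner_smul_left, h.adj _ _ _ hf]

theorem zero (h : c.F0 P P') {f : Fn} (hf : H755.CS f) : P f 0 = 0 := by
  refine ext_inner_right ℂ fun u => ?_
  rw [h.adj _ _ _ hf, inner_zero_left, inner_zero_left]

theorem kill (h : c.F0 P P') {f : 𝓢(Mink, ℂ)} (hf : HasCompactSupport f)
    (hz : P (fl f) c.Q.vac = 0) {W : Set Mink}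
    (hs : ∀ x ∈ tsupport f, ∀ y ∈ W, P352.mdot (x - y) (x - y) < 0) {v : D} (hv : P352.PW c.Q W v) :
    P (fl f) v = 0 := by
  have hc := H246D.cs_fl hf
  induction hv with
  | vac => exact hz
  | @add v w _ _ h1 h2 => simpa [h1, h2] using linv h _ 1 v w hc
  | @smul z v _ h1 => simpa [h1, zero h hc] using linv h _ z 0 v hc
  | @fld B g v hB hg _ h1 =>
    rw [h.loc _ _ _ _ hB hc (H246D.cs_fl hg.1) (sep_fl fun x hx y hy => hs x hx y (hg.2 hy)), h1]
    simpa using P352.fld_smul hB g 0 0

theorem cf (h : c.F0 P P') (hj : c.JB P) (A : Fld D) : CField c.Q A P P' where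
  linf := h.lin
  linv := linv h
  bdd v := by
    obtain ⟨m, C, hC, hb⟩ := hj [] [] v
    refine ⟨(C.toNNReal • (Finset.Iic (m, m)).sup (schwartzSeminormFamily ℂ V ℂ)).comp
      toSchL.toLinearMap, ?_, fun F hF => ?_⟩
    · exact ((Seminorm.continuous_finsetSup fun k _ =>
        (schwartz_withSeminorms ℂ V ℂ).continuous_seminorm k).const_smul C.toNNReal).comp
          toSchL.continuous
    · have := hb [] [] (toSchL F) rfl rfl hF
      simp only [EB.snw, List.map_nil, List.prod_nil, mul_one] at this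
      refine this.trans_eq ?_
      show _ = (C.toNNReal : ℝ) * _
      rw [Real.coe_toNNReal _ hC]
      rfl
  adj := h.adj
  loc C f g v hC _ := h.loc C f g v hC

theorem ext (G : Type*) [TopologicalSpace G] [T2Space G] (F F' : Sch → G) (h : Continuous F)
    (h' : Continuous F') (e : ∀ f : Sch, HasCompactSupport f → F f = F' f) : F = F' := by
  funext f
  obtain ⟨-, u, -, -, hu, -, hl⟩ := ST.exists_cut f
  exact tendsto_nhds_unique (((h.tendsto f).comp hl).congr fun n => e _ (hu n))
    ((h'.tendsto f).comp hl)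

end SEP

open SEP

/-- **row SEP** -/
theorem sep_row (c : Cx D) : SEP c := by
  intro P P' h _ hz f v hf
  obtain ⟨F, rfl⟩ := exists_fl hf.1
  obtain ⟨r, hr0, hr⟩ := exists_ball F (H246D.hcs_of_fl hf.2)
  refine ext_inner_right ℂ fun w => ?_
  have : P' (bar (fl F)) w = 0 := by
    refine P352.PW.orth (Q := c.Q) fun u hu => P352.PW.rs (2 * r + 1) (fun u hu => ?_) hu
    rw [← inner_conj_symm, ← h.adj _ _ _ hf,
      kill h (H246D.hcs_of_fl hf.2) (hz _ hf) (fun x hx y hy => ?_) hu, inner_zero_left, map_zero]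
    have e0 := hr x hx 0
    have e1 := hr x hx 1
    have hy' : |y 0| < y 1 - (2 * r + 1) := hy
    have h2 : |x 0 - y 0| < |x 1 - y 1| := by
      have h3 := abs_sub (x 0) (y 0)
      have h4 := (abs_le.1 e1).2
      have h5 : y 1 - x 1 ≤ |x 1 - y 1| := by rw [abs_sub_comm]; exact le_abs_self _
      linarith
    have h3 := sq_lt_sq.2 h2
    simp only [P352.mdot, PiLp.sub_apply]
    nlinarith only [h3, sq_nonneg (x 2 - y 2), sq_nonneg (x 3 - y 3)]
  rw [h.adj _ _ _ hf, this, inner_zero_right, inner_zero_left]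

/-- **row EXT** -/
theorem ext_row (c : Cx D) : EXT c where
  vac P P' v h hj := by
    obtain ⟨E, hE⟩ := H246D.exists_E (cf h hj P) v
    exact ⟨E ∘L ofSch, fun f hf => hE (ofSch f) (H246D.hcs_of_fl hf)⟩
  loc P P' h := by
    obtain ⟨A, hA⟩ := c.ab
    obtain ⟨Ψ, Ψ', l, e⟩ := H246D.cf_ext' (cf h.l h.jl A) (cf h.r h.jr A) fun a => h.tl a
    exact ⟨Ψ, Ψ', ⟨l.linf, l.linv, l.cont, l.adj, l.transl,
      fun C C' f g v z a b e => l.loc C C' f g v z a b e (.inl hA)⟩, e⟩
  ext G _ _ := ext G
  extv y z h := DFunLike.coe_injective (ext _ y z y.continuous z.continuous h)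
  tc P y h hy a f := by
    refine congrFun (ext _ (fun f => Ut c.Q a (y f)) (fun f => y (ST.tsl a f)) (by fun_prop)
      (by fun_prop) fun f hf => ?_) f
    have hs : HasCompactSupport (ST.tsl a f) :=
      hf.comp_homeomorph (Homeomorph.subRight a)
    have e := h a (ev (ST.tsl a f)) c.Q.vac ⟨⟨_, rfl⟩, hs⟩
    have e' : (fun x => ev (ST.tsl a f) (sim 1 GF.one a x)) = ev f := by
      funext x
      rw [sim_one']
      exact congrArg f (add_sub_cancel_right x a)
    rw [c.Q.U_vac 1 GF.one a one_pos isLor_one, e'] at e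
    show Ug c.Q 1 GF.one a (y f) = y (ST.tsl a f)
    rw [hy _ hs, hy _ hf, e, Ug_apply _ one_pos isLor_one, BW.ue_coe one_pos isLor_one]

end

end Vale.Agent.P352X.CA.G
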