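import Vale.Agent.P352X.CG.Spec

/-!
# P352X, block CG, row SG: the operations `Sg`, `Tb`, `Kb`
-/

set_option linter.all false

open MeasureTheory Filter Topology
open scoped SchwartzMap ComplexConjugate ContDiff LineDeriv

namespace Vale.Agent.P352X.CA.G

open Vale.Agent.P352 Vale.Agent.P352.GF Vale.Agent.P352.BW Vale.Agent.P352.H246
open Vale.Agent.P352.H496 Vale.Agent.P352.H755
open Vale.Agent.P352.SubConf (IsAdj IsKil)
open Complex (I)

noncomputable section

variable {D : Type*} [NormedAddCommGroup D] [InnerProductSpace ℂ D] {c : Cx D}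

namespace SGr

theorem dv_bas (n : Ix) (f : Fn) : dv (bas n 1) f = pd n f := by
  funext x
  unfold dv
  rw [Finset.sum_eq_single n]
  · simp [bas]
  · intro m _ hm
    simp [bas, hm]
  · simp

theorem pd_lin {f g : Fn} (hf : CS f) (hg : CS g) (z : ℂ) (n : Ix) :
    (pd n fun x => f x + z * g x) = fun x => pd n f x + z * pd n g x := by
  obtain ⟨F, rfl⟩ := exists_fl hf.1
  obtain ⟨G, rfl⟩ := exists_fl hg.1
  rw [fl_add_smul, pd_fl, pd_fl, pd_fl, fl_add_smul]
  congr 1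
  rw [LineDeriv.lineDerivOp_add, LineDeriv.lineDerivOp_smul]

theorem cg_tst {f : Fn} (hf : CS f) : Tst (cg f) :=
  (Classical.epsilon_spec (exists_ok hf.2.isCompact) : Ok (tsupport f) (cg f)).1

theorem cs_xg {f : Fn} (hf : CS f) (k : Ix) : CS (xg k f) := cs_mul hf (Mq.coord k)

theorem t_v {g : V → ℝ} (hg : Tst g) (m n : Ix) (z : ℂ) (u u' : D) :
    c.t m n (fun x => (g x : ℂ)) (u + z • u') =
      c.t m n (fun x => (g x : ℂ)) u + z • c.t m n (fun x => (g x : ℂ)) u' := by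
  refine ext_inner_right ℂ fun y => ?_
  rw [inner_add_left, inner_smul_left, c.hT.herm m n _ _ _ (tstIs hg),
    c.hT.herm m n _ _ _ (tstIs hg), c.hT.herm m n _ _ _ (tstIs hg), inner_add_left, inner_smul_left]

theorem c0 (h : L1 c) {X : Ix → V → ℝ} {P P' : Fld D} (hX : IsKil X) (p : c.C0 P P') :
    c.C0 (Sg c.t X P) (Sg c.t X P') := by
  have h1 := h.clm.sum Ix (fun _ => 1) _ _ fun n =>
    h.clm.mul _ _ (X n) (h.pk.tg X n hX) (h.clm.df P P' (bas n 1) p)
  have h2 : c.C0 (c.iP X P) (c.iP X P') :=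
    ⟨h.cla X P P' hX p.l p.r, h.cla X P' P hX p.r p.l, h.clj X P P' hX p.l p.jl,
      h.clj X P' P hX p.r p.jr⟩
  refine h.clm.cg _ _ _ _ (h.clm.add _ _ _ _ 1 h1 h2) (fun f v _ => ?_) fun f v _ => ?_ <;>
  simp [Sg, lc, Df, dv_bas, Cx.iP]

theorem tb (h : L1 c) (a b : V) {P P' : Fld D} (p : c.C0 P P') :
    c.C0 (c.Tb a b P) (c.Tb a b P') := by
  refine h.clm.cg _ _ _ _ (h.clm.add _ _ _ _ ((2 * GF.mdot a b : ℝ) : ℂ)
    (c0 h (h.pk.kw _ (h.mat.aswd a b)) p) (c0 h kil_d p)) (fun f v _ => ?_) fun f v _ => ?_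
  · exact add_comm _ _
  · rw [Complex.conj_ofReal]
    exact add_comm _ _

theorem kb (h : L1 c) (b : V) {P P' : Fld D} (p : c.C0 P P') :
    c.C0 (c.Kb b P) (c.Kb b P') := by
  have h1 := h.clm.sum Ix (fun _ => 1) _ _ fun k =>
    h.clm.mul _ _ (Xd k) (h.pk.tg Xd k kil_d) (tb h (bas k 1) b p)
  refine h.clm.cg _ _ _ _ (h.clm.add _ _ _ _ (-1) (c0 h (kil_b b) p) h1) (fun f v _ => ?_)
    fun f v _ => ?_ <;>
  simp only [Cx.Kb, lc, map_neg, map_one, one_smul, neg_smul, sub_eq_add_neg] <;> rfl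

theorem linX (h : L1 c) {X X' : Ix → V → ℝ} (r : ℝ) {P P' : Fld D} {f : Fn} (v : D)
    (hX : IsKil X) (hX' : IsKil X') (p : c.F0 P P') (hf : CS f) :
    Sg c.t (fun n x => X n x + r * X' n x) P f v =
      Sg c.t X P f v + (r : ℂ) • Sg c.t X' P f v := by
  have h1 : ∀ n (v : D), c.t o n (fun x => (eta n * (X n x + r * X' n x) * cg f x : ℝ)) v =
      c.t o n (fun x => (eta n * X n x * cg f x : ℝ)) v +
        (r : ℂ) • c.t o n (fun x => (eta n * X' n x * cg f x : ℝ)) v := by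
    intro n v
    rw [← t_lin c.hT (kil_tst hX (cg_tst hf) n) (kil_tst hX' (cg_tst hf) n)]
    refine congrArg (fun f => c.t o n f v) ?_
    funext x
    congr 1
    ring
  have h2 : ∀ n, P (pd n fun x => ((X n x + r * X' n x : ℝ) : ℂ) * f x) v =
      P (pd n fun x => (X n x : ℂ) * f x) v + (r : ℂ) • P (pd n fun x => (X' n x : ℂ) * f x) v := by
    intro n
    have a1 := cs_mul hf (Mq.kil hX n)
    have a2 := cs_mul hf (Mq.kil hX' n)
    rw [← p.lin _ _ _ v (cs_pd a1 n) (cs_pd a2 n), ← pd_lin a1 a2]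
    congr 2
    funext x
    push_cast
    ring
  unfold Sg Phi com
  simp only [h1, h2, Finset.sum_add_distrib, ← Finset.smul_sum]
  rw [h.ba.lov _ _ _ _ _ _ (h.ba.fld _ P P' f p hf subset_rfl)]
  module

theorem linP {X : Ix → V → ℝ} (P R : Fld D) (z : ℂ) {f : Fn} (v : D) (hX : IsKil X) (hf : CS f) :
    Sg c.t X (lc P z R) f v = Sg c.t X P f v + z • Sg c.t X R f v := by
  unfold Sg Phi com lc
  simp only [t_v (kil_tst hX (cg_tst hf) _), Finset.sum_add_distrib, ← Finset.smul_sum]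
  module

theorem cgr {X : Ix → V → ℝ} {P R : Fld D} {f : Fn} (v : D) (hX : IsKil X)
    (e : ∀ f v, CS f → P f v = R f v) (hf : CS f) : Sg c.t X P f v = Sg c.t X R f v := by
  unfold Sg Phi com
  simp only [e f _ hf, fun n => e _ v (cs_pd (cs_mul hf (Mq.kil hX n)) n)]

theorem tba (h : L1 c) (a a' : V) (r : ℝ) (b : V) {P P' : Fld D} {f : Fn} (v : D)
    (p : c.F0 P P') (hf : CS f) :
    c.Tb (a + r • a') b P f v = c.Tb a b P f v + (r : ℂ) • c.Tb a' b P f v := by
  have e1 : Xw (wd (a + r • a') b) = fun n x => Xw (wd a b) n x + r * Xw (wd a' b) n x := by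
    funext n x
    simp only [Xw, wd, Fin.sum_univ_four, Pi.add_apply, Pi.smul_apply, smul_eq_mul]
    ring
  have e2 : GF.mdot (a + r • a') b = GF.mdot a b + r * GF.mdot a' b := by
    simp only [GF.mdot, Fin.sum_univ_four, Pi.add_apply, Pi.smul_apply, smul_eq_mul]
    ring
  unfold Cx.Tb
  rw [e1, e2, linX h r v (h.pk.kw _ (h.mat.aswd a b)) (h.pk.kw _ (h.mat.aswd a' b)) p hf]
  push_cast
  module

theorem tbb (h : L1 c) (a b b' : V) (r : ℝ) {P P' : Fld D} {f : Fn} (v : D)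
    (p : c.F0 P P') (hf : CS f) :
    c.Tb a (b + r • b') P f v = c.Tb a b P f v + (r : ℂ) • c.Tb a b' P f v := by
  have e1 : Xw (wd a (b + r • b')) = fun n x => Xw (wd a b) n x + r * Xw (wd a b') n x := by
    funext n x
    simp only [Xw, wd, Fin.sum_univ_four, Pi.add_apply, Pi.smul_apply, smul_eq_mul]
    ring
  have e2 : GF.mdot a (b + r • b') = GF.mdot a b + r * GF.mdot a b' := by
    simp only [GF.mdot, Fin.sum_univ_four, Pi.add_apply, Pi.smul_apply, smul_eq_mul]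
    ring
  unfold Cx.Tb
  rw [e1, e2, linX h r v (h.pk.kw _ (h.mat.aswd a b)) (h.pk.kw _ (h.mat.aswd a b')) p hf]
  push_cast
  module

theorem kbb (h : L1 c) (b b' : V) (r : ℝ) {P P' : Fld D} {f : Fn} (v : D)
    (p : c.F0 P P') (hf : CS f) :
    c.Kb (b + r • b') P f v = c.Kb b P f v + (r : ℂ) • c.Kb b' P f v := by
  have e1 : Xb (b + r • b') = fun n x => Xb b n x + r * Xb b' n x := by
    funext n x
    simp only [Xb, GF.mdot, Fin.sum_univ_four, Pi.add_apply, Pi.smul_apply, smul_eq_mul]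
    ring
  unfold Cx.Kb
  rw [e1, linX h r v (kil_b b) (kil_b b') p hf]
  simp only [fun k => tbb h (bas k 1) b b' r v p (cs_xg hf k), Finset.sum_add_distrib,
    ← Finset.smul_sum]
  module

theorem kbP (h : L1 c) (b : V) (P R : Fld D) (z : ℂ) {f : Fn} (v : D) (hf : CS f) :
    c.Kb b (lc P z R) f v = c.Kb b P f v + z • c.Kb b R f v := by
  have e : ∀ k, c.Tb (bas k 1) b (lc P z R) (xg k f) v =
      c.Tb (bas k 1) b P (xg k f) v + z • c.Tb (bas k 1) b R (xg k f) v := by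
    intro k
    unfold Cx.Tb
    rw [linP P R z v kil_d (cs_xg hf k), linP P R z v (h.pk.kw _ (h.mat.aswd _ b)) (cs_xg hf k)]
    module
  unfold Cx.Kb
  rw [linP P R z v (kil_b b) hf]
  simp only [e, Finset.sum_add_distrib, ← Finset.smul_sum]
  module

theorem kbc (h : L1 c) (b : V) {P R : Fld D} {f : Fn} (v : D)
    (e : ∀ f v, CS f → P f v = R f v) (hf : CS f) : c.Kb b P f v = c.Kb b R f v := by
  unfold Cx.Kb Cx.Tb
  simp only [cgr v (kil_b b) e hf, fun k => cgr (c := c) v kil_d e (cs_xg hf k),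
    fun k => cgr (c := c) v (h.pk.kw _ (h.mat.aswd (bas k 1) b)) e (cs_xg hf k)]

end SGr

/-- **Row SG** -/
theorem sg_row (c : Cx D) (h : L1 c) : SG c where
  c0 _ _ _ hX p := SGr.c0 h hX p
  tb a b _ _ p := SGr.tb h a b p
  kb b _ _ p := SGr.kb h b p
  linX _ _ r _ _ _ v hX hX' p hf := SGr.linX h r v hX hX' p hf
  linP _ P R z _ v hX hf := SGr.linP P R z v hX hf
  cg _ _ _ _ v hX e hf := SGr.cgr v hX e hf
  tba a a' r b _ _ _ v p hf := SGr.tba h a a' r b v p hf
  kbb b b' r _ _ _ v p hf := SGr.kbb h b b' r v p hf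
  kbP b P R z _ v hf := SGr.kbP h b P R z v hf
  kbc b _ _ _ v e hf := SGr.kbc h b v e hf

end

end Vale.Agent.P352X.CA.G
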