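import Vale.Agent.P352X.CG.Defs

/-!
# P352X, block CG, layer B: the rows (see notes/P352/ca.md)
-/

set_option linter.all false

open MeasureTheory Filter Topology
open scoped SchwartzMap ComplexConjugate ContDiff

namespace Vale.Agent.P352X.CA.G

open Vale.Agent.P352 Vale.Agent.P352.GF Vale.Agent.P352.BW Vale.Agent.P352.H246
open Vale.Agent.P352.H496 Vale.Agent.P352.H755
open Vale.Agent.P352.SubConf (IsAdj IsKil chg)
open TPD (Lsc Lg pS TT)
open UniformSpace (Completion)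
open Complex (I)

noncomputable section

variable {D : Type*} [NormedAddCommGroup D] [InnerProductSpace ℂ D] (c : Cx D)

/-! ## level 0 -/

/-- row BA: the algebra of charges and localized operators -/
structure BA : Prop where
  U1 : ∀ v, c.Q.U 1 GF.one 0 v = v
  surj : ∀ s L a v, 0 < s → IsLor L → ∃ w, c.Q.U s L a w = v
  chadj : ∀ u X v w, (∀ m, Tst (u m)) → IsKil X →
    inner ℂ (c.Ch u X v) w = inner ℂ v (c.Ch u X w)
  chlin : ∀ u X X' (r : ℝ) v, (∀ m, Tst (u m)) → IsKil X → IsKil X' →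
    c.Ch u (fun n x => X n x + r * X' n x) v = c.Ch u X v + (r : ℂ) • c.Ch u X' v
  chv : ∀ u X v w (z : ℂ), (∀ m, Tst (u m)) → IsKil X →
    c.Ch u X (v + z • w) = c.Ch u X v + z • c.Ch u X w
  chtm : ∀ g X v, Tst g → IsKil X →
    c.Ch (tm g) X v = ∑ n, c.t o n (fun x => ((eta n * X n x * g x : ℝ) : ℂ)) v
  mono : ∀ K K' u, K' ⊆ K → Den K u → Den K' u
  lov : ∀ K Y Y' v w (z : ℂ), c.Lo K Y Y' → Y (v + z • w) = Y v + z • Y w
  symm : ∀ K Y Y', c.Lo K Y Y' → c.Lo K Y' Y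
  lom : ∀ K K' Y Y', K ⊆ K' → c.Lo K Y Y' → c.Lo K' Y Y'
  mul : ∀ K Y Y' Z Z', c.Lo K Y Y' → c.Lo K Z Z' → c.Lo K (fun v => Y (Z v)) fun v => Z' (Y' v)
  der : ∀ K u X Y Y' (Z : D → D) v, c.Lo K Y Y' →
    c.dl u X (fun v => Y (Z v)) v = c.dl u X Y (Z v) + Y (c.dl u X Z v)
  dladj : ∀ K u X Y Y' v w, (∀ m, Tst (u m)) → IsKil X → c.Lo K Y Y' →
    inner ℂ (c.dl u X Y v) w = -inner ℂ v (c.dl u X Y' w)
  fld : ∀ K P P' f, c.F0 P P' → CS f → tsupport f ⊆ K → c.Lo K (P f) (P' (bar f))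
  qf : ∀ K A B f, c.Q.fld A → IsAdj A B → CS f → tsupport f ⊆ K → c.Lo K (A f) (B (bar f))
  al : ∀ Y Y', Al c.Q Set.univ Y Y' → ∃ K, IsCompact K ∧ c.Lo K Y Y'

/-- row IND (first part): the commutators do not depend on the density -/
def IND0 : Prop := ∀ K u u' X Y Y' v, IsCompact K → Den K u → Den K u' → IsKil X → c.Lo K Y Y' →
  c.dl u X Y v = c.dl u' X Y v

/-- row IND -/
structure IND : Prop where
  ind : IND0 c
  ex : ∀ K, IsCompact K → ∃ u, Den K u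
  phi : ∀ K u X (P : Fld D) f Y' v, IsCompact K → Den K u → IsKil X → CS f → tsupport f ⊆ K →
    c.Lo (tsupport f) (P f) Y' → Phi c.t X P f v = c.dl u X (P f) v

/-- row PUC: covariance of the charges -/
structure PUC : Prop where
  ch : ∀ s L a u X v, 0 < s → IsLor L → (∀ m, Tst (u m)) → IsKil X →
    c.Ch u X (c.Q.U s L a v) = c.Q.U s L a (c.Ch (pu s L a u) (pk s L a X) v)
  lo : ∀ s L a K Y Y', 0 < s → IsLor L → c.Lo K Y Y' → ∃ Z Z', c.Lo (sim s L a ⁻¹' K) Z Z' ∧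
    ∀ v, Y (c.Q.U s L a v) = c.Q.U s L a (Z v)

/-- row CLA: the charges preserve locality -/
def CLA : Prop := ∀ X P P', IsKil X → c.F0 P P' → c.F0 P' P → c.F0 (c.iP X P) (c.iP X P')

/-- row CLJ: the charges preserve temperedness -/
def CLJ : Prop := ∀ X P P', IsKil X → c.F0 P P' → c.JB P → c.JB (c.iP X P)

/-- row CLB: the Bose fields of the theory -/
def CLB : Prop := ∀ A B, c.Q.bose A → c.Q.fld B → IsAdj A B → c.CF A B

/-- row CLM: operations on local fields -/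
structure CLM : Prop where
  zero : c.CF 0 0
  add : ∀ P P' R R' (z : ℂ), c.C0 P P' → c.C0 R R' → c.C0 (lc P z R) (lc P' (conj z) R')
  addf : ∀ P P' R R' (z : ℂ), c.CF P P' → c.CF R R' → c.CF (lc P z R) (lc P' (conj z) R')
  sum : ∀ (ι : Type) [Fintype ι] (z : ι → ℂ) (P P' : ι → Fld D), (∀ i, c.C0 (P i) (P' i)) →
    c.C0 (fun f v => ∑ i, z i • P i f v) fun f v => ∑ i, conj (z i) • P' i f v
  sumf : ∀ (ι : Type) [Fintype ι] (z : ι → ℂ) (P P' : ι → Fld D), (∀ i, c.CF (P i) (P' i)) →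
    c.CF (fun f v => ∑ i, z i • P i f v) fun f v => ∑ i, conj (z i) • P' i f v
  mul : ∀ P P' (q : V → ℝ), q.HasTemperateGrowth → c.C0 P P' →
    c.C0 (fun f => P fun x => q x * f x) fun f => P' fun x => q x * f x
  df : ∀ P P' a, c.C0 P P' → c.C0 (Df a P) (Df a P')
  dff : ∀ P P' a, c.CF P P' → c.CF (Df a P) (Df a P')
  cg : ∀ P P' R R', c.C0 P P' → (∀ f v, CS f → R f v = P f v) → (∀ f v, CS f → R' f v = P' f v) →
    c.C0 R R'

/-- row SEP: the vacuum is separating -/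
def SEP : Prop := ∀ P P', c.F0 P P' → c.F0 P' P → (∀ f, CS f → P f c.Q.vac = 0) →
  ∀ f v, CS f → P f v = 0

/-- row EXT: extension to Schwartz space -/
structure EXT : Prop where
  vac : ∀ P P' v, c.F0 P P' → c.JB P → ∃ y : TT D, ∀ f : Sch, HasCompactSupport f →
    y f = (P (ev f) v : D)
  loc : ∀ P P', c.CF P P' → ∃ Ψ Ψ', SubConf.IsLoc c.Q Ψ Ψ' ∧
    (∀ f v, CS f → Ψ f v = (P f v : D)) ∧ ∀ f v, CS f → Ψ' f v = (P' f v : D)
  ext : ∀ (G : Type) [TopologicalSpace G] [T2Space G] (F F' : Sch → G), Continuous F →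
    Continuous F' → (∀ f : Sch, HasCompactSupport f → F f = F' f) → F = F'
  extv : ∀ y z : TT D, (∀ f : Sch, HasCompactSupport f → y f = z f) → y = z
  tc : ∀ P y, (∀ a, c.Cj 1 GF.one a P P) → c.Vv P y → c.TC y

/-- row RHO: the spectrum condition for translation covariant distributions -/
structure RHO : Prop where
  bd : ∀ y, c.TC y → ∃ (C : ℝ) (M : ℕ), 0 ≤ C ∧ ∀ (f : Sch) (B : ℝ),
    (∀ p ∈ Cn, (1 + ‖p‖) ^ M * ‖ft (ev f) p‖ ≤ B) → ‖y f‖ ≤ C * B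
  inj : ∀ y (f0 : Sch), c.TC y → Z0 (ev f0) → y f0 = 0 → y = 0

/-- row BDR: anisotropic scaling -/
def BDR : Prop := ∀ y (f : Sch), c.TC y → ∃ C : ℝ, ∀ r s, 0 < r → r ≤ 1 → 0 < s → s ≤ 1 →
  ‖y (pS (Real.sqrt (r * s)) (Lsc r s) f)‖ ≤ C / (r * s) ^ 2

/-- level 1 -/
structure L1 : Prop where
  mat : MAT
  pug : PUG
  pk : PK
  nul : NUL
  lie : LIE
  ba : BA c
  ind : IND c
  puc : PUC c
  cla : CLA c
  clj : CLJ c
  clb : CLB c
  clm : CLM c
  sep : SEP c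
  ext : EXT c
  rho : RHO c
  bdr : BDR c

/-! ## level 2 -/

/-- row VAC (first part) -/
def VC0 : Prop := c.Vac (Xb va)

/-- row VAC: the vacuum is invariant -/
def VAC : Prop := ∀ X, IsKil X → c.Vac X

/-- row SG: the operations `Sg` -/
structure SG : Prop where
  c0 : ∀ X P P', IsKil X → c.C0 P P' → c.C0 (Sg c.t X P) (Sg c.t X P')
  tb : ∀ a b P P', c.C0 P P' → c.C0 (c.Tb a b P) (c.Tb a b P')
  kb : ∀ b P P', c.C0 P P' → c.C0 (c.Kb b P) (c.Kb b P')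
  linX : ∀ X X' (r : ℝ) P P' f v, IsKil X → IsKil X' → c.F0 P P' → CS f →
    Sg c.t (fun n x => X n x + r * X' n x) P f v = Sg c.t X P f v + (r : ℂ) • Sg c.t X' P f v
  linP : ∀ X P R (z : ℂ) f v, IsKil X → CS f →
    Sg c.t X (lc P z R) f v = Sg c.t X P f v + z • Sg c.t X R f v
  cg : ∀ X P R f v, IsKil X → (∀ f v, CS f → P f v = R f v) → CS f →
    Sg c.t X P f v = Sg c.t X R f v
  tba : ∀ a a' (r : ℝ) b P P' f v, c.F0 P P' → CS f →
    c.Tb (a + r • a') b P f v = c.Tb a b P f v + (r : ℂ) • c.Tb a' b P f v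
  kbb : ∀ b b' (r : ℝ) P P' f v, c.F0 P P' → CS f →
    c.Kb (b + r • b') P f v = c.Kb b P f v + (r : ℂ) • c.Kb b' P f v
  kbP : ∀ b P R (z : ℂ) f v, CS f → c.Kb b (lc P z R) f v = c.Kb b P f v + z • c.Kb b R f v
  kbc : ∀ b P R f v, (∀ f v, CS f → P f v = R f v) → CS f → c.Kb b P f v = c.Kb b R f v

/-- level 2 -/
structure L2 : Prop extends L1 c where
  vac : VAC c
  sg : SG c

/-! ## level 3 -/

/-- row TRA: the translation charges act geometrically -/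
def TRA : Prop := ∀ a P P' f v, c.CF P P' → CS f → Sg c.t (Xc a) P f v = 0

/-- row COV: covariance -/
structure COV : Prop where
  sg : ∀ s L a X R R' Z Z', 0 < s → IsLor L → IsKil X → c.F0 R R' → c.F0 Z Z' → c.Cj s L a R Z →
    c.Cj s L a (Sg c.t X R) (Sg c.t (pk s L a X) Z)
  kb : ∀ s L b R R' Z Z', 0 < s → IsLor L → c.C0 R R' → c.C0 Z Z' → c.Cj s L 0 R Z →
    c.Cj s L 0 (c.Kb (sim 1 L 0 b) R) (c.Kb (s • b) Z)
  df : ∀ s L a b R Z, 0 < s → IsLor L → c.Cj s L a R Z →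
    c.Cj s L a (Df (sim s L 0 b) R) (Df b Z)

/-- row REL: commutators with derivatives -/
structure REL : Prop where
  s : ∀ a P P' f v, c.C0 P P' → CS f →
    Sg c.t Xd (Df a P) f v = Sg c.t Xd P (dv a f) v + P (dv a f) v
  k : ∀ a b P P' f v, c.C0 P P' → CS f →
    c.Kb b (Df a P) f v = c.Kb b P (dv a f) v - c.Tb a b P f v

/-- row QQ: the charges are symmetric -/
def QQ : Prop := ∀ X P P' R R' f g, IsKil X → c.F0 P P' → c.F0 P' P → c.F0 R R' → CS f → CS g →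
  inner ℂ (Phi c.t X P f c.Q.vac) (R g c.Q.vac) = inner ℂ (P f c.Q.vac) (Phi c.t X R g c.Q.vac)

/-- row WRD: the conformal Ward identities -/
def WRD : Prop := ∀ X Y Y' F, IsKil X → Al c.Q Set.univ Y Y' → IsCutoff F → Tendsto (fun R =>
  inner ℂ (chg (fun m n => hil (c.t m n)) X (F R) c.Q.vac) ((Y c.Q.vac : D) : Completion D) -
    inner ℂ ((Y' c.Q.vac : D) : Completion D) (chg (fun m n => hil (c.t m n)) X (F R) c.Q.vac))
  atTop (𝓝 0)

/-- row ACT: from the commutators to the limits -/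
def ACT : Prop := ∀ X (k : Rp) (Δ : ℝ) (P P' : Fin k.n → Fld D)
  (Ψ Ψ' : Fin k.n → Fn → D → Completion D), IsKil X → (∀ μ, c.F0 (P μ) (P' μ)) →
  (∀ μ f v, CS f → Ψ μ f v = (P μ f v : D) ∧ Ψ' μ f v = (P' μ f v : D)) →
  (∀ μ f v, CS f → Phi c.t X (P μ) f v = I • rhs X k Δ P μ f v) → ActS c.t X k Δ Ψ Ψ'

/-- level 3 -/
structure L3 : Prop extends L2 c where
  tra : TRA c
  cov : COV c
  rel : REL c
  qq : QQ c

/-- row DEC: the fields at the origin are translation covariant -/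
structure DEC : Prop where
  s : ∀ P P', c.CF P P' → c.CF (Sg c.t Xd P) (Sg c.t Xd P')
  w : ∀ w P P', As w → c.CF P P' → c.CF (Sg c.t (Xw w) P) (Sg c.t (Xw w) P')
  k : ∀ b P P', c.CF P P' → c.CF (c.Kb b P) (c.Kb b P')
  dec : ∀ X a b r w P P' f v, Kd X a b r w → c.CF P P' → CS f → Sg c.t X P f v =
    (r : ℂ) • Sg c.t Xd P f v + Sg c.t (Xw w) P f v + ∑ k, c.Tb (bas k 1) b P (xg k f) v +
      c.Kb b P f v

/-- row GD: good fields -/
structure GD : Prop where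
  zero : c.Gd 0 0 0
  add : ∀ P P' y R R' z (a : ℂ), c.Gd P P' y → c.Gd R R' z →
    c.Gd (lc P a R) (lc P' (conj a) R') (y + a • z)
  uniq : ∀ P P' R R' y, c.CF P P' → c.Vv P y → c.CF R R' → c.Vv R y → ∀ f v, CS f → P f v = R f v
  df : ∀ a P P' y, c.Gd P P' y → c.Gd (Df a P) (Df a P') (y ∘L KDa.dS a)
  al : ∀ s L P P' y, 0 < s → IsLor L → c.Gd P P' y → ∃ R R',
    c.Gd R R' (Ug c.Q s L 0 ∘L y ∘L pS s L) ∧ c.Cj s L 0 R P
  s : ∀ P P' y, c.Gd P P' y → ∃ z, c.Gd (Sg c.t Xd P) (Sg c.t Xd P') z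
  w : ∀ w P P' y, As w → c.Gd P P' y → ∃ z, c.Gd (Sg c.t (Xw w) P) (Sg c.t (Xw w) P') z
  k : ∀ b P P' y, c.Gd P P' y → ∃ z, c.Gd (c.Kb b P) (c.Kb b P') z

/-- level 4 -/
structure L4 : Prop extends L3 c where
  dec : DEC c
  gd : GD c

/-- row WSP: the space of good fields -/
def WSP : Prop := Nonempty (Ops c)

variable {c} (x : Ops c) (f0 : Sch)

/-- row INI: multiplets of local fields -/
def INI : Prop := ∀ (k : Rp) d (Φ Φ' : Fin k.n → Fld D), IsMp c.Q k d Φ →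
  (∀ μ, c.CF (Φ μ) (Φ' μ)) →
  ∃ y : Fin k.n → x.W, (∀ μ, c.Gd (Φ μ) (Φ' μ) (y μ)) ∧ (x.dat f0).Mu k d y

/-- row LFT: from the vacuum to the operators -/
def LFT : Prop := ∀ (k : Rp) (Δ : ℝ) (P P' : Fin k.n → Fld D) (y : Fin k.n → x.W) X a b r w,
  (∀ μ, c.Gd (P μ) (P' μ) (y μ)) → (∀ μ, x.S (y μ) = (Δ : ℂ) • y μ) →
  (∀ w μ, As w → x.M w (y μ) = -gw k w y μ) → (∀ μ, x.K b (y μ) = 0) → Kd X a b r w →
  ∀ μ f v, CS f → Phi c.t X (P μ) f v = I • rhs X k Δ P μ f v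

/-- row CVP: covariance of the extended fields -/
def CVP : Prop := ∀ (k : Rp) d (P P' : Fin k.n → Fld D) (y : Fin k.n → x.W)
  (Ψ Ψ' : Fin k.n → Fn → D → Completion D), (∀ μ, c.Gd (P μ) (P' μ) (y μ)) →
  (x.dat f0).Mu k d y → (∀ μ, SubConf.IsLoc c.Q (Ψ μ) (Ψ' μ)) →
  (∀ μ f v, CS f → Ψ μ f v = (P μ f v : D)) → ∀ μ (s : ℝ) L f (v z : D), 0 < s → IsLor L →
  IsTest f → inner ℂ (c.Q.U s L 0 z : Completion D) (Ψ μ f (c.Q.U s L 0 v)) = ∑ ν,
    (s : ℂ) ^ (4 - d) * k.ρ L ν μ *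
      inner ℂ (z : Completion D) (Ψ ν (fun x => f (sim s L 0 x)) v)

variable (c)

/-- the rows of layer B -/
structure Rows : Prop where
  pug : PUG
  pk : MAT → PK
  nul : NUL
  ba : BA c
  ind : PUG → BA c → IND c
  puc : PUG → BA c → PUC c
  cla : PUG → BA c → IND c → CLA c
  clj : PUG → BA c → IND c → CLJ c
  clb : BA c → CLB c
  clm : CLM c
  sep : SEP c
  ext : EXT c
  rho : RHO c
  bdr : RHO c → BDR c
  vc0 : L1 c → VC0 c
  vac : L1 c → VC0 c → VAC c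
  sg : L1 c → SG c
  tra : L2 c → TRA c
  cov : L2 c → COV c
  rel : L2 c → REL c
  qq : L2 c → QQ c
  wrd : L2 c → WRD c
  act : L1 c → ACT c
  dec : L3 c → DEC c
  gd : L3 c → DEC c → GD c
  wsp : L4 c → WSP c
  ax1 : L4 c → ∀ (x : Ops c) f0, (x.dat f0).Ax1
  ax2 : L4 c → ∀ (x : Ops c) f0, Z0 (ev f0) → (x.dat f0).Ax2
  der : L4 c → ∀ (x : Ops c) f0, Z0 (ev f0) → (x.dat f0).Der
  ini : L4 c → ∀ (x : Ops c) f0, INI x f0
  lft : L4 c → ∀ x : Ops c, LFT x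
  cvp : L4 c → ∀ (x : Ops c) f0, CVP x f0

end

end Vale.Agent.P352X.CA.G
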