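import Vale.Agent.P352X.CG.Alg

/-!
# P352X, block CG: primaries are not derivatives; descendants
-/

set_option linter.all false

namespace Vale.Agent.P352X.CA.G

open Vale.Agent.P352 Vale.Agent.P352.GF Vale.Agent.P352.H246
open Complex (I)

noncomputable section

variable {W H : Type*} [AddCommGroup W] [Module ℂ W] [NormedAddCommGroup H]
  [InnerProductSpace ℂ H]

namespace UNI

theorem th_th (a : V) : th (th a) = a := by
  have e : th a o = a o := by
    simp [th, e0, bas]
    ring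
  rw [th, e, th, sub_sub_cancel]

variable (A : Dat W H)

/-- the elements orthogonal to `p` -/
def ort (p : W) : Submodule ℂ W := LinearMap.ker ((innerₛₗ ℂ (A.ip p)).comp A.ip)

theorem mem {p z : W} : z ∈ ort A p ↔ A.ii p z = 0 := Iff.rfl

/-- the primaries -/
def pri : Submodule ℂ W := ⨅ b, LinearMap.ker (A.K b)

theorem mem_pm {p : W} : p ∈ pri A ↔ A.Pm p := by simp [pri, Dat.Pm]

theorem ds (h : A.Ax) (m : A.MUL) (l : A.LOR) (a : A.ADJ) {p : W} (hp : A.Pm p) {e : ℂ}
    (h1 : A.Wd (e - 1) ≤ ort A p) (h2 : A.Wd (e - 1 - 1) ≤ ort A p) : A.Ds e ≤ ort A p := by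
  refine Submodule.span_le.2 ?_
  rintro _ ⟨b, z, hz, rfl⟩
  have h3 := a.K (th b) p z
  rw [hp, th_th] at h3
  have h4 : _ ∈ ort A p := (mem A).2 (h3.symm.trans (by simp [Dat.ii]))
  have h5 := (ort A p).sub_mem ((ort A p).sub_mem ((ort A p).sub_mem
    ((ort A p).neg_mem (h2 (m.WK _ (th b) z hz)))
    ((ort A p).smul_mem (4 * I * th b o) (h1 (m.WS _ z hz))))
    ((ort A p).smul_mem (2 * I) (h1 (l.WM _ _ (h.mat.aswd e0 (th b)) z hz)))) h4
  rw [sub_sub_cancel] at h5
  exact ((ort A p).smul_mem_iff (by norm_num)).1 h5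

theorem tl_mem {N : Submodule ℂ W} {k : Rp} {y : Fin k.n → W} (h : ∀ μ, y μ ∈ N) (L μ) :
    tl k L y μ ∈ N := N.sum_mem fun ν _ => N.smul_mem _ (h ν)

end UNI

open UNI

theorem uni_row (A : Dat W H) (h : A.Ax) (m : A.MUL) (k : A.KIL) (l : A.LOR) (a : A.ADJ)
    (d : A.DIL) (p : A.PRI) : A.UNI := by
  intro c q hq hp
  have key : ∀ n : ℕ, ∀ e : ℂ, e.re < n → e.re < c.re → A.Wd e ≤ ort A q := by
    intro n
    induction n with
    | zero => exact fun e h0 _ => (k.neg e (by simpa using h0)).le.trans bot_le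
    | succ n ih =>
      intro e h0 h1 z hz
      push_cast at h0
      obtain ⟨r, hr, hr', hz⟩ := p e z hz
      have h2 := ds A h m l a hp (ih (e - 1) (by simp; linarith) (by simp; linarith))
        (ih (e - 1 - 1) (by simp; linarith) (by simp; linarith)) hz
      have h3 := a.S q r hp hr'
      rw [d c q (m.DW c hq), d e r hr] at h3
      simp only [Dat.ii, map_smul, inner_smul_left, inner_smul_right, Complex.conj_ofReal] at h3
      have h4 : r ∈ ort A q := (mul_eq_mul_right_iff.1 h3).resolve_left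
        fun e => h1.ne' (by exact_mod_cast e)
      simpa using (ort A q).add_mem h2 h4
  obtain ⟨n, hn⟩ := exists_nat_gt c.re
  exact a.pos q (ds A h m l a hp (key n (c - 1) (by simp; linarith) (by simp))
    (key n (c - 1 - 1) (by simp; linarith) (by simp; linarith)) hq)

theorem dsc_row (A : Dat W H) (h : A.Ax) (m : A.MUL) (k : A.KIL) (p : A.PRI) (u : A.UNI) :
    A.DSC := by
  intro c
  obtain ⟨n, hn⟩ := exists_nat_gt c.re
  set T := Submodule.span ℂ
    {z | ∃ k e p ν α, A.Mu k e p ∧ (∀ μ, A.Pm (p μ)) ∧ z = A.pw α (p ν)}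
  have hP : ∀ a, T.map (A.P a) ≤ T := fun a => by
    rw [Submodule.map_span_le]
    rintro _ ⟨j, e, q, ν, α, h1, h2, rfl⟩
    rw [m.Pe]
    exact T.sum_mem fun i _ => T.smul_mem _ (Submodule.subset_span
      ⟨j, e, q, ν, α ++ [i], h1, h2, by simp [Dat.pw]⟩)
  change A.Wd c ≤ T
  induction n generalizing c with
  | zero => exact (k.neg c (by simpa using hn)).le.trans bot_le
  | succ n ih =>
    push_cast at hn
    have hD : A.Ds c ≤ T := Submodule.span_le.2 (by
      rintro _ ⟨a, z, hz, rfl⟩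
      exact hP a ⟨z, ih (c - 1) (by simp; linarith) hz, rfl⟩)
    refine Submodule.span_le.2 ?_
    rintro _ ⟨j, y, μ, hy, rfl⟩
    choose q h1 h2 h3 using fun μ => p c (y μ) (Submodule.subset_span ⟨j, y, μ, hy, rfl⟩)
    have hq : A.Mu j c q := fun s L ν hs hL => by
      refine sub_eq_zero.1 (u c _ ?_ ((mem_pm A).1
        ((pri A).sub_mem ((mem_pm A).2 (h2 ν)) ((pri A).smul_mem _
          (tl_mem (fun μ => (mem_pm A).2 (m.Pa s L _ hs hL (h2 μ))) L ν)))))
      have h4 := (A.Ds c).sub_mem ((A.Ds c).smul_mem ((s : ℂ) ^ (4 - c))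
        (tl_mem (fun μ => m.Da c s L hs hL _ (h3 μ)) L ν)) (h3 ν)
      convert h4 using 1
      rw [hy s L ν hs hL]
      simp only [tl, map_sub, smul_sub, Finset.sum_sub_distrib]
      abel
    simpa using T.add_mem (hD (h3 μ))
      (Submodule.subset_span ⟨j, c, q, μ, [], hq, h2, rfl⟩ : q μ ∈ T)

end

end Vale.Agent.P352X.CA.G
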