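import Vale.Agent.P352X.CG.Spec

/-!
# P352X, block CG, row VAC: the vacuum is invariant under all conformal charges
-/

set_option linter.all false

namespace Vale.Agent.P352X.CA.G

open Vale.Agent.P352 Vale.Agent.P352.GF Vale.Agent.P352.H246 Vale.Agent.P352.H755
open Vale.Agent.P352.SubConf (IsKil)

variable {D : Type*} [NormedAddCommGroup D] [InnerProductSpace ℂ D] {c : Cx D}

namespace Vac

variable (c) in
/-- Killing fields which leave the vacuum invariant -/
def G (X : Ix → V → ℝ) : Prop := IsKil X ∧ c.Vac X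

variable {X X' : Ix → V → ℝ}

theorem G.cg (g : G c X) (e : ∀ n x, X' n x = X n x) : G c X' :=
  (show X = X' from funext fun n => funext fun x => (e n x).symm) ▸ g

theorem kil_add (h : IsKil X) (h' : IsKil X') (r : ℝ) : IsKil fun n x => X n x + r * X' n x := by
  obtain ⟨a, b, s, w, h1, h2⟩ := h
  obtain ⟨a', b', s', w', h3, h4⟩ := h'
  refine ⟨a + r • a', b + r • b', s + r * s', w + r • w', fun m n => ?_, fun n x => ?_⟩
  · simp only [Pi.add_apply, Pi.smul_apply, smul_eq_mul]
    linear_combination h1 m n + r * h3 m n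
  · simp only [h2, h4, GF.mdot, Fin.sum_univ_four, Pi.add_apply, Pi.smul_apply, smul_eq_mul]
    ring

theorem G.add (h : L1 c) (g : G c X) (g' : G c X') (r : ℝ) : G c fun n x => X n x + r * X' n x :=
  ⟨kil_add g.1 g'.1 r, fun K u Y Y' k d l => by
    have a := g.2 K u Y Y' k d l
    have b := g'.2 K u Y Y' k d l
    simp only [Cx.dl, inner_sub_right] at a b ⊢
    rw [h.ba.chlin _ _ _ _ _ d.1 g.1 g'.1, h.ba.chlin _ _ _ _ _ d.1 g.1 g'.1, h.ba.lov K Y Y' _ _ _ l]
    simp only [inner_add_right, inner_smul_right]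
    linear_combination a + r * b⟩

theorem of_pk (h : L1 c) {s : ℝ} {L : Ix → V} (a : V) (s0 : 0 < s) (hL : IsLor L) (k : IsKil X)
    (v : c.Vac (pk s L a X)) : G c X := ⟨k, fun K u Y Y' q d l => by
  obtain ⟨Z, Z', z, e⟩ := h.puc.lo s L a K Y Y' s0 hL l
  have b := v _ _ Z Z' (h.pug.cpt s L a K s0 hL q) (h.pug.den s L a K u s0 hL q d) z
  rw [Cx.dl, ← c.Q.U_vac s L a s0 hL, e, h.puc.ch s L a u X _ s0 hL d.1 k,
    h.puc.ch s L a u X _ s0 hL d.1 k, e, inner_sub_right, c.Q.U_inner _ _ _ _ _ s0 hL,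
    c.Q.U_inner _ _ _ _ _ s0 hL]
  rwa [Cx.dl, inner_sub_right] at b⟩

variable (h : L1 c) (v : VC0 c)
include h v

theorem zero : G c fun _ _ => 0 :=
  (G.add h ⟨kil_b va, v⟩ ⟨kil_b va, v⟩ (-1)).cg fun n x => by ring

theorem xb (b : V) : G c (Xb b) := by
  let S : Submodule ℝ V :=
    { carrier := {b | G c (Xb b)}
      add_mem' := fun {a b} g g' => (G.add h g g' 1).cg fun n x => by
        simp only [Xb, GF.mdot, Fin.sum_univ_four, Pi.add_apply]; ring
      zero_mem' := (zero h v).cg fun n x => by simp [Xb, GF.mdot]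
      smul_mem' := fun r a g => (G.add h (zero h v) g r).cg fun n x => by
        simp only [Xb, GF.mdot, Fin.sum_univ_four, Pi.smul_apply, smul_eq_mul]; ring }
  exact (h.mat.spv S fun L l => of_pk h 0 one_pos l (kil_b _)
    (by rw [h.pk.xb 1 L va one_pos l, one_smul]; exact v)).ge (Submodule.mem_top (x := b))

theorem tr (b y : V) : G c fun n x => Xb b n (x + y) :=
  of_pk h (-y) one_pos isLor_one (h.pk.tr y _ ▸ h.pk.kil 1 _ y _ one_pos isLor_one (kil_b b))
    (by simpa [h.pk.tr] using (xb h v b).2)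

theorem lin (b y : V) : G c fun n x => 2 * GF.mdot b y * Xd n x + Xw (wd y b) n x :=
  (G.add h (G.add h (zero h v) (tr h v b y) (1 / 2)) (tr h v b (-y)) (-1 / 2)).cg fun n x => by
    simp only [Xb, Xd, Xw, wd, GF.mdot, Fin.sum_univ_four, Pi.add_apply, Pi.neg_apply]; ring

theorem xd : G c Xd := (G.add h (zero h v) (lin h v e0 e0) (1 / 2)).cg fun n x => by
  simp [Xw, wd, GF.mdot, e0, bas, eta]

theorem xw {w : Ix → V} (a : As w) : G c (Xw w) := by
  let S : Submodule ℝ (Ix → V) :=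
    { carrier := {w | G c (Xw w)}
      add_mem' := fun {a b} g g' => (G.add h g g' 1).cg fun n x => by
        simp only [Xw, Fin.sum_univ_four, Pi.add_apply]; ring
      zero_mem' := (zero h v).cg fun n x => by simp [Xw]
      smul_mem' := fun r a g => (G.add h (zero h v) g r).cg fun n x => by
        simp only [Xw, Fin.sum_univ_four, Pi.smul_apply, smul_eq_mul]; ring }
  exact h.mat.spw S (fun L _ => (G.add h (lin h v (sim 1 L 0 va) (sim 1 L 0 (ex 0))) (xd h v)
    (-(2 * GF.mdot (sim 1 L 0 va) (sim 1 L 0 (ex 0))))).cg fun n x => by ring) w a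

theorem xc (a : V) : G c (Xc a) :=
  (G.add h (G.add h (G.add h (zero h v) (tr h v (th a) e0) (1 / 2)) (tr h v (th a) (-e0)) (1 / 2))
    (xb h v (th a)) (-1)).cg fun n x => by
    have e : GF.mdot e0 e0 = 1 ∧ GF.mdot (th a) e0 = a o := by
      simp [GF.mdot, e0, th, bas, eta]; ring
    simp only [GF.mdot, Fin.sum_univ_four] at e
    have f : a n = 2 * a o * e0 n - th a n := by simp [th]
    simp only [Xb, Xc, GF.mdot, Fin.sum_univ_four, Pi.add_apply, Pi.neg_apply]
    linear_combination f + th a n * e.1 - 2 * e0 n * e.2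

end Vac

theorem vac_row (c : Cx D) (h : L1 c) (v : VC0 c) : VAC c := fun X ⟨a, b, r, w, q, e⟩ =>
  ((Vac.G.add h (Vac.G.add h (Vac.G.add h (Vac.xc h v a) (Vac.xd h v) r) (Vac.xw h v q) 1)
    (Vac.xb h v b) 1).cg fun n x => by simp only [e, Xc, Xd, Xw, Xb]; ring).2

end Vale.Agent.P352X.CA.G
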