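import Vale.Agent.P352X.CG.Spec

/-!
# P352X, block CG, row VC0: the vacuum is invariant under one special conformal charge
-/

set_option linter.all false

open Filter Topology Set

namespace Vale.Agent.P352X.CA.G

open Vale.Agent.P352 Vale.Agent.P352.GF Vale.Agent.P352.H755
open TPD (Lsc)

theorem vc0_row {D : Type*} [NormedAddCommGroup D] [InnerProductSpace ℂ D] (c : Cx D) (h : L1 c) :
    VC0 c := by
  intro K u Y Y' hK hu hY
  have cs : Continuous fun q : ℝ × V => scp q.1 1 q.2 := by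
    refine continuous_pi fun i => ?_
    fin_cases i <;> simp [scp, pt, al, be, tx, GF.mdot] <;> fun_prop
  have k1 := ((isCompact_Icc (a := (0 : ℝ)) (b := 1)).prod hK).image cs
  obtain ⟨u1, h1⟩ := h.ind.ex _ k1
  have kx := kil_b va
  have l0 : ∀ w, Tendsto (fun r : ℝ => inner ℂ (c.Ch u1 (Xb va) c.Q.vac)
      (c.Q.U (Real.sqrt (r * 1)) (Lsc r 1) 0 w)) (𝓝[>] 0) (𝓝 (inner ℂ (c.Ch u1 (Xb va) c.Q.vac)
        c.Q.vac * inner ℂ c.Q.vac w)) := fun w =>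
    c.mix _ w fun m n => kil_tst kx (h1.1 m) n
  have l := (l0 (Y c.Q.vac)).sub ((Complex.continuous_conj.tendsto _).comp (l0 (Y' c.Q.vac)))
  rw [map_mul, inner_conj_symm, inner_conj_symm, (h.ba.symm _ _ _ hY).adj,
    h.ba.chadj _ _ _ _ h1.1 kx, sub_self] at l
  refine tendsto_nhds_unique tendsto_const_nhds (l.congr' ?_)
  filter_upwards [Ioc_mem_nhdsGT one_pos] with r hr
  obtain ⟨hL, e⟩ := Grp.lsc hr.1 one_pos
  have s0 := Real.sqrt_pos.2 (mul_pos hr.1 one_pos)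
  have d := h.ba.mono _ K _ (fun z hz => by exact ⟨(r, z), ⟨⟨hr.1.le, hr.2⟩, hz⟩, (e z).symm⟩)
    (h.pug.den _ _ 0 _ _ s0 hL k1 h1)
  have x := h.pk.xb _ _ ((Real.sqrt (r * 1))⁻¹ • va) s0 hL
  rw [smul_inv_smul₀ s0.ne', show sim 1 _ 0 ((Real.sqrt (r * 1))⁻¹ • va) = va by
    rw [mul_one] at s0
    rw [sim_bst]
    funext i
    fin_cases i <;> simp [va, vb, GF.mdot, Fin.sum_univ_four, eta, o] <;> field_simp <;> ring] at x
  have ch := fun v => h.puc.ch _ _ 0 u1 _ v s0 hL h1.1 kx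
  simp only [x] at ch
  rw [h.ind.ind K u _ _ Y Y' _ hK hu d kx hY, Cx.dl, inner_sub_right, ← (h.ba.symm _ _ _ hY).adj,
    ← c.Q.U_inner _ _ 0 c.Q.vac _ s0 hL, ← c.Q.U_inner _ _ 0 (Y' _) _ s0 hL, ← ch, ← ch,
    c.Q.U_vac _ _ _ s0 hL, ← h.ba.chadj _ _ _ _ h1.1 kx, Function.comp, inner_conj_symm]
  rfl

end Vale.Agent.P352X.CA.G
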