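import Vale.Agent.P352X.CG.Wire
import Vale.Agent.P352X.CA.W2
import Vale.Agent.P352X.FE.Main

/-!
# P352X, block CG: from the standing assumptions to the context
-/

set_option linter.all false

open Filter Topology
open scoped ComplexConjugate

namespace Vale.Agent.P352X.CA.G

open Vale.Agent.P352 Vale.Agent.P352.GF Vale.Agent.P352.BW Vale.Agent.P352.H246
open Vale.Agent.P352.H496 Vale.Agent.P352.H755 Vale.Agent.P352.H15
open Vale.Agent.P352.SubConf (IsAdj)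
open TPD (Lsc)
open UniformSpace (Completion)

noncomputable section

variable {D : Type*} [NormedAddCommGroup D] [InnerProductSpace ℂ D]

/-- twisted Fermi fields are local -/
def Tl (c : Cx D) : Prop := ∀ A B, Fer c.Q c.G A → c.Q.fld B → IsAdj A B →
  c.CF (fun f v => A f (c.G v)) fun f v => c.G (B f v)

section

variable {c : Cx D} {x : Ops c} {f0 : Sch} (a : All x f0) (h : Tl c)
include a h

theorem tw_cf (e : Bool) {A : Fld D} (hA : if e then Fer c.Q c.G A else c.Q.bose A) :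
    c.Q.fld A ∧ ∃ B, IsAdj A B ∧ c.CF (fun f v => A f (if e then c.G v else v))
      fun f v => if e then c.G (B f v) else B f v := by
  have hf : c.Q.fld A := by
    cases e
    exacts [c.Q.bose_fld _ hA, hA.1]
  obtain ⟨B, hB, hB'⟩ := c.Q.adj A hf
  refine ⟨hf, B, hB', ?_⟩
  cases e
  exacts [a.clb _ _ hA hB hB', h _ _ hA hB hB']

theorem cfs' : CFS c.Q c.G c.t := by
  refine ⟨a.wrd, fun e k d Φ Φ' hΦ h1 => ?_⟩
  choose hf B hB hB' using fun μ => tw_cf a h e (h1 μ).2.1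
  exact a.mp e k d Φ Φ' B (Fss.G.mp_of (fun s L a s' L' a' v hs hs' hL hL' =>
    c.mul1 a a' v hs hs' hL hL') hΦ fun μ => (h1 μ).1) fun μ => ⟨hf μ, (h1 μ).2.2, hB μ, hB' μ⟩

theorem desc' (hF : FSS c.Q) (e : Bool) (k : Rp) (Φ : Fin k.n → Fld D) (μ : Fin k.n)
    (hΦ : IsMl c.Q k Φ) (h1 : ∀ a, if e then Fer c.Q c.G (Φ a) else c.Q.bose (Φ a)) :
    DescS c.Q c.G c.t e (Φ μ) := by
  classical
  have t := tw_e c e
  choose hf B hB hB' using fun μ => tw_cf a h e (h1 μ)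
  obtain ⟨F, C, h2, h3⟩ := Fss.G.ml_dec (fun s L a s' L' a' v hs hs' hL hL' =>
    c.mul1 a a' v hs hs' hL hL') hF hΦ hf
  have h4 : ∀ d : F, ∀ ν, if e then Fer c.Q c.G (C ν d) else c.Q.bose (C ν d) := fun d ν => by
    have := h1 ν
    cases e
    exacts [((h3 d d.2).2 ν).1 this, ((h3 d d.2).2 ν).2 c.gl
      (fun s v hs => c.gU _ _ _ _ hs H496.isLor_one) this]
  choose hf' B' hC hC' using fun d ν => tw_cf a h e (h4 d ν)
  choose y gy my using fun d : F => a.ini k d _ _ (show IsMp c.Q k d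
    fun μ f v => C μ d f (if e then c.G v else v) from fun μ s L f v hs hL hf => by
      have := (h3 d d.2).1 μ s L f (if e then c.G v else v) hs hL hf
      rwa [t.gU _ _ _ _ hs hL] at this) (hC' d)
  refine a.desc e (hf μ) (a.dg_of (y := ∑ d, y d μ) (hB' μ) (fun f hf => ?_)
    (Submodule.sum_mem _ fun d _ =>
      a.out.dsc d _ (Submodule.subset_span ⟨k, y d, μ, my d, rfl⟩)))
  rw [h2 μ _ _ ⟨f, rfl⟩, ← Finset.sum_coe_sort F, coe_sum, Submodule.coe_sum,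
    ContinuousLinearMap.sum_apply]
  exact Finset.sum_congr rfl fun d _ => (gy d μ).vv f hf

end

theorem cfs (c : Cx D) (g : Gr c.Q c.G) : CFS c.Q c.G c.t ∧ (FSS c.Q → ∀ (e : Bool) k
    (Φ : Fin k.n → Fld D) a, IsMl c.Q k Φ → (∀ a, if e then Fer c.Q c.G (Φ a) else c.Q.bose (Φ a)) →
      DescS c.Q c.G c.t e (Φ a)) :=
  let ⟨_, _, a⟩ := all_thm c
  ⟨cfs' a fun _ _ => clf c g, desc' a fun _ _ => clf c g⟩

theorem conf_of (c : Cx D) (h : Tl c) {T : Ix → Ix → Fld D} {J : Ix → Fld D}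
    (e : c.t = improveJ T J) (hJ : IsVirial c.Q T J) (hI : IsImpr c.Q T (improveJ T J)) :
    CInv c.Q c.G T J := by
  obtain ⟨x, f0, a⟩ := all_thm c
  exact ⟨hJ, hI, e ▸ conf_act c.hT, e ▸ cfs' a h, e ▸ desc' a h⟩

/-- the trivial grading -/
theorem conf_id {Q : Theory D} {T : Ix → Ix → Fld D} {J : Ix → Fld D} (hT : Q.IsStress T)
    (hJ : IsVirial Q T J) (hI : IsImpr Q T (improveJ T J)) (g : GM Q) : CInv Q id T J := by
  let c : Cx D := ⟨Q, _, id, isT_of_impr hI hT,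
    fun m n k l f g v hf hg h => sub_eq_zero.1 (hI.self m n k l f g v hf hg h), hI.cov,
    ⟨_, hT.bose o o⟩, fun _ => rfl, fun _ _ => rfl, fun _ _ _ _ _ => rfl, fun _ _ _ _ _ _ => rfl,
    fun C hC => ⟨1, fun _ => 1, fun _ => C, fun _ => hC, fun g v _ => by simp⟩,
    fun s L a s' L' a' hs hs' hL hL' => .inl fun v => g.mul s L a s' L' a' v hs hs' hL hL',
    fun F w _ => g.mix w _⟩
  refine conf_of c (fun A B hA hB h => ?_) rfl hJ hI
  have e1 : ∀ f v, IsTest f → A f v = 0 := fun f v hf =>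
    (smul_eq_zero.1 ((two_smul ℂ _).trans (add_eq_zero_iff_eq_neg.2 (hA.2 f v hf)))).resolve_left
      two_ne_zero
  have e2 : ∀ f v, IsTest f → B f v = 0 := fun f v hf => ext_inner_right ℂ fun w => by
    rw [H755.adj_symm h f v w hf, e1 _ _ (isTest_bar hf), inner_zero_left, inner_zero_right]
  have z := (clm_row c).zero
  exact ⟨(clm_row c).cg 0 0 _ _ z.toC0 (fun f v hf => e1 f v hf.1) fun f v hf => e2 f v hf.1,
    fun y f v hf => Q.transl A y f v hA.1 hf.1, fun y f v hf => Q.transl B y f v hB hf.1⟩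

variable {D' : Type*} [NormedAddCommGroup D'] [InnerProductSpace ℂ D'] {Q : Theory D}
  {Q' : Theory D'} {i : D →ₗᵢ[ℂ] D'} {A : (V → V) → D → D}

/-- mixing for the vectors of a sector -/
theorem mix_sect (h : Sect Q Q' i) (R : Rep Q A) (m : MixC Q) (η : D) (w : D') :
    Tendsto (fun r : ℝ => inner ℂ (i η) (Q'.U (Real.sqrt (r * 1)) (Lsc r 1) 0 w)) (𝓝[>] 0)
      (𝓝 (inner ℂ (i η) Q'.vac * inner ℂ Q'.vac w)) := by
  let z := ContinuousLinearMap.adjoint i.toContinuousLinearMap.completion (w : Completion D')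
  have hz : ∀ u : D, inner ℂ (u : Completion D) z = inner ℂ (i u) w := fun u => by
    rw [ContinuousLinearMap.adjoint_inner_right, ContinuousLinearMap.completion_apply_coe,
      Completion.inner_coe]
    rfl
  have h1 := m z η
  rw [om, Completion.inner_coe, hz, h.vac, ← i.inner_map_map, h.vac] at h1
  refine h1.congr' (eventually_nhdsWithin_of_forall fun r hr => ?_)
  obtain ⟨p1, p2⟩ := lsc_pos hr
  obtain ⟨W, hW⟩ := (ublock R).lin _ _ 0 p1 p2
  show inner ℂ _ (Ue _ _ _ _ _) = inner ℂ _ (Q'.U _ _ _ _)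
  rw [← ue_inv R p1 p2 0 η, ← (ublock R).coe _ _ _ _ p1 p2, ← hW, ← hW, W.inner_map_map, hz,
    h.U _ _ _ _ p1 p2, Q'.U_inner _ _ _ _ _ p1 p2]

/-- theories with fermions -/
theorem conf_gr (h : Sect Q Q' i) (R : Rep Q A) (m : MixC Q) {G : D' → D'} (g : Gr Q' G)
    {T : Ix → Ix → Fld D} {T' : Ix → Ix → Fld D'} (hT : Q'.IsStress T')
    (hx : ∀ m n, Xt i (T m n) (T' m n)) {J : Ix → Fld D} (hJ : IsVirial Q T J)
    (hc : Curl J Q.vac) : ∃ J', (∀ m, Xt i (J m) (J' m)) ∧ CInv Q' G T' J' := by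
  obtain ⟨J', h1, h2, h3, -⟩ := FE.fe h hT hx hJ hc
  let L : D' →ₗ[ℂ] D' :=
    { toFun := G
      map_add' := fun v w => ext_inner_right ℂ fun y => by simp only [g.herm, inner_add_left]
      map_smul' := fun z v => ext_inner_right ℂ fun y => by
        simp only [g.herm, inner_smul_left, RingHom.id_apply] }
  let c : Cx D' := ⟨Q', _, G, isT_of_impr h3 hT,
    fun m n k l f g v hf hg h => sub_eq_zero.1 (h3.self m n k l f g v hf hg h), h3.cov,
    ⟨_, hT.bose o o⟩, g.inv, g.herm, fun m n f v hf => by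
      show _ = L _
      simp only [improveJ, map_add, map_sub, map_smul, map_sum, g.bose _ _ v (hT.bose m n) hf,
        fun k l => g.bose _ _ v (h2.bose k) (Ap.test_pd l hf)]
      rfl, g.GU,
    fun C hC => by
      obtain ⟨C1, C2, a1, a2, e⟩ := g.split C hC
      refine ⟨2, ![1, -1], ![C1, C2], fun j => ?_, fun k v hk => ?_⟩
      · fin_cases j
        exacts [Q'.bose_fld _ a1, a2.1]
      · rw [e k _ hk, g.bose C1 k v a1 hk, a2.2 k v hk, show G _ = L _ from rfl, map_add, map_neg]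
        simp [L, g.inv],
    g.mul, fun F w hF => by
      have e : smt (improveJ T' J') F Q'.vac = i (smt (improveJ T J) F Q.vac) := by
        simp only [smt, improveJ, map_sum, map_add, map_sub, map_smul, h.vac,
          fun m n => hx m n _ Q.vac (hF m n).isTest,
          fun m n k l => h1 k _ Q.vac (Ap.test_pd l (hF m n).isTest)]
      rw [e]
      exact mix_sect h R m _ w⟩
  exact ⟨J', h1, conf_of c (fun A B => clf c g) rfl h2 h3⟩

variable (Q) (T : Ix → Ix → Fld D) (A) (hA : ND.PCh Q T A) (hG : TfGen Q)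
  (N : Set V → VonNeumannAlgebra (Completion D)) (hN : LNm Q A N) (hU : UVac Q)
include hA hG hN hU

theorem curl_thm (hT : Q.IsStress T) (hR : Rec Q) : ∃ J, IsVirial Q T J ∧ Curl J Q.vac := by
  obtain ⟨wp, wm, t, hP⟩ := tp_of Q T hT A hA hG N hN hU
  obtain ⟨c, rfl, rfl, e⟩ := ctx_row D Q T A N _ _ _ True hT hA hG hN hU fun _ => hP
  have : Fact c.tp := ⟨e ▸ trivial⟩
  obtain ⟨J, hJ, hc⟩ := (main c).2.2 hR
  exact ⟨J, hJ, curl_of hc⟩

theorem final5 (hT : Q.IsStress T) (hR : Rec Q) : ∃ J,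
    (∀ Q' : Theory D, IsEnl Q Q' → CInv Q' id T J) ∧
    ∀ (D' : Type*) [NormedAddCommGroup D'] [InnerProductSpace ℂ D'] (Q' : Theory D') i G T',
      Sect Q Q' i → Gr Q' G → Q'.IsStress T' → (∀ m n, Xt i (T m n) (T' m n)) →
      ∃ J', (∀ m, Xt i (J m) (J' m)) ∧ CInv Q' G T' J' := by
  obtain ⟨J, hJ, hc⟩ := curl_thm Q A T hA hG N hN hU hT hR
  have m := mix_of Q T hT A hA hG N hN hU
  refine ⟨J, fun Q' hE => ?_, fun D' _ _ Q' i G T' h g hT' hx =>
    conf_gr h hN.toRep m g hT' hx hJ hc⟩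
  have hT' := H746.isStress_enl hE hT
  have hJ' := H731.enl_virial hE hJ
  exact conf_id hT' hJ' (H246D.impr_of_curl hT' hJ' (hE.vac ▸ hc)) ((gm_of hN.toRep m).enl hE)

theorem final6 (hT : Stress0 Q T) (hF : FSS Q) (hR : Rec Q) : ∃ S J, Q.IsStress S ∧
    IsImpr Q T (improveJ S J) ∧ CInv Q id S J ∧
    ∀ (D' : Type*) [NormedAddCommGroup D'] [InnerProductSpace ℂ D'] (Q' : Theory D') i G T',
      Sect Q Q' i → Gr Q' G → Stress0 Q' T' → FSS Q' → (∀ m n, Xt i (T m n) (T' m n)) →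
      ∃ S' J', Q'.IsStress S' ∧ (∀ m n, Xt i (S m n) (S' m n)) ∧ (∀ m, Xt i (J m) (J' m)) ∧
        CInv Q' G S' J' := by
  obtain ⟨S, h1, h2, h3⟩ := Fss.G.fss (Fss.G.m1_rep hN.toRep) hF hT
  obtain ⟨h4, h5⟩ := h3 A hN.toRep hA
  obtain ⟨J, h6, h7⟩ := final5 Q A S h4 hG N hN hU h1 hR
  have h8 := h6 Q ⟨rfl, rfl, fun _ h => h, fun _ h => h⟩
  refine ⟨S, J, h1, h5 _ h8.impr, h8, fun D' _ _ Q' i G T' h g hT' hF' hx => ?_⟩
  obtain ⟨S', a1, a2, -⟩ := Fss.G.fss (Fss.G.m1_gr g) hF' hT'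
  have a3 : ∀ m n, Xt i (S m n) (S' m n) := fun m n => by
    obtain ⟨F, C, b1, b2, b3⟩ := h2 m n
    obtain ⟨F', C', b4, b5, b6⟩ := a2 m n
    rw [b3, b6]
    exact Fss.G.xt_comp h (Fss.G.m1_rep hN.toRep) (Fss.G.m1_gr g) (hx m n) b2 b5 b1 b4
  obtain ⟨J', a4, a5⟩ := h7 D' Q' i G S' h g a1 a3
  exact ⟨S', J', a1, a3, a4, a5⟩

theorem final7 : (Q.IsStress T → (∃ l, IsPot Q T l ∧ ∀ ν, N86.WeakLoc Q fun f => l (pd ν f)) ∧
      (Rec Q → ∃ J, (∀ Q' : Theory D, IsEnl Q Q' → CInv Q' id T J) ∧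
        ∀ (Q' : Theory D') i G T', Sect Q Q' i → Gr Q' G → Q'.IsStress T' →
          (∀ m n, Xt i (T m n) (T' m n)) → ∃ J', (∀ m, Xt i (J m) (J' m)) ∧ CInv Q' G T' J')) ∧
    (Stress0 Q T → FSS Q → Rec Q → ∃ S J, Q.IsStress S ∧ IsImpr Q T (improveJ S J) ∧
      CInv Q id S J ∧ ∀ (Q' : Theory D') i G T', Sect Q Q' i → Gr Q' G → Stress0 Q' T' →
        FSS Q' → (∀ m n, Xt i (T m n) (T' m n)) → ∃ S' J', Q'.IsStress S' ∧
          (∀ m n, Xt i (S m n) (S' m n)) ∧ (∀ m, Xt i (J m) (J' m)) ∧ CInv Q' G S' J') :=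
  ⟨fun hT => ⟨(final0 Q T hT A hA hG N hN hU).1, fun hR =>
    (final5 Q A T hA hG N hN hU hT hR).imp fun _ h => ⟨h.1, h.2 D'⟩⟩, fun hT hF hR =>
    (final6 Q A T hA hG N hN hU hT hF hR).imp fun _ h => h.imp fun _ h =>
      ⟨h.1, h.2.1, h.2.2.1, h.2.2.2 D'⟩⟩

end

end Vale.Agent.P352X.CA.G
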