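import Vale.Agent.P352X.CG.Spec

/-!
# P352X, block CG, row WSP: the space of good fields
-/

set_option linter.all false

open scoped ComplexConjugate

namespace Vale.Agent.P352X.CA.G

open Vale.Agent.P352 Vale.Agent.P352.GF Vale.Agent.P352.BW Vale.Agent.P352.H246
open Vale.Agent.P352.H496 Vale.Agent.P352.H755
open TPD (pS TT)
open UniformSpace (Completion)

noncomputable section

variable {D : Type*} [NormedAddCommGroup D] [InnerProductSpace ℂ D] {c : Cx D}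

namespace Wsp

theorem cs_ev {f : Sch} (h : HasCompactSupport f) : CS (ev f) := ⟨⟨f, rfl⟩, h⟩

/-- the space of good fields -/
def W (g : GD c) : Submodule ℂ (TT D) where
  carrier := {y | ∃ R R', c.Gd R R' y}
  zero_mem' := ⟨_, _, g.zero⟩
  add_mem' := fun ⟨_, _, a⟩ ⟨_, _, b⟩ => ⟨_, _, by simpa using g.add _ _ _ _ _ _ 1 a b⟩
  smul_mem' := fun z _ ⟨_, _, b⟩ => ⟨_, _, by simpa using g.add _ _ _ _ _ _ z g.zero b⟩

theorem exists_op (g : GD c) (e : EXT c) (T : Fld D → Fld D) (p : Prop)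
    (ex : p → ∀ P P' y, c.Gd P P' y → ∃ z, c.Gd (T P) (T P') z)
    (lin : p → ∀ P R (z : ℂ) f v, CS f → T (lc P z R) f v = T P f v + z • T R f v)
    (cg : p → ∀ P R f v, (∀ f v, CS f → P f v = R f v) → CS f → T P f v = T R f v) :
    ∃ S : W g →ₗ[ℂ] W g, ∀ R R' (y : W g), p → c.Gd R R' y → c.Gd (T R) (T R') (S y) := by
  by_cases hp : p
  swap
  · exact ⟨0, fun _ _ _ a => (hp a).elim⟩
  have h : ∀ y : W g, ∃ z : W g, ∀ R R', c.Gd R R' y → c.Gd (T R) (T R') z := fun y => by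
    obtain ⟨P, P', a⟩ := y.2
    obtain ⟨z, b⟩ := ex hp P P' y a
    refine ⟨⟨z, _, _, b⟩, fun R R' a' => ?_⟩
    obtain ⟨z', b'⟩ := ex hp R R' y a'
    obtain rfl : z' = z := e.extv _ _ fun f hf => by
      rw [b.vv f hf, b'.vv f hf, cg hp _ _ _ _ (g.uniq _ _ _ _ _ a.cf a.vv a'.cf a'.vv) (cs_ev hf)]
    exact b'
  choose S hS using h
  have key : ∀ (y z : W g) (a : ℂ), S (y + a • z) = S y + a • S z := fun y z a => by
    obtain ⟨P, P', h1⟩ := y.2
    obtain ⟨R, R', h2⟩ := z.2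
    refine Subtype.ext (e.extv _ _ fun f hf => ?_)
    rw [(hS (y + a • z) _ _ (g.add _ _ _ _ _ _ a h1 h2)).vv f hf, lin hp _ _ _ _ _ (cs_ev hf),
      Completion.coe_add, Completion.coe_smul, ← (hS y _ _ h1).vv f hf, ← (hS z _ _ h2).vv f hf]
    rfl
  have h0 : S 0 = 0 := by simpa using key 0 0 1
  exact ⟨⟨⟨S, fun y z => by simpa using key y z 1⟩, fun a z => by simpa [h0] using key 0 z a⟩,
    fun R R' y _ => hS y R R'⟩

theorem exists_res (N : Submodule ℂ (TT D)) (A : Completion D →L[ℂ] Completion D)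
    (B : Sch →L[ℂ] Sch) (p : Prop) (h : p → ∀ y ∈ N, A ∘L y ∘L B ∈ N) :
    ∃ S : N →ₗ[ℂ] N, ∀ y : N, p → (S y : TT D) = A ∘L (y : TT D) ∘L B := by
  by_cases hp : p
  · exact ⟨⟨⟨fun y => ⟨_, h hp y y.2⟩, fun y z => Subtype.ext (by ext; simp)⟩,
      fun a z => Subtype.ext (by ext; simp)⟩, fun _ _ => rfl⟩
  · exact ⟨0, fun _ a => (hp a).elim⟩

end Wsp

open Wsp

variable (c) in
/-- row WSP -/
theorem wsp_row (h : L4 c) : WSP c := by
  obtain ⟨S, hS⟩ := exists_op h.gd h.ext (Sg c.t Xd) True (fun _ => h.gd.s)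
    (fun _ P R z f v => h.sg.linP _ P R z f v kil_d) fun _ P R f v => h.sg.cg _ P R f v kil_d
  choose M hM using fun w => exists_op h.gd h.ext (Sg c.t (Xw w)) (As w)
    (fun a P P' y => h.gd.w w P P' y a) (fun a P R z f v => h.sg.linP _ P R z f v (h.pk.kw w a))
    fun a P R f v => h.sg.cg _ P R f v (h.pk.kw w a)
  choose K hK using fun b => exists_op h.gd h.ext (c.Kb b) True (fun _ => h.gd.k b)
    (fun _ => h.sg.kbP b) fun _ => h.sg.kbc b
  choose P hP using fun a => exists_res (W h.gd) (.id ℂ _) (KDa.dS a) True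
    fun _ y ⟨_, _, b⟩ => ⟨_, _, h.gd.df a _ _ _ b⟩
  choose al ha using fun s L => exists_res (W h.gd) (Ug c.Q s L 0) (pS s L) (0 < s ∧ IsLor L)
    fun a y ⟨_, _, b⟩ => (h.gd.al s L _ _ _ a.1 a.2 b).imp fun _ e => e.imp fun _ e => e.1
  exact ⟨⟨W h.gd, S, M, K, P, al, fun _ => Iff.rfl, fun R R' y => hS R R' y trivial, hM,
    fun b R R' y => hK b R R' y trivial, fun a y => hP a y trivial,
    fun s L y a b => ha s L y ⟨a, b⟩⟩⟩

end

end Vale.Agent.P352X.CA.G
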