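import Vale.Agent.P352X.CG.Fin
import Vale.Agent.P352X.CG.FS
import Vale.Agent.P352X.R.LIE
import Vale.Agent.P352X.CA.MAT
import Vale.Agent.P352X.CA.NL
import Vale.Agent.P352X.CA.PK
import Vale.Agent.P352X.CA.PUG
import Vale.Agent.P352X.CG.ADJ
import Vale.Agent.P352X.CG.AX1
import Vale.Agent.P352X.CG.AX2
import Vale.Agent.P352X.CG.BA
import Vale.Agent.P352X.CG.BDR
import Vale.Agent.P352X.CG.CLA
import Vale.Agent.P352X.CG.CLB
import Vale.Agent.P352X.CG.CLJ
import Vale.Agent.P352X.CG.CLM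
import Vale.Agent.P352X.CG.COV
import Vale.Agent.P352X.CG.DEC
import Vale.Agent.P352X.CG.DER
import Vale.Agent.P352X.CG.DIL
import Vale.Agent.P352X.CG.GD
import Vale.Agent.P352X.CG.IND
import Vale.Agent.P352X.CG.INI
import Vale.Agent.P352X.CG.KIL
import Vale.Agent.P352X.CG.LFT
import Vale.Agent.P352X.CG.LO1
import Vale.Agent.P352X.CG.LO2
import Vale.Agent.P352X.CG.MUL
import Vale.Agent.P352X.CG.PRI
import Vale.Agent.P352X.CG.PUC
import Vale.Agent.P352X.CG.QQ
import Vale.Agent.P352X.CG.REL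
import Vale.Agent.P352X.CG.RHO
import Vale.Agent.P352X.CG.SEP
import Vale.Agent.P352X.CG.SG
import Vale.Agent.P352X.CG.TOW
import Vale.Agent.P352X.CG.TRA
import Vale.Agent.P352X.CG.UNI
import Vale.Agent.P352X.CG.VAC
import Vale.Agent.P352X.CG.VC0
import Vale.Agent.P352X.CG.WRD
import Vale.Agent.P352X.CG.WSP

/-!
# P352X, block CG: the wiring
-/

set_option linter.all false

namespace Vale.Agent.P352X.CA.G

open Vale.Agent.P352 Vale.Agent.P352.GF Vale.Agent.P352.H246
open Vale.Agent.P352.SubConf (IsAdj)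
open Vale.Agent.P352.H148 (Od)

theorem rowsA {W H : Type*} [AddCommGroup W] [Module ℂ W] [NormedAddCommGroup H]
    [InnerProductSpace ℂ H] (A : Dat W H) : A.Rows :=
  ⟨mul_row A, kil_row A, lo1_row A, lo2_row A, lor_row A, qa_row A, adj_row A, qk_row A,
    dil_row A, tow_row A, pri_row A, uni_row A, dsc_row A⟩

variable {D : Type*} [NormedAddCommGroup D] [InnerProductSpace ℂ D]

theorem rowsB (c : Cx D) : Rows c :=
  ⟨pug_row, pk_row, nul_row, ba_row c, ind_row c, puc_row c, cla_row c, clj_row c, clb_row c,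
    clm_row c, sep_row c, ext_row c, rho_row c, bdr_row c, vc0_row c, vac_row c, sg_row c,
    tra_row c, cov_row c, rel_row c, qq_row c, wrd_row c, act_row c, dec_row c, gd_row c,
    wsp_row c, ax1_row c, ax2_row c, der_row c, ini_row c, lft_row c, cvp_row c⟩

theorem all_thm (c : Cx D) : ∃ (x : Ops c) (f0 : Sch), All x f0 :=
  all_of (rowsB c) mat_row lie_row fun x f0 => rowsA (x.dat f0)

/-- twisted Fermi fields are local -/
theorem clf (c : Cx D) (g : Gr c.Q c.G) {A B : Fld D} (hA : Fer c.Q c.G A) (hB : c.Q.fld B)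
    (h : IsAdj A B) : c.CF (fun f v => A f (c.G v)) fun f v => c.G (B f v) := by
  have h' := H755.adj_symm h
  have a1 : IsAdj (fun f v => A f (c.G v)) fun f v => c.G (B f v) := fun f v w hf => by
    rw [h f _ w hf, c.gh]
  have a2 := H755.adj_symm a1
  have l1 : ∀ C f k v, c.Q.fld C → IsTest f → IsTest k → Sep f k →
      A f (c.G (C k v)) = C k (A f (c.G v)) := fun C f k v hC hf hk s => by
    obtain ⟨C1, C2, h1, h2, e⟩ := g.split C hC
    have e1 : c.G (C2 k v) = -C2 k (c.G v) := by rw [h2.2 k v hk, neg_neg]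
    have e2 : ∀ u w, A f (u + -w) = A f u - A f w := fun u w => ext_inner_right ℂ fun y => by
      simp only [h f _ _ hf, inner_add_left, inner_neg_left, inner_sub_left, sub_eq_add_neg]
    rw [e k v hk, e k _ hk, show c.G (C1 k v + C2 k v) = c.G _ + c.G _ from c.gl.map_add _ _,
      ← g.bose C1 k v h1 hk, e1, e2, g.anti A C2 f k _ hA h2 hf hk s, sub_neg_eq_add,
      c.Q.loc C1 A k f _ h1 hA.1 hk hf (H15.sep_symm s)]
  have o1 : Od (fun f v => A f (c.G v)) fun f v => c.G (B f v) :=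
    ⟨fun f k z v => c.Q.lin A f k z _ hA.1, fun v => c.Q.cont A _ hA.1, a1⟩
  have o2 : Od (fun f v => c.G (B f v)) fun f v => A f (c.G v) :=
    ⟨fun f k z v hf hk => by
      rw [c.Q.lin B f k z v hB hf hk]
      exact (c.gl.map_add _ _).trans (congrArg _ (c.gl.map_smul _ _)),
    fun v => (c.gl.mkContinuous 1 fun u => by
      rw [one_mul]; exact (c.gn u).le).continuous.comp (c.Q.cont B v hB), a2⟩
  refine ⟨⟨⟨fun f k z v hf hk => o1.lin f k z v hf.1 hk.1, fun f v w hf => a1 f v w hf.1,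
    fun C f k v hC hf hk => l1 C f k v hC hf.1 hk.1, fun m n f k v hf hk s => ?_⟩,
    ⟨fun f k z v hf hk => o2.lin f k z v hf.1 hk.1, fun f v w hf => a2 f v w hf.1,
      fun C f k v hC hf hk s => ?_, fun m n f k v hf hk s => ?_⟩, CLB.jb c o1, CLB.jb c o2⟩,
    fun y f v hf => ?_, fun y f v hf => ?_⟩
  · rw [← c.gt _ _ _ _ hk.1, c.hT.loc m n A k f _ hA.1 hk.1 hf.1 (H15.sep_symm s)]
  · obtain ⟨C', hC', e⟩ := c.Q.adj C hC
    refine ext_inner_right ℂ fun w => ?_
    rw [a2 _ _ _ hf.1, e _ _ _ hk.1, e _ _ _ hk.1, a2 _ _ _ hf.1]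
    refine congrArg _ (l1 C' _ _ w hC' (isTest_bar hf.1) (isTest_bar hk.1) ?_).symm
    rwa [GF.Sep, tsupport_bar, tsupport_bar]
  · rw [c.gt _ _ _ _ hk.1, c.hT.loc m n B k f _ hB hk.1 hf.1 (H15.sep_symm s)]
  · show A f (c.G _) = _
    rw [← c.gU _ _ _ _ one_pos H496.isLor_one, c.Q.transl A y f _ hA.1 hf.1]
  · show c.G (B f _) = _
    rw [c.Q.transl B y f _ hB hf.1, c.gU _ _ _ _ one_pos H496.isLor_one]

end Vale.Agent.P352X.CA.G
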